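import Mathlib

namespace Vale.Agent.P249

open Finset

variable {V : Type*} [Fintype V] [MetricSpace V]

/-- Closed ball as a finset. -/
noncomputable def fball (x : V) (t : ℝ) : Finset V := by
  classical exact Finset.univ.filter fun z => dist z x ≤ t

theorem mem_fball {x z : V} {t : ℝ} : z ∈ fball x t ↔ dist z x ≤ t := by
  simp [fball]

theorem self_mem_fball {x : V} {t : ℝ} (ht : 0 ≤ t) : x ∈ fball x t := by
  simpa [mem_fball] using ht

theorem fball_subset {x : V} {t t' : ℝ} (h : t ≤ t') : fball x t ⊆ fball x t' := fun z hz =>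
  mem_fball.2 ((mem_fball.1 hz).trans h)

theorem fball_subset_fball {x y : V} {t t' : ℝ} (h : t + dist y x ≤ t') :
    fball y t ⊆ fball x t' := fun z hz => by
  refine mem_fball.2 (le_trans ?_ h)
  linarith [dist_triangle z y x, mem_fball.1 hz]

/-- Logarithm of the population of a ball. -/
noncomputable def lpop (x : V) (t : ℝ) : ℝ := Real.log ((max 1 (fball x t).card : ℕ))

theorem lpop_nonneg (x : V) (t : ℝ) : 0 ≤ lpop x t := Real.log_natCast_nonneg _

theorem lpop_mono (x : V) {t t' : ℝ} (h : t ≤ t') : lpop x t ≤ lpop x t' := by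
  refine Real.log_le_log (by exact_mod_cast Nat.lt_of_lt_of_le one_pos (le_max_left _ _)) ?_
  exact Nat.cast_le.2 (max_le_max le_rfl (Finset.card_le_card (fball_subset (x := x) h)))

theorem lpop_le {n : ℕ} (hn : Fintype.card V ≤ n) (hn1 : 1 ≤ n) (x : V) (t : ℝ) :
    lpop x t ≤ Real.log n := by
  refine Real.log_le_log (by exact_mod_cast Nat.lt_of_lt_of_le one_pos (le_max_left _ _)) ?_
  exact Nat.cast_le.2 (max_le hn1 ((Finset.card_le_univ _).trans hn))

theorem lpop_eq {x : V} {t : ℝ} (ht : 0 ≤ t) : lpop x t = Real.log (fball x t).card := by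
  rw [lpop, max_eq_right]
  exact Finset.card_pos.2 ⟨x, self_mem_fball ht⟩

section Avg

variable {W : Type*} [NormedAddCommGroup W] [NormedSpace ℝ W]

/-- Average of `f` over a finset. -/
noncomputable def avgOn (s : Finset V) (f : V → W) : W := (s.card : ℝ)⁻¹ • ∑ z ∈ s, f z

omit [Fintype V] [MetricSpace V] in
theorem avgOn_sub_const {s : Finset V} (hs : s.Nonempty) (f : V → W) (c : W) :
    avgOn s f - c = avgOn s fun z => f z - c := by
  have : (s.card : ℝ) ≠ 0 := by exact_mod_cast hs.card_pos.ne'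
  rw [avgOn, avgOn, Finset.sum_sub_distrib, Finset.sum_const, smul_sub, ← Nat.cast_smul_eq_nsmul ℝ,
    smul_smul, inv_mul_cancel₀ this, one_smul]

omit [Fintype V] [MetricSpace V] in
theorem norm_avgOn_le {s : Finset V} (hs : s.Nonempty) {f : V → W} {M : ℝ}
    (hf : ∀ z ∈ s, ‖f z‖ ≤ M) : ‖avgOn s f‖ ≤ M := by
  have : (0 : ℝ) < s.card := by exact_mod_cast hs.card_pos
  rw [avgOn, norm_smul, norm_inv, Real.norm_natCast, inv_mul_le_iff₀ this]
  exact (norm_sum_le _ _).trans ((Finset.sum_le_sum hf).trans_eq (by simp))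

omit [Fintype V] [MetricSpace V] in
theorem norm_avgOn_sub_le {s : Finset V} (hs : s.Nonempty) {f : V → W} {c : W} {M : ℝ}
    (hf : ∀ z ∈ s, ‖f z - c‖ ≤ M) : ‖avgOn s f - c‖ ≤ M := by
  rw [avgOn_sub_const hs]
  exact norm_avgOn_le hs hf

omit [Fintype V] [MetricSpace V] in
theorem norm_avgOn_subset_le {s t : Finset V} (hts : t ⊆ s) (ht : t.Nonempty) {f : V → W} {c : W}
    {M : ℝ} (hM : 0 ≤ M) (hf : ∀ z ∈ s, ‖f z - c‖ ≤ M) :
    ‖avgOn s f - avgOn t f‖ ≤ 2 * M * (1 - (t.card : ℝ) / s.card) := by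
  classical
  have hs : s.Nonempty := ht.mono hts
  have hsc : (0 : ℝ) < s.card := by exact_mod_cast hs.card_pos
  have htc : (0 : ℝ) < t.card := by exact_mod_cast ht.card_pos
  have hle : (t.card : ℝ) ≤ s.card := by exact_mod_cast Finset.card_le_card hts
  set g := fun z => f z - c with hg
  have hsplit : avgOn s f - avgOn t f = (s.card : ℝ)⁻¹ • (∑ z ∈ s \ t, g z) +
      ((s.card : ℝ)⁻¹ - (t.card : ℝ)⁻¹) • ∑ z ∈ t, g z := by
    rw [← sub_sub_sub_cancel_right (avgOn s f) (avgOn t f) c, avgOn_sub_const hs, avgOn_sub_const ht,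
      avgOn, avgOn, ← Finset.sum_sdiff hts, smul_add, sub_smul]
    abel
  rw [hsplit]
  refine (norm_add_le _ _).trans ?_
  have h1 : ‖(s.card : ℝ)⁻¹ • ∑ z ∈ s \ t, g z‖ ≤ M * (1 - (t.card : ℝ) / s.card) := by
    rw [norm_smul, norm_inv, Real.norm_natCast, inv_mul_le_iff₀ hsc]
    refine (norm_sum_le _ _).trans ((Finset.sum_le_sum fun z hz =>
      hf z (Finset.mem_sdiff.1 hz).1).trans_eq ?_)
    rw [Finset.sum_const, nsmul_eq_mul, Finset.cast_card_sdiff hts]
    field_simp
  have h2 : ‖((s.card : ℝ)⁻¹ - (t.card : ℝ)⁻¹) • ∑ z ∈ t, g z‖ ≤ M * (1 - (t.card : ℝ) / s.card) := by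
    have hinv : (s.card : ℝ)⁻¹ ≤ (t.card : ℝ)⁻¹ := by gcongr
    rw [norm_smul, Real.norm_eq_abs, abs_sub_comm, abs_of_nonneg (by linarith)]
    refine (mul_le_mul_of_nonneg_left ((norm_sum_le _ _).trans (Finset.sum_le_sum fun z hz =>
      hf z (hts hz))) (by linarith)).trans_eq ?_
    rw [Finset.sum_const, nsmul_eq_mul]
    field_simp
  linarith

/-- Averages over two nearby balls differ by the logarithmic growth between them. -/
theorem norm_avg_ball_sub_le {x y : V} {t : ℝ} (hd : dist x y ≤ t) {f : V → W} {c : W} {M : ℝ}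
    (hM : 0 ≤ M) (hf : ∀ z ∈ fball x (t + dist x y), ‖f z - c‖ ≤ M) :
    ‖avgOn (fball x t) f - avgOn (fball y t) f‖
      ≤ 4 * M * (lpop x (t + dist x y) - lpop x (t - dist x y)) := by
  set d := dist x y with hd'
  have hd0 : 0 ≤ d := dist_nonneg
  set U := fball x (t + d)
  set I := fball x (t - d)
  have hIne : I.Nonempty := ⟨x, self_mem_fball (by linarith)⟩
  have hIx : I ⊆ fball x t := fball_subset (by linarith)
  have hIy : I ⊆ fball y t := fball_subset_fball (by linarith)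
  have hxU : fball x t ⊆ U := fball_subset (by linarith)
  have hyU : fball y t ⊆ U := fball_subset_fball (by rw [dist_comm y x])
  have key : ∀ A : Finset V, I ⊆ A → A ⊆ U →
      ‖avgOn A f - avgOn I f‖ ≤ 2 * M * (lpop x (t + d) - lpop x (t - d)) := by
    intro A hIA hAU
    refine (norm_avgOn_subset_le hIA hIne hM fun z hz => hf z (hAU hz)).trans
      (mul_le_mul_of_nonneg_left ?_ (by linarith))
    have hIc : (0 : ℝ) < I.card := by exact_mod_cast hIne.card_pos
    have hAc : (0 : ℝ) < A.card := by exact_mod_cast (hIne.mono hIA).card_pos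
    have hUc : (A.card : ℝ) ≤ U.card := by exact_mod_cast Finset.card_le_card hAU
    rw [lpop_eq (by linarith), lpop_eq (by linarith), ← Real.log_div (by linarith) hIc.ne']
    refine le_trans ?_ (Real.one_sub_inv_le_log_of_pos (div_pos (by linarith) hIc))
    rw [inv_div]
    gcongr
  calc ‖avgOn (fball x t) f - avgOn (fball y t) f‖
      = ‖(avgOn (fball x t) f - avgOn I f) - (avgOn (fball y t) f - avgOn I f)‖ := by
        rw [sub_sub_sub_cancel_right]
    _ ≤ _ := (norm_sub_le _ _).trans (add_le_add (key _ hIx hxU) (key _ hIy hyU))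
    _ = _ := by ring

/-- The `k`-th of `Q` radii in `[2^i, 2^(i+1))`. -/
noncomputable def rad (i : ℤ) (Q k : ℕ) : ℝ := (2 : ℝ) ^ i * (1 + k / Q)

theorem rad_bounds (i : ℤ) {Q k : ℕ} (hk : k < Q) :
    (2 : ℝ) ^ i ≤ rad i Q k ∧ rad i Q k ≤ 2 * (2 : ℝ) ^ i := by
  have hp : (0 : ℝ) < (2 : ℝ) ^ i := by positivity
  have h1 : (k : ℝ) / Q ≤ 1 := div_le_one_of_le₀ (by exact_mod_cast hk.le) (Nat.cast_nonneg _)
  have h2 : (0 : ℝ) ≤ (k : ℝ) / Q := by positivity
  constructor <;> unfold rad <;> nlinarith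

/-- Smoothing at level `i`. -/
noncomputable def levelAvg (i : ℤ) (Q : ℕ) (x : V) (f : V → W) : W :=
  (Q : ℝ)⁻¹ • ∑ k ∈ Finset.range Q, avgOn (fball x (rad i Q k)) f

theorem norm_levelAvg_sub_const_le {i : ℤ} {Q : ℕ} (hQ : 0 < Q) {x : V} {f : V → W} {c : W}
    {M : ℝ} (hf : ∀ z, dist z x ≤ 2 * (2 : ℝ) ^ i → ‖f z - c‖ ≤ M) :
    ‖levelAvg i Q x f - c‖ ≤ M := by
  have hQR : (0 : ℝ) < Q := by exact_mod_cast hQ
  have : levelAvg i Q x f - c
      = (Q : ℝ)⁻¹ • ∑ k ∈ Finset.range Q, (avgOn (fball x (rad i Q k)) f - c) := by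
    rw [levelAvg, Finset.sum_sub_distrib, smul_sub, Finset.sum_const, Finset.card_range,
      ← Nat.cast_smul_eq_nsmul ℝ, smul_smul, inv_mul_cancel₀ hQR.ne', one_smul]
  rw [this, norm_smul, norm_inv, Real.norm_natCast, inv_mul_le_iff₀ hQR]
  refine (norm_sum_le _ _).trans (le_trans (Finset.sum_le_sum fun k hk => ?_) (b := ∑ _k ∈ Finset.range Q, M) (by simp))
  obtain ⟨h1, h2⟩ := rad_bounds i (Finset.mem_range.1 hk)
  exact norm_avgOn_sub_le ⟨x, self_mem_fball ((by positivity : (0:ℝ) ≤ (2:ℝ)^i).trans h1)⟩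
    fun z hz => hf z ((mem_fball.1 hz).trans h2)

omit [Fintype V] [MetricSpace V] in
theorem shift_sum (f : ℕ → ℝ) (Q m : ℕ) :
    ∑ k ∈ Finset.range Q, (f (k + m) - f k) = ∑ j ∈ Finset.range m, (f (Q + j) - f j) := by
  have h1 := Finset.sum_range_add f Q m
  have h2 := Finset.sum_range_add f m Q
  rw [add_comm m Q] at h2
  have h3 : ∀ k, f (m + k) = f (k + m) := fun k => by rw [add_comm]
  simp only [h3] at h2
  rw [Finset.sum_sub_distrib, Finset.sum_sub_distrib]
  linarith

/-- Lipschitz bound of one smoothing level. -/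
theorem norm_levelAvg_sub_le {i : ℤ} {Q : ℕ} (hQ : 0 < Q) {x y : V} {f : V → W} {A s : ℝ}
    (hA : 0 ≤ A) (hs0 : 0 ≤ s) (hs : s ≤ (2 : ℝ) ^ i) (he : (2 : ℝ) ^ i / Q ≤ dist x y)
    (hf : ∀ z, dist z x ≤ 2 * (2 : ℝ) ^ i + dist x y → ‖f z - f x‖ ≤ A * (dist z x + s)) :
    ‖levelAvg i Q x f - levelAvg i Q y f‖ ≤
      80 * A * dist x y * ((lpop x ((2 : ℝ) ^ (i + 2)) - lpop x ((2 : ℝ) ^ (i - 1))) +
        if (2 : ℝ) ^ i < 4 * dist x y then 1 else 0) := by
  set d := dist x y with hd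
  set p : ℝ := (2 : ℝ) ^ i with hp'
  have hp : (0 : ℝ) < p := by positivity
  have hup : (2 : ℝ) ^ (i + 2) = 4 * p := by rw [zpow_add₀ two_ne_zero]; norm_num; ring
  have hdown : (2 : ℝ) ^ (i - 1) = p / 2 := by rw [zpow_sub₀ two_ne_zero, zpow_one]
  have hQR : (0 : ℝ) < Q := by exact_mod_cast hQ
  have hd0 : 0 < d := lt_of_lt_of_le (by positivity) he
  set g := lpop x ((2 : ℝ) ^ (i + 2)) - lpop x ((2 : ℝ) ^ (i - 1)) with hg
  have hg0 : 0 ≤ g := sub_nonneg.2 (lpop_mono x (by rw [hup, hdown]; linarith))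
  by_cases hbig : p < 4 * d
  · rw [if_pos hbig]
    have hbx : ‖levelAvg i Q x f - f x‖ ≤ A * (3 * p + d) :=
      norm_levelAvg_sub_const_le hQ fun z hz =>
        (hf z (by linarith)).trans (mul_le_mul_of_nonneg_left (by linarith) hA)
    have hby : ‖levelAvg i Q y f - f x‖ ≤ A * (3 * p + d) :=
      norm_levelAvg_sub_const_le hQ fun z hz => by
        have hzx : dist z x ≤ 2 * p + d := by
          linarith [dist_triangle z y x, dist_comm y x]
        exact (hf z hzx).trans (mul_le_mul_of_nonneg_left (by linarith) hA)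
    calc ‖levelAvg i Q x f - levelAvg i Q y f‖
        = ‖(levelAvg i Q x f - f x) - (levelAvg i Q y f - f x)‖ := by rw [sub_sub_sub_cancel_right]
      _ ≤ A * (3 * p + d) + A * (3 * p + d) := (norm_sub_le _ _).trans (add_le_add hbx hby)
      _ ≤ 80 * A * d * 1 := by nlinarith
      _ ≤ _ := mul_le_mul_of_nonneg_left (by linarith) (by positivity)
  rw [if_neg hbig, add_zero]
  push Not at hbig
  set e := p / Q with he'
  have he0 : 0 < e := by positivity
  set m := ⌈d / e⌉₊ with hm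
  have hme : d ≤ m * e := by
    have := Nat.le_ceil (d / e); rw [div_le_iff₀ he0] at this; exact this
  have hme2 : (m : ℝ) * e ≤ 2 * d := by
    have := (Nat.ceil_lt_add_one (by positivity : 0 ≤ d / e)).le
    have h2 := mul_le_mul_of_nonneg_right this he0.le
    rw [add_mul, div_mul_cancel₀ _ he0.ne', one_mul] at h2
    linarith
  have hQe : (Q : ℝ) * e = p := by rw [he']; field_simp
  have hmQ : m ≤ Q := by
    have : (m : ℝ) * e ≤ Q * e := by linarith
    exact_mod_cast le_of_mul_le_mul_right this he0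
  let F : ℕ → ℝ := fun j => lpop x (e * ((Q - m : ℕ) + j))
  have hterm : ∀ k ∈ Finset.range Q, ‖avgOn (fball x (rad i Q k)) f - avgOn (fball y (rad i Q k)) f‖
      ≤ 16 * A * p * (F (k + 2 * m) - F k) := by
    intro k hk
    obtain ⟨h1, h2⟩ := rad_bounds i (Finset.mem_range.1 hk)
    rw [← hp'] at h1 h2
    have hrad : rad i Q k = e * (Q + k) := by rw [rad, ← hp', he']; field_simp
    refine (norm_avg_ball_sub_le (c := f x) (M := 4 * A * p) (by linarith) (by positivity)
      fun z hz => ?_).trans ?_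
    · have hz' := mem_fball.1 hz
      exact (hf z (by linarith)).trans (by nlinarith)
    · rw [show 4 * (4 * A * p) = 16 * A * p by ring]
      refine mul_le_mul_of_nonneg_left (sub_le_sub (lpop_mono x ?_) (lpop_mono x ?_)) (by positivity)
      · rw [hrad, ← hd]
        push_cast [Nat.cast_sub hmQ]
        linarith
      · rw [hrad, ← hd]
        push_cast [Nat.cast_sub hmQ]
        linarith
  have hsum : ∑ k ∈ Finset.range Q, (F (k + 2 * m) - F k) ≤ 2 * m * g := by
    rw [shift_sum]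
    refine (Finset.sum_le_card_nsmul _ _ g fun j hj => ?_).trans_eq (by simp)
    have hj' : (j : ℝ) ≤ 2 * m := by exact_mod_cast (Finset.mem_range.1 hj).le
    have hj0 : (0 : ℝ) ≤ j := Nat.cast_nonneg j
    have hej : e * j ≤ e * (2 * m) := mul_le_mul_of_nonneg_left hj' he0.le
    have hej0 : 0 ≤ e * j := by positivity
    refine sub_le_sub (lpop_mono x ?_) (lpop_mono x ?_)
    · rw [hup]; push_cast [Nat.cast_sub hmQ]; linarith
    · rw [hdown]; push_cast [Nat.cast_sub hmQ]; linarith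
  have : levelAvg i Q x f - levelAvg i Q y f = (Q : ℝ)⁻¹ • ∑ k ∈ Finset.range Q,
      (avgOn (fball x (rad i Q k)) f - avgOn (fball y (rad i Q k)) f) := by
    rw [levelAvg, levelAvg, ← smul_sub, ← Finset.sum_sub_distrib]
  rw [this, norm_smul, norm_inv, Real.norm_natCast, inv_mul_le_iff₀ hQR]
  calc ‖∑ k ∈ Finset.range Q, (avgOn (fball x (rad i Q k)) f - avgOn (fball y (rad i Q k)) f)‖
      ≤ ∑ k ∈ Finset.range Q, 16 * A * p * (F (k + 2 * m) - F k) :=
        (norm_sum_le _ _).trans (Finset.sum_le_sum hterm)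
    _ ≤ 16 * A * p * (2 * m * g) := by
        rw [← Finset.mul_sum]; exact mul_le_mul_of_nonneg_left hsum (by positivity)
    _ = 32 * A * Q * ((m : ℝ) * e) * g := by rw [← hQe]; ring
    _ ≤ 32 * A * Q * (2 * d) * g := by gcongr
    _ ≤ _ := by nlinarith [show 0 ≤ A * Q * d * g by positivity]

end Avg

end Vale.Agent.P249
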