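import Mathlib

namespace Vale.Agent.P249

open Finset

variable {ι : Type*} [Fintype ι]

/-- Weights of a finite probability space. -/
structure IsProb (w : ι → ℝ) : Prop where
  nonneg : ∀ i, 0 ≤ w i
  sum_eq : ∑ i, w i = 1

theorem IsProb.pi {T : Type*} [Fintype T] [DecidableEq T] {κ : T → Type*} [∀ t, Fintype (κ t)]
    {w : ∀ t, κ t → ℝ} (h : ∀ t, IsProb (w t)) :
    IsProb (fun ω : (∀ t, κ t) => ∏ t, w t (ω t)) := by
  refine ⟨fun ω => Finset.prod_nonneg fun t _ => (h t).nonneg _, ?_⟩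
  rw [← Fintype.prod_sum]
  simp [(h _).sum_eq]

/-- Expectation of a product of functions of independent coordinates. -/
theorem sum_pi_prod {T : Type*} [Fintype T] [DecidableEq T] {κ : T → Type*} [∀ t, Fintype (κ t)]
    (w g : ∀ t, κ t → ℝ) :
    ∑ ω : (∀ t, κ t), (∏ t, w t (ω t)) * (∏ t, g t (ω t)) = ∏ t, ∑ i, w t i * g t i := by
  rw [Fintype.prod_sum]
  simp [Finset.prod_mul_distrib]

/-- The weight of an event. -/
noncomputable def prob (w : ι → ℝ) (A : ι → Prop) : ℝ := by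
  classical exact ∑ i, if A i then w i else 0

theorem prob_nonneg {w : ι → ℝ} (h : ∀ i, 0 ≤ w i) (A : ι → Prop) : 0 ≤ prob w A := by
  classical
  unfold prob
  exact Finset.sum_nonneg fun i _ => by split_ifs <;> simp [h i]

theorem prob_le_expect {w g : ι → ℝ} (h : ∀ i, 0 ≤ w i) (hg : ∀ i, 0 ≤ g i) {A : ι → Prop}
    (hA : ∀ i, A i → 1 ≤ g i) : prob w A ≤ ∑ i, w i * g i := by
  classical
  unfold prob
  refine Finset.sum_le_sum fun i _ => ?_
  split_ifs with hi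
  · exact le_mul_of_one_le_right (h i) (hA i hi)
  · exact mul_nonneg (h i) (hg i)

theorem prob_mono {w : ι → ℝ} (h : ∀ i, 0 ≤ w i) {A B : ι → Prop} (hAB : ∀ i, A i → B i) :
    prob w A ≤ prob w B := by
  classical
  unfold prob
  refine Finset.sum_le_sum fun i _ => ?_
  by_cases hA : A i
  · simp [hA, hAB i hA]
  · by_cases hB : B i <;> simp [hA, hB, h i]

theorem prob_or_le {w : ι → ℝ} (h : ∀ i, 0 ≤ w i) (A B : ι → Prop) :
    prob w (fun i => A i ∨ B i) ≤ prob w A + prob w B := by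
  classical
  unfold prob
  rw [← Finset.sum_add_distrib]
  refine Finset.sum_le_sum fun i _ => ?_
  by_cases hA : A i <;> by_cases hB : B i <;> simp [hA, hB, h i]

theorem prob_exists_le {w : ι → ℝ} (h : ∀ i, 0 ≤ w i) {Q : Type*} (s : Finset Q)
    (A : Q → ι → Prop) :
    prob w (fun i => ∃ q ∈ s, A q i) ≤ ∑ q ∈ s, prob w (A q) := by
  classical
  unfold prob
  rw [Finset.sum_comm]
  refine Finset.sum_le_sum fun i _ => ?_
  by_cases hA : ∃ q ∈ s, A q i
  · obtain ⟨q, hq, hqi⟩ := hA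
    rw [if_pos ⟨q, hq, hqi⟩]
    refine le_trans (le_of_eq (by rw [if_pos hqi])) (Finset.single_le_sum (f := fun q => if A q i then w i else 0) (fun r _ => ?_) hq)
    split_ifs <;> simp [h i]
  · rw [if_neg hA]
    exact Finset.sum_nonneg fun r _ => by split_ifs <;> simp [h i]

/-- If the bad events have total weight below one, some outcome avoids all of them. -/
theorem exists_avoid {w : ι → ℝ} (hw : IsProb w) {A : ι → Prop} (hA : prob w A < 1) :
    ∃ i, ¬ A i := by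
  by_contra hc
  push Not at hc
  have : prob w A = 1 := by
    unfold prob
    simpa [hc] using hw.sum_eq
  linarith

theorem exp_mul_le_one_add {y : ℝ} (lam : ℝ) (h0 : 0 ≤ y) (h1 : y ≤ 1) :
    Real.exp (lam * y) ≤ 1 + y * (Real.exp lam - 1) := by
  have := convexOn_exp.2 (Set.mem_univ (0 : ℝ)) (Set.mem_univ lam) (sub_nonneg.2 h1) h0
    (sub_add_cancel 1 y)
  simp only [smul_eq_mul, mul_zero, zero_add, Real.exp_zero] at this
  rw [mul_comm lam y]
  linarith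

/-- Moment generating function bound for a sum of independent `[0,1]`-valued variables. -/
theorem mgf_le {T : Type*} [Fintype T] [DecidableEq T] {κ : T → Type*} [∀ t, Fintype (κ t)]
    {w : ∀ t, κ t → ℝ} (hw : ∀ t, IsProb (w t)) (g : ∀ t, κ t → ℝ)
    (h0 : ∀ t i, 0 ≤ g t i) (h1 : ∀ t i, g t i ≤ 1) (lam : ℝ) :
    ∑ ω : (∀ t, κ t), (∏ t, w t (ω t)) * Real.exp (lam * ∑ t, g t (ω t))
      ≤ Real.exp ((Real.exp lam - 1) * ∑ t, ∑ i, w t i * g t i) := by
  have heq : ∀ ω : (∀ t, κ t), Real.exp (lam * ∑ t, g t (ω t))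
      = ∏ t, Real.exp (lam * g t (ω t)) := fun ω => by
    rw [Finset.mul_sum, Real.exp_sum]
  simp_rw [heq]
  rw [sum_pi_prod w (fun t i => Real.exp (lam * g t i))]
  simp only [Finset.mul_sum (Finset.univ : Finset T), Real.exp_sum]
  refine Finset.prod_le_prod (fun t _ => Finset.sum_nonneg fun i _ =>
    mul_nonneg ((hw t).nonneg i) (Real.exp_pos _).le) (fun t _ => ?_)
  calc ∑ i, w t i * Real.exp (lam * g t i)
      ≤ ∑ i, w t i * (1 + g t i * (Real.exp lam - 1)) :=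
        Finset.sum_le_sum fun i _ => mul_le_mul_of_nonneg_left
          (exp_mul_le_one_add lam (h0 t i) (h1 t i)) ((hw t).nonneg i)
    _ = 1 + (Real.exp lam - 1) * ∑ i, w t i * g t i := by
        simp_rw [mul_add, mul_one, Finset.sum_add_distrib, (hw t).sum_eq, Finset.mul_sum]
        congr 1
        exact Finset.sum_congr rfl fun i _ => by ring
    _ ≤ _ := by linarith [Real.add_one_le_exp ((Real.exp lam - 1) * ∑ i, w t i * g t i)]

/-- Markov applied to the moment generating function. -/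
theorem chernoff {T : Type*} [Fintype T] [DecidableEq T] {κ : T → Type*} [∀ t, Fintype (κ t)]
    {w : ∀ t, κ t → ℝ} (hw : ∀ t, IsProb (w t)) (g : ∀ t, κ t → ℝ)
    (h0 : ∀ t i, 0 ≤ g t i) (h1 : ∀ t i, g t i ≤ 1) (lam a : ℝ) :
    prob (fun ω : (∀ t, κ t) => ∏ t, w t (ω t)) (fun ω => lam * a ≤ lam * ∑ t, g t (ω t))
      ≤ Real.exp ((Real.exp lam - 1) * (∑ t, ∑ i, w t i * g t i) - lam * a) := by
  have hW := IsProb.pi hw
  calc prob (fun ω : (∀ t, κ t) => ∏ t, w t (ω t)) (fun ω => lam * a ≤ lam * ∑ t, g t (ω t))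
      ≤ ∑ ω : (∀ t, κ t), (∏ t, w t (ω t)) * Real.exp (lam * (∑ t, g t (ω t)) - lam * a) :=
        prob_le_expect hW.nonneg (fun ω => (Real.exp_pos _).le) (fun ω hω => by
          simpa using Real.exp_le_exp.2 (sub_nonneg.2 hω))
    _ = (∑ ω : (∀ t, κ t), (∏ t, w t (ω t)) * Real.exp (lam * ∑ t, g t (ω t)))
          * Real.exp (-(lam * a)) := by
        rw [Finset.sum_mul]
        refine Finset.sum_congr rfl fun ω _ => ?_
        rw [mul_assoc, ← Real.exp_add]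
        ring_nf
    _ ≤ _ := by
        rw [sub_eq_add_neg, Real.exp_add]
        exact mul_le_mul_of_nonneg_right (mgf_le hw g h0 h1 lam) (Real.exp_pos _).le

theorem exp_sub_one_le {lam : ℝ} (h : |lam| ≤ 1) : Real.exp lam - 1 ≤ lam + lam ^ 2 := by
  linarith [(abs_le.1 (Real.abs_exp_sub_one_sub_id_le h)).2]

/-- Upper tail. -/
theorem chernoff_upper {T : Type*} [Fintype T] [DecidableEq T] {κ : T → Type*}
    [∀ t, Fintype (κ t)] {w : ∀ t, κ t → ℝ} (hw : ∀ t, IsProb (w t)) (g : ∀ t, κ t → ℝ)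
    (h0 : ∀ t i, 0 ≤ g t i) (h1 : ∀ t i, g t i ≤ 1) {m ε : ℝ} (hm0 : 0 ≤ m)
    (hm : ∑ t, ∑ i, w t i * g t i ≤ m) (hε : 0 < ε) (hε1 : ε ≤ 2) :
    prob (fun ω : (∀ t, κ t) => ∏ t, w t (ω t)) (fun ω => (1 + ε) * m ≤ ∑ t, g t (ω t))
      ≤ Real.exp (-(ε ^ 2 / 4 * m)) := by
  have hl : 0 < ε / 2 := by linarith
  refine le_trans ?_ (le_trans (chernoff hw g h0 h1 (ε / 2) ((1 + ε) * m)) ?_)
  · exact prob_mono (IsProb.pi hw).nonneg fun ω hω => mul_le_mul_of_nonneg_left hω hl.le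
  · refine Real.exp_le_exp.2 ?_
    have hl1 : (1 : ℝ) ≤ Real.exp (ε / 2) := Real.one_le_exp hl.le
    have h2 : (Real.exp (ε / 2) - 1) * ∑ t, ∑ i, w t i * g t i ≤ (Real.exp (ε / 2) - 1) * m :=
      mul_le_mul_of_nonneg_left hm (by linarith)
    have h3 : Real.exp (ε / 2) - 1 ≤ ε / 2 + (ε / 2) ^ 2 :=
      exp_sub_one_le (by rw [abs_of_pos hl]; linarith)
    nlinarith [mul_le_mul_of_nonneg_right h3 hm0]

/-- Lower tail. -/
theorem chernoff_lower {T : Type*} [Fintype T] [DecidableEq T] {κ : T → Type*}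
    [∀ t, Fintype (κ t)] {w : ∀ t, κ t → ℝ} (hw : ∀ t, IsProb (w t)) (g : ∀ t, κ t → ℝ)
    (h0 : ∀ t i, 0 ≤ g t i) (h1 : ∀ t i, g t i ≤ 1) {m ε : ℝ} (hm0 : 0 ≤ m)
    (hm : m ≤ ∑ t, ∑ i, w t i * g t i) (hε : 0 < ε) (hε1 : ε ≤ 2) :
    prob (fun ω : (∀ t, κ t) => ∏ t, w t (ω t)) (fun ω => ∑ t, g t (ω t) ≤ (1 - ε) * m)
      ≤ Real.exp (-(ε ^ 2 / 4 * m)) := by
  have hl : -(ε / 2) < 0 := by linarith
  refine le_trans ?_ (le_trans (chernoff hw g h0 h1 (-(ε / 2)) ((1 - ε) * m)) ?_)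
  · exact prob_mono (IsProb.pi hw).nonneg fun ω hω =>
      mul_le_mul_of_nonpos_left hω hl.le
  · refine Real.exp_le_exp.2 ?_
    have hl1 : Real.exp (-(ε / 2)) ≤ 1 := Real.exp_le_one_iff.2 hl.le
    have h2 : (Real.exp (-(ε / 2)) - 1) * ∑ t, ∑ i, w t i * g t i
        ≤ (Real.exp (-(ε / 2)) - 1) * m :=
      mul_le_mul_of_nonpos_left hm (by linarith)
    have h3 : Real.exp (-(ε / 2)) - 1 ≤ -(ε / 2) + (-(ε / 2)) ^ 2 :=
      exp_sub_one_le (by rw [abs_of_neg hl]; linarith)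
    nlinarith [mul_le_mul_of_nonneg_right h3 hm0]

end Vale.Agent.P249
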