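import Vale.Agent.P249.Defs
import Vale.Agent.P249.Prob

open MeasureTheory
open scoped ENNReal

namespace Vale.Agent.P249

universe u

/-- `p`-th power of the `ℓ_p` distance between rows `i` and `j`. -/
noncomputable def pd (p : ℝ) {n : ℕ} {κ : Type*} [Fintype κ] (y : Fin n → κ → ℝ)
    (i j : Fin n) : ℝ :=
  ∑ k, |y i k - y j k| ^ p

theorem pd_nonneg {p : ℝ} {n : ℕ} {κ : Type*} [Fintype κ] (y : Fin n → κ → ℝ) (i j : Fin n) :
    0 ≤ pd p y i j :=
  Finset.sum_nonneg fun _ _ => Real.rpow_nonneg (abs_nonneg _) _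

theorem pd_comm {p : ℝ} {n : ℕ} {κ : Type*} [Fintype κ] (y : Fin n → κ → ℝ) (i j : Fin n) :
    pd p y i j = pd p y j i := by
  simp [pd, abs_sub_comm]

theorem pd_self {p : ℝ} (hp : 0 < p) {n : ℕ} {κ : Type*} [Fintype κ] (y : Fin n → κ → ℝ)
    (i : Fin n) : pd p y i i = 0 := by
  simp [pd, Real.zero_rpow hp.ne']

theorem abs_sub_eq_zero_of_pd_eq_zero {p : ℝ} (hp : 0 < p) {n : ℕ} {κ : Type*} [Fintype κ]
    {y : Fin n → κ → ℝ} {i j : Fin n} (h : pd p y i j = 0) (k : κ) : |y i k - y j k| = 0 := by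
  have := (Finset.sum_eq_zero_iff_of_nonneg fun l _ => Real.rpow_nonneg (abs_nonneg _) _).1 h k
    (Finset.mem_univ k)
  exact ((Real.rpow_eq_zero_iff_of_nonneg (abs_nonneg _)).1 this).1

theorem rpow_le_pd {p : ℝ} {n : ℕ} {κ : Type*} [Fintype κ] (y : Fin n → κ → ℝ) (i j : Fin n)
    (k : κ) : |y i k - y j k| ^ p ≤ pd p y i j :=
  Finset.single_le_sum (fun l _ => Real.rpow_nonneg (abs_nonneg (y i l - y j l)) p)
    (Finset.mem_univ k)

/-- Finite-dimensional form of a dimension reduction statement, for `p`-th powers of distances: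
every finite family of vectors has a two-sided `A`-approximation in dimension at most `b`. -/
def FiniteReduces (p : ℝ) (n : ℕ) (A b : ℝ) : Prop :=
  ∀ (N : ℕ) (y : Fin n → Fin N → ℝ), ∃ (d : ℕ) (z : Fin n → Fin d → ℝ), (d : ℝ) ≤ b ∧
    ∀ i j, pd p y i j ≤ pd p z i j ∧ pd p z i j ≤ A * pd p y i j

theorem FiniteReduces.mk' {p : ℝ} {n : ℕ} {A b : ℝ}
    (h : ∀ (N : ℕ) (y : Fin n → Fin N → ℝ), ∃ (κ : Type) (_ : Fintype κ) (z : Fin n → κ → ℝ),
      (Fintype.card κ : ℝ) ≤ b ∧ ∀ i j, pd p y i j ≤ pd p z i j ∧ pd p z i j ≤ A * pd p y i j) :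
    FiniteReduces p n A b := by
  intro N y
  obtain ⟨κ, _, z, hb, hz⟩ := h N y
  refine ⟨Fintype.card κ, fun i l => z i ((Fintype.equivFin κ).symm l), hb, fun i j => ?_⟩
  have : pd p (fun i l => z i ((Fintype.equivFin κ).symm l)) i j = pd p z i j :=
    Equiv.sum_comp (Fintype.equivFin κ).symm (fun k => |z i k - z j k| ^ p)
  rw [this]
  exact hz i j

/-- `ℓ_p^N`-valued simple functions are isometric to finite families of vectors. -/
theorem simpleFunc_realize {Ω : Type u} [MeasurableSpace Ω] {μ : Measure Ω} {p : ℝ≥0∞}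
    [Fact (1 ≤ p)] (hp : p ≠ ∞) {n : ℕ} (S : Fin n → Lp.simpleFunc ℝ p μ) :
    ∃ (N : ℕ) (y : Fin n → Fin N → ℝ),
      ∀ i j, dist (S i : Lp ℝ p μ) (S j : Lp ℝ p μ) ^ p.toReal = pd p.toReal y i j := by
  classical
  have hp1 : (1 : ℝ) ≤ p.toReal := ENNReal.toReal_mono hp (Fact.out : (1 : ℝ≥0∞) ≤ p)
  set T := fun i => Lp.simpleFunc.toSimpleFunc (S i) with hT
  -- the joint value map
  let Φ : SimpleFunc Ω (Fin n → ℝ) :=
    { toFun := fun ω i => T i ω
      measurableSet_fiber' := fun v => by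
        have : (fun ω i => T i ω) ⁻¹' {v} = ⋂ i, (T i) ⁻¹' {v i} := by
          ext ω; simp [funext_iff]
        rw [this]
        exact MeasurableSet.iInter fun i => (T i).measurableSet_fiber _
      finite_range' := by
        refine ((Set.Finite.pi fun i => (T i).finite_range)).subset ?_
        rintro v ⟨ω, rfl⟩ i _
        exact ⟨ω, rfl⟩ }
  refine ⟨Fintype.card Φ.range, fun i l =>
    (μ.real (Φ ⁻¹' {((Fintype.equivFin Φ.range).symm l : Fin n → ℝ)})) ^ p.toReal⁻¹ *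
      ((Fintype.equivFin Φ.range).symm l : Fin n → ℝ) i, fun i j => ?_⟩
  have hfun : ((S i : Lp ℝ p μ) : Ω → ℝ) - ((S j : Lp ℝ p μ) : Ω → ℝ)
      =ᵐ[μ] fun ω => Φ ω i - Φ ω j := by
    filter_upwards [Lp.simpleFunc.toSimpleFunc_eq_toFun (S i),
      Lp.simpleFunc.toSimpleFunc_eq_toFun (S j)] with ω h1 h2
    show ((S i : Lp ℝ p μ) : Ω → ℝ) ω - ((S j : Lp ℝ p μ) : Ω → ℝ) ω = T i ω - T j ω
    simp [hT, h1, h2]
  have hL : MemLp (fun ω => Φ ω i - Φ ω j) p μ :=
    ((Lp.memLp (S i : Lp ℝ p μ)).sub (Lp.memLp (S j : Lp ℝ p μ))).ae_eq hfun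
  rw [Lp.dist_def, eLpNorm_congr_ae hfun]
  have hval : ((eLpNorm (fun ω => Φ ω i - Φ ω j) p μ).toReal) ^ p.toReal
      = ∫ ω, |Φ ω i - Φ ω j| ^ p.toReal ∂μ := by
    rw [hL.eLpNorm_eq_integral_rpow_norm (ne_of_gt (lt_of_lt_of_le one_pos Fact.out)) hp, ENNReal.toReal_ofReal (by positivity),
      Real.rpow_inv_rpow (by positivity) (by linarith)]
    simp [Real.norm_eq_abs]
  rw [hval]
  have hint : Integrable (Φ.map fun v => |v i - v j| ^ p.toReal) μ := by
    have := hL.integrable_norm_rpow (ne_of_gt (lt_of_lt_of_le one_pos Fact.out)) hp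
    simpa [Real.norm_eq_abs, SimpleFunc.coe_map, Function.comp_def] using this
  have : ∫ ω, |Φ ω i - Φ ω j| ^ p.toReal ∂μ
      = ∑ v ∈ Φ.range, μ.real (Φ ⁻¹' {v}) * |v i - v j| ^ p.toReal := by
    have hdec : (fun ω => |Φ ω i - Φ ω j| ^ p.toReal) = fun ω => ∑ v ∈ Φ.range,
        (Φ ⁻¹' {v}).indicator (fun _ => |v i - v j| ^ p.toReal) ω := by
      funext ω
      rw [Finset.sum_eq_single (Φ ω)]
      · simp
      · intro v _ hv
        exact Set.indicator_of_notMem (by simp [Ne.symm hv]) _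
      · intro hv
        exact absurd (SimpleFunc.mem_range_self Φ ω) hv
    have hi : ∀ v ∈ Φ.range,
        Integrable ((Φ ⁻¹' {v}).indicator fun _ => |v i - v j| ^ p.toReal) μ := fun v _ => by
      refine (hint.indicator (Φ.measurableSet_fiber v)).congr (Filter.Eventually.of_forall fun ω => ?_)
      by_cases hω : ω ∈ Φ ⁻¹' {v}
      · rw [Set.indicator_of_mem hω, Set.indicator_of_mem hω]
        simp only [Set.mem_preimage, Set.mem_singleton_iff] at hω
        simp [hω]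
      · rw [Set.indicator_of_notMem hω, Set.indicator_of_notMem hω]
    rw [hdec, integral_finsetSum _ hi]
    refine Finset.sum_congr rfl fun v _ => ?_
    rw [integral_indicator_const _ (Φ.measurableSet_fiber v), smul_eq_mul]
  rw [this]
  unfold pd
  rw [← Finset.sum_coe_sort, ← Equiv.sum_comp (Fintype.equivFin Φ.range).symm]
  refine Finset.sum_congr rfl fun l _ => ?_
  rw [← mul_sub, abs_mul, Real.mul_rpow (abs_nonneg _) (abs_nonneg _),
    abs_of_nonneg (Real.rpow_nonneg measureReal_nonneg _),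
    Real.rpow_inv_rpow measureReal_nonneg (by linarith)]

/-- Finite-dimensional reduction gives the statement for every `L_p(μ)`. -/
theorem embedsWithDim_of_finiteReduces {p : ℝ≥0∞} [Fact (1 ≤ p)] (hp : p ≠ ∞) {n : ℕ}
    {A b D : ℝ} (hA : 1 ≤ A) (hD : 1 < D / A ^ p.toReal⁻¹)
    (h : FiniteReduces p.toReal n A b) : EmbedsWithDim.{u} p n D b := by
  classical
  intro Ω mΩ μ X
  have hp1 : (1 : ℝ) ≤ p.toReal := ENNReal.toReal_mono hp (Fact.out : (1 : ℝ≥0∞) ≤ p)
  set r := A ^ p.toReal⁻¹ with hr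
  have hr1 : 1 ≤ r := Real.one_le_rpow hA (by positivity)
  have hD1 : r < D := by rwa [one_lt_div (by linarith)] at hD
  obtain ⟨θ, hθ, hθ1, hθ2⟩ : ∃ θ : ℝ, 0 < θ ∧ θ < 1 ∧ r * (1 + θ) / (1 - θ) ≤ D := by
    refine ⟨(D - r) / (D + r), div_pos (by linarith) (by linarith), ?_, le_of_eq ?_⟩
    · rw [div_lt_one (by linarith)]; linarith
    · have hne : D + r ≠ 0 := by linarith
      have h1 : 1 - (D - r) / (D + r) = 2 * r / (D + r) := by
        rw [eq_div_iff hne, sub_mul, div_mul_cancel₀ _ hne]; ring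
      have h2 : 1 + (D - r) / (D + r) = 2 * D / (D + r) := by
        rw [eq_div_iff hne, add_mul, div_mul_cancel₀ _ hne]; ring
      rw [h1, h2]
      have hr0 : r ≠ 0 := by linarith
      field_simp
  -- a scale below every positive distance
  obtain ⟨m, hm, hmle⟩ : ∃ m : ℝ, 0 < m ∧ ∀ i j, X i ≠ X j → m ≤ dist (X i) (X j) := by
    let s := (Finset.univ.filter fun q : Fin n × Fin n => X q.1 ≠ X q.2).image
      fun q => dist (X q.1) (X q.2)
    by_cases hs : s.Nonempty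
    · refine ⟨s.min' hs, ?_, fun i j hij => s.min'_le _ ?_⟩
      · obtain ⟨q, hq, hq'⟩ := Finset.mem_image.1 (s.min'_mem hs)
        rw [← hq']; exact dist_pos.2 (Finset.mem_filter.1 hq).2
      · exact Finset.mem_image.2 ⟨(i, j), by simp [hij], rfl⟩
    · exact ⟨1, one_pos, fun i j hij => absurd ⟨_, Finset.mem_image.2 ⟨(i, j), by simp [hij], rfl⟩⟩ hs⟩
  have happ : ∀ v : Lp ℝ p μ, ∃ s : Lp.simpleFunc ℝ p μ, dist v (s : Lp ℝ p μ) < θ * m / 2 :=
    fun v => (Metric.denseRange_iff.1 (Lp.simpleFunc.denseRange hp)) v _ (by positivity)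
  choose app happ using happ
  obtain ⟨N, y, hy⟩ := simpleFunc_realize hp (fun i => app (X i))
  obtain ⟨d, z, hd, hz⟩ := h N y
  refine ⟨d, hd, fun i => WithLp.toLp p fun k => z i k / (1 - θ), fun i j => ?_⟩
  have hzd : dist (WithLp.toLp p fun k => z i k / (1 - θ) : PiLp p fun _ : Fin d => ℝ)
      (WithLp.toLp p fun k => z j k / (1 - θ)) = (pd p.toReal z i j) ^ p.toReal⁻¹ / (1 - θ) := by
    rw [PiLp.dist_eq_sum (by linarith), one_div]
    simp only [Real.dist_eq]
    simp_rw [div_sub_div_same, abs_div, abs_of_pos (show 0 < 1 - θ by linarith),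
      Real.div_rpow (abs_nonneg _) (show 0 ≤ 1 - θ by linarith), ← Finset.sum_div]
    rw [Real.div_rpow (Finset.sum_nonneg fun _ _ => by positivity) (by positivity),
      Real.rpow_rpow_inv (by linarith) (by linarith)]
    rfl
  rw [hzd]
  set a := dist (app (X i) : Lp ℝ p μ) (app (X j) : Lp ℝ p μ) with ha
  have hda : a = (pd p.toReal y i j) ^ p.toReal⁻¹ := by
    rw [← hy i j, Real.rpow_rpow_inv dist_nonneg (by linarith)]
  have hlow : a ≤ (pd p.toReal z i j) ^ p.toReal⁻¹ := by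
    rw [hda]; exact Real.rpow_le_rpow (pd_nonneg _ _ _) (hz i j).1 (by positivity)
  have hup : (pd p.toReal z i j) ^ p.toReal⁻¹ ≤ r * a := by
    rw [hda, hr, ← Real.mul_rpow (by linarith) (pd_nonneg _ _ _)]
    exact Real.rpow_le_rpow (pd_nonneg _ _ _) (hz i j).2 (by positivity)
  have hab : (1 - θ) * dist (X i) (X j) ≤ a ∧ a ≤ (1 + θ) * dist (X i) (X j) := by
    by_cases hij : X i = X j
    · simp [ha, hij]
    · have h1 := hmle i j hij
      have hthm : θ * m ≤ θ * dist (X i) (X j) := mul_le_mul_of_nonneg_left h1 hθ.le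
      have e1 := happ (X i)
      have e2 := happ (X j)
      have t1 := dist_triangle4 (X i) (app (X i) : Lp ℝ p μ) (app (X j) : Lp ℝ p μ) (X j)
      have t2 := dist_triangle4 (app (X i) : Lp ℝ p μ) (X i) (X j) (app (X j) : Lp ℝ p μ)
      rw [dist_comm (app (X j) : Lp ℝ p μ) (X j)] at t1
      rw [dist_comm (app (X i) : Lp ℝ p μ) (X i)] at t2
      constructor <;> linarith [ha]
  have h1θ : 0 < 1 - θ := by linarith
  constructor
  · rw [le_div_iff₀ h1θ]
    linarith [hab.1]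
  · rw [div_le_iff₀ h1θ]
    calc _ ≤ r * a := hup
      _ ≤ r * ((1 + θ) * dist (X i) (X j)) := by gcongr; exact hab.2
      _ = (r * (1 + θ) / (1 - θ)) * dist (X i) (X j) * (1 - θ) := by
        field_simp
      _ ≤ _ := by gcongr

end Vale.Agent.P249
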