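import Vale.Agent.P249.Balls

namespace Vale.Agent.P249

open Finset

variable {V : Type*} [Fintype V] [MetricSpace V] [DecidableEq V]

/-- Rank of a point in the ordering given by a permutation. -/
noncomputable def rank (π : Equiv.Perm V) (z : V) : ℕ := (Fintype.equivFin V (π z) : ℕ)

omit [MetricSpace V] [DecidableEq V] in
theorem rank_injective (π : Equiv.Perm V) : Function.Injective (rank π) :=
  Fin.val_injective.comp ((Fintype.equivFin V).injective.comp π.injective)

/-- First element of `s` in the ordering given by `π` (`d0` if `s` is empty). -/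
noncomputable def first (π : Equiv.Perm V) (s : Finset V) (d0 : V) : V :=
  if h : s.Nonempty then (s.exists_min_image (rank π) h).choose else d0

omit [MetricSpace V] [DecidableEq V] in
theorem first_mem {π : Equiv.Perm V} {s : Finset V} {d0 : V} (h : s.Nonempty) :
    first π s d0 ∈ s := by
  rw [first, dif_pos h]; exact (s.exists_min_image (rank π) h).choose_spec.1

omit [MetricSpace V] [DecidableEq V] in
theorem rank_first_le {π : Equiv.Perm V} {s : Finset V} {d0 z : V} (hz : z ∈ s) :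
    rank π (first π s d0) ≤ rank π z := by
  rw [first, dif_pos ⟨z, hz⟩]; exact (s.exists_min_image (rank π) ⟨z, hz⟩).choose_spec.2 z hz

omit [MetricSpace V] [DecidableEq V] in
theorem first_eq {π : Equiv.Perm V} {s : Finset V} {d0 z : V} (hz : z ∈ s)
    (hmin : ∀ w ∈ s, rank π z ≤ rank π w) : first π s d0 = z :=
  rank_injective π (le_antisymm (rank_first_le hz) (hmin _ (first_mem ⟨z, hz⟩)))

omit [MetricSpace V] in
theorem sum_first_indicator {A : Finset V} (d0 : V) {a : V} (ha : a ∈ A) :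
    (A.card : ℝ) * ∑ π : Equiv.Perm V, (if first π A d0 = a then (1 : ℝ) else 0)
      = Fintype.card (Equiv.Perm V) := by
  classical
  set c : V → ℝ := fun a => ∑ π : Equiv.Perm V, (if first π A d0 = a then (1 : ℝ) else 0) with hc
  have hsym : ∀ b ∈ A, c b = c a := fun b hb => by
    simp only [hc]
    refine Fintype.sum_equiv (Equiv.mulRight (Equiv.swap a b)) _ _ fun π => ?_
    simp only [Equiv.coe_mulRight]
    have hmem : ∀ w ∈ A, Equiv.swap a b w ∈ A := fun w hw => by
      rw [Equiv.swap_apply_def]; split_ifs <;> assumption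
    have hr : ∀ (σ : Equiv.Perm V) w, rank (σ * Equiv.swap a b) w = rank σ (Equiv.swap a b w) :=
      fun σ w => rfl
    have hf : first (π * Equiv.swap a b) A d0 = Equiv.swap a b (first π A d0) := by
      refine first_eq (hmem _ (first_mem ⟨a, ha⟩)) fun w hw => ?_
      rw [hr, hr, Equiv.swap_apply_self]
      exact rank_first_le (hmem w hw)
    refine if_congr ?_ rfl rfl
    show _ ↔ first (π * Equiv.swap a b) A d0 = a
    rw [hf]
    constructor
    · intro h; rw [h, Equiv.swap_apply_right]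
    · intro h
      have := congrArg (Equiv.swap a b) h
      rwa [Equiv.swap_apply_self, Equiv.swap_apply_left] at this
  have htot : ∑ b ∈ A, c b = Fintype.card (Equiv.Perm V) := by
    simp only [hc]
    rw [Finset.sum_comm]
    simp [Finset.sum_ite_eq, first_mem (⟨a, ha⟩ : A.Nonempty)]
  rw [Finset.sum_congr rfl hsym, Finset.sum_const, nsmul_eq_mul] at htot
  exact htot

omit [MetricSpace V] in
/-- Probability that the first point of `A` lies in `B`. -/
theorem avg_first_mem {A B : Finset V} (d0 : V) (hBA : B ⊆ A) :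
    (Fintype.card (Equiv.Perm V) : ℝ)⁻¹ *
      ∑ π : Equiv.Perm V, (if first π A d0 ∈ B then (1 : ℝ) else 0)
      = (B.card : ℝ) / A.card := by
  classical
  have h1 : ∀ π : Equiv.Perm V, (if first π A d0 ∈ B then (1 : ℝ) else 0)
      = ∑ b ∈ B, (if first π A d0 = b then (1 : ℝ) else 0) := fun π => by simp
  simp_rw [h1]
  rw [Finset.sum_comm]
  rcases A.eq_empty_or_nonempty with rfl | hA
  · simp [Finset.subset_empty.1 hBA]
  have hAc : (A.card : ℝ) ≠ 0 := by exact_mod_cast hA.card_pos.ne'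
  have hK : (Fintype.card (Equiv.Perm V) : ℝ) ≠ 0 := by exact_mod_cast Fintype.card_ne_zero
  have h2 : ∀ b ∈ B, ∑ π : Equiv.Perm V, (if first π A d0 = b then (1 : ℝ) else 0)
      = (Fintype.card (Equiv.Perm V) : ℝ) / A.card := fun b hb => by
    rw [eq_div_iff hAc, mul_comm]; exact sum_first_indicator d0 (hBA hb)
  rw [Finset.sum_congr rfl h2, Finset.sum_const, nsmul_eq_mul]
  field_simp

/-- The centre of `x` at level `j`. -/
noncomputable def ctr (π : Equiv.Perm V) (j : ℤ) (x : V) : V :=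
  first π (fball x ((2 : ℝ) ^ j)) x

theorem ctr_dist (π : Equiv.Perm V) (j : ℤ) (x : V) : dist (ctr π j x) x ≤ (2 : ℝ) ^ j :=
  mem_fball.1 (first_mem ⟨x, self_mem_fball (by positivity)⟩)

/-- The first point of the enlarged ball is well inside. -/
def Pad (π : Equiv.Perm V) (j : ℤ) (x : V) : Prop :=
  first π (fball x ((2 : ℝ) ^ (j + 1))) x ∈ fball x ((2 : ℝ) ^ (j - 1))

theorem Pad.ctr_eq {π : Equiv.Perm V} {j : ℤ} {x y : V} (h : Pad π j x)
    (hy : dist y x ≤ (2 : ℝ) ^ (j - 1)) : ctr π j y = ctr π j x := by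
  set z := first π (fball x ((2 : ℝ) ^ (j + 1))) x with hz
  have hup : (2 : ℝ) ^ (j + 1) = 2 * (2 : ℝ) ^ j := by rw [zpow_add₀ two_ne_zero, zpow_one]; ring
  have hdown : (2 : ℝ) ^ (j - 1) = (2 : ℝ) ^ j / 2 := by rw [zpow_sub₀ two_ne_zero, zpow_one]
  have hpos : (0 : ℝ) < (2 : ℝ) ^ j := by positivity
  have key : ∀ w, dist w x ≤ (2 : ℝ) ^ (j - 1) → ctr π j w = z := fun w hw => by
    refine first_eq ?_ fun v hv => rank_first_le ?_
    · rw [mem_fball]
      have h1 := mem_fball.1 h
      have := dist_triangle z x w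
      rw [dist_comm x w] at this
      linarith
    · refine fball_subset_fball ?_ hv
      linarith
  rw [key y hy, key x (by simpa using (by positivity : (0:ℝ) ≤ (2:ℝ) ^ (j - 1)))]

/-- Cutoff vanishing at the boundary of the cluster of `x`. -/
noncomputable def psi (π : Equiv.Perm V) (j : ℤ) (x : V) : ℝ :=
  (insert (1 : ℝ) ((Finset.univ.filter fun y => ctr π j y ≠ ctr π j x).image
    fun y => dist x y / (2 : ℝ) ^ (j - 2))).min' (Finset.insert_nonempty _ _)

theorem psi_le_one (π : Equiv.Perm V) (j : ℤ) (x : V) : psi π j x ≤ 1 :=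
  Finset.min'_le _ _ (Finset.mem_insert_self _ _)

theorem psi_nonneg (π : Equiv.Perm V) (j : ℤ) (x : V) : 0 ≤ psi π j x := by
  refine Finset.le_min' _ _ _ fun b hb => ?_
  rcases Finset.mem_insert.1 hb with rfl | hb
  · exact zero_le_one
  · obtain ⟨y, _, rfl⟩ := Finset.mem_image.1 hb
    positivity

theorem psi_le_of_ne {π : Equiv.Perm V} {j : ℤ} {x y : V} (h : ctr π j y ≠ ctr π j x) :
    psi π j x ≤ dist x y / (2 : ℝ) ^ (j - 2) :=
  Finset.min'_le _ _ (Finset.mem_insert_of_mem
    (Finset.mem_image.2 ⟨y, by simp [h], rfl⟩))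

theorem psi_sub_le {π : Equiv.Perm V} {j : ℤ} {x y : V} (h : ctr π j x = ctr π j y) :
    psi π j x - psi π j y ≤ dist x y / (2 : ℝ) ^ (j - 2) := by
  have hp : (0 : ℝ) < (2 : ℝ) ^ (j - 2) := by positivity
  rw [sub_le_iff_le_add, ← sub_le_iff_le_add']
  refine Finset.le_min' _ _ _ fun b hb => ?_
  rcases Finset.mem_insert.1 hb with rfl | hb
  · linarith [psi_le_one π j x, div_nonneg (dist_nonneg (x := x) (y := y)) hp.le]
  · obtain ⟨z, hz, rfl⟩ := Finset.mem_image.1 hb
    have hz' := (Finset.mem_filter.1 hz).2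
    rw [← h] at hz'
    have h1 := psi_le_of_ne hz'
    have h2 : dist x z / (2 : ℝ) ^ (j - 2) ≤ dist x y / (2 : ℝ) ^ (j - 2) + dist y z / (2 : ℝ) ^ (j - 2) := by
      rw [← add_div]; gcongr; exact dist_triangle x y z
    linarith

theorem Pad.psi_eq_one {π : Equiv.Perm V} {j : ℤ} {x y : V} (h : Pad π j x)
    (hy : dist y x ≤ (2 : ℝ) ^ (j - 2)) : psi π j y = 1 := by
  have h1 : (2 : ℝ) ^ (j - 1) = 2 * (2 : ℝ) ^ (j - 2) := by
    rw [show j - 1 = (j - 2) + 1 by ring, zpow_add₀ two_ne_zero, zpow_one]; ring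
  have hp : (0 : ℝ) < (2 : ℝ) ^ (j - 2) := by positivity
  refine le_antisymm (psi_le_one _ _ _) (Finset.le_min' _ _ _ fun b hb => ?_)
  rcases Finset.mem_insert.1 hb with rfl | hb
  · rfl
  · obtain ⟨z, hz, rfl⟩ := Finset.mem_image.1 hb
    rw [le_div_iff₀ hp, one_mul]
    by_contra hc
    push Not at hc
    refine (Finset.mem_filter.1 hz).2 ?_
    rw [h.ctr_eq (y := z), h.ctr_eq (y := y) (by linarith)]
    linarith [dist_triangle z y x, dist_comm z y]

variable {W : Type*} [NormedAddCommGroup W] [NormedSpace ℝ W]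

/-- One window: cutoff times the value attached to the centre. -/
noncomputable def piece (π : Equiv.Perm V) (j : ℤ) (H : V → V → W) (x : V) : W :=
  psi π j x • H (ctr π j x) x

theorem norm_piece_le {π : Equiv.Perm V} {j : ℤ} {H : V → V → W} {B : ℝ} (hB : 0 ≤ B) {x : V}
    (hx : ‖H (ctr π j x) x‖ ≤ B) : ‖piece π j H x‖ ≤ B := by
  rw [piece, norm_smul, Real.norm_eq_abs, abs_of_nonneg (psi_nonneg _ _ _)]
  calc psi π j x * ‖H (ctr π j x) x‖ ≤ 1 * B :=
        mul_le_mul (psi_le_one _ _ _) hx (norm_nonneg _) zero_le_one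
    _ = B := one_mul B

/-- Slope of one window: only an unpadded level pays for the boundary. -/
theorem norm_piece_sub_le {π : Equiv.Perm V} {j : ℤ} {H : V → V → W} {B T : ℝ} (hB : 0 ≤ B)
    (hT : 0 ≤ T) {x y : V} (hxy : dist y x ≤ (2 : ℝ) ^ (j - 2))
    (hx : ‖H (ctr π j x) x‖ ≤ B) (hy : ‖H (ctr π j y) y‖ ≤ B)
    (hH : ctr π j y = ctr π j x → ‖H (ctr π j x) x - H (ctr π j x) y‖ ≤ T) :
    (Pad π j x → ‖piece π j H x - piece π j H y‖ ≤ T) ∧
      ‖piece π j H x - piece π j H y‖ ≤ T + 2 * B * (dist x y / (2 : ℝ) ^ (j - 2)) := by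
  have hp : (0 : ℝ) < (2 : ℝ) ^ (j - 2) := by positivity
  have hj : (2 : ℝ) ^ (j - 2) ≤ (2 : ℝ) ^ (j - 1) := zpow_le_zpow_right₀ one_le_two (by omega)
  have hq : 0 ≤ dist x y / (2 : ℝ) ^ (j - 2) := by positivity
  refine ⟨fun hpad => ?_, ?_⟩
  · have hc := hpad.ctr_eq (y := y) (hxy.trans hj)
    rw [piece, piece, hc, hpad.psi_eq_one hxy, hpad.psi_eq_one (by rw [dist_self]; positivity),
      one_smul, one_smul]
    exact hH hc
  · by_cases hc : ctr π j y = ctr π j x
    · rw [piece, piece, hc]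
      rw [hc] at hy
      calc ‖psi π j x • H (ctr π j x) x - psi π j y • H (ctr π j x) y‖
          = ‖psi π j x • (H (ctr π j x) x - H (ctr π j x) y) +
              (psi π j x - psi π j y) • H (ctr π j x) y‖ := by
            rw [smul_sub, sub_smul]; congr 1; abel
        _ ≤ 1 * T + dist x y / (2 : ℝ) ^ (j - 2) * B := by
            refine (norm_add_le _ _).trans (add_le_add ?_ ?_) <;> rw [norm_smul, Real.norm_eq_abs]
            · rw [abs_of_nonneg (psi_nonneg _ _ _)]
              exact mul_le_mul (psi_le_one _ _ _) (hH hc) (norm_nonneg _) zero_le_one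
            · refine mul_le_mul ?_ hy (norm_nonneg _) hq
              rw [abs_sub_le_iff]
              exact ⟨psi_sub_le hc.symm, by rw [dist_comm]; exact psi_sub_le hc⟩
        _ ≤ _ := by nlinarith
    · have h1 : ‖piece π j H x‖ ≤ dist x y / (2 : ℝ) ^ (j - 2) * B := by
        rw [piece, norm_smul, Real.norm_eq_abs, abs_of_nonneg (psi_nonneg _ _ _)]
        exact mul_le_mul (psi_le_of_ne hc) hx (norm_nonneg _) hq
      have h2 : ‖piece π j H y‖ ≤ dist x y / (2 : ℝ) ^ (j - 2) * B := by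
        rw [piece, norm_smul, Real.norm_eq_abs, abs_of_nonneg (psi_nonneg _ _ _), dist_comm x y]
        exact mul_le_mul (psi_le_of_ne (Ne.symm hc)) hy (norm_nonneg _) (by positivity)
      nlinarith [norm_sub_le (piece π j H x) (piece π j H y)]

theorem prob_pad (x : V) (j : ℤ) [DecidablePred fun π : Equiv.Perm V => Pad π j x] :
    (Fintype.card (Equiv.Perm V) : ℝ)⁻¹ *
      ∑ π : Equiv.Perm V, (if Pad π j x then (1 : ℝ) else 0)
      = Real.exp (-(lpop x ((2 : ℝ) ^ (j + 1)) - lpop x ((2 : ℝ) ^ (j - 1)))) := by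
  have h := avg_first_mem (A := fball x ((2 : ℝ) ^ (j + 1))) (B := fball x ((2 : ℝ) ^ (j - 1))) x
    (fball_subset (zpow_le_zpow_right₀ one_le_two (by omega)))
  rw [lpop_eq (by positivity), lpop_eq (by positivity), neg_sub, Real.exp_sub,
    Real.exp_log (by exact_mod_cast Finset.card_pos.2 ⟨x, self_mem_fball (by positivity)⟩),
    Real.exp_log (by exact_mod_cast Finset.card_pos.2 ⟨x, self_mem_fball (by positivity)⟩), ← h]
  congr 1
  exact Finset.sum_congr rfl fun π _ => if_congr Iff.rfl rfl rfl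

end Vale.Agent.P249
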