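import Mathlib

open MeasureTheory

namespace Vale.Agent.P249

universe u

/-- For every `n`-point family in every `L_p(μ)` (with `Ω : Type u`) there is a map into
`ℓ_p^d`, with `d ≤ b`, of distortion at most `D`. -/
def EmbedsWithDim (p : ENNReal) [Fact (1 ≤ p)] (n : ℕ) (D b : ℝ) : Prop :=
  ∀ (Ω : Type u) (m : MeasurableSpace Ω) (μ : @Measure Ω m) (X : Fin n → Lp ℝ p μ),
    ∃ d : ℕ, (d : ℝ) ≤ b ∧ ∃ f : Fin n → PiLp p (fun _ : Fin d => ℝ),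
      ∀ i j, dist (X i) (X j) ≤ dist (f i) (f j) ∧ dist (f i) (f j) ≤ D * dist (X i) (X j)

/-- Statement A: dimension `n ^ δ` at some constant distortion `D = D(p,δ)`. -/
def SmallPowerDim : Prop :=
  ∀ (p : ENNReal) [Fact (1 ≤ p)], p ≠ ⊤ → ∀ δ : ℝ, 0 < δ → ∃ D C : ℝ, 1 ≤ D ∧
    ∀ n : ℕ, 2 ≤ n → EmbedsWithDim.{u} p n D (C * (n : ℝ) ^ δ)

/-- Statement B: near-linear dimension at every distortion `> 1`. -/
def NearLinearDim : Prop :=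
  ∀ (p : ENNReal) [Fact (1 ≤ p)], p ≠ ⊤ → ∀ D : ℝ, 1 < D → ∃ C : ℝ,
    ∀ n : ℕ, 2 ≤ n → EmbedsWithDim.{u} p n D (C * n * Real.log n ^ (p.toReal + 1))

end Vale.Agent.P249
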