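import Vale.Agent.P249.Local
import Vale.Agent.P249.Centres

open scoped ENNReal

namespace Vale.Agent.P249

open Finset

theorem sum_zpow_le {s : Finset ℤ} {N : ℤ} (h : ∀ e ∈ s, e ≤ N) :
    ∑ e ∈ s, (2 : ℝ) ^ e ≤ 2 * (2 : ℝ) ^ N := by
  classical
  set g : ℤ → ℕ := fun e => (N - e).toNat with hg
  have h1 : ∀ e ∈ s, (2 : ℝ) ^ e = (2 : ℝ) ^ N * (1 / (2 : ℝ)) ^ g e := fun e he => by
    have he' := h e he
    rw [one_div, inv_pow, ← zpow_natCast, ← div_eq_mul_inv, ← zpow_sub₀ (two_ne_zero), hg]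
    congr 1; simp only; omega
  have hinj : Set.InjOn g ↑s := fun a ha b hb hab => by
    have := h a ha; have := h b hb; simp only [hg] at hab; omega
  have hsub : s.image g ⊆ Finset.range ((s.image g).sup id + 1) := fun k hk =>
    Finset.mem_range.2 (Nat.lt_succ_of_le (Finset.le_sup (f := id) hk))
  calc ∑ e ∈ s, (2 : ℝ) ^ e = (2 : ℝ) ^ N * ∑ k ∈ s.image g, (1 / (2 : ℝ)) ^ k := by
        rw [Finset.sum_congr rfl h1, ← Finset.mul_sum, Finset.sum_image hinj]
    _ ≤ (2 : ℝ) ^ N * 2 := by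
        refine mul_le_mul_of_nonneg_left (le_trans (Finset.sum_le_sum_of_subset_of_nonneg hsub
          fun k _ _ => by positivity) (sum_geometric_two_le _)) (by positivity)
    _ = _ := mul_comm _ _

/-- Total increment over windows of length `k` of a bounded monotone function. -/
theorem sum_increments_le {f : ℤ → ℝ} (hf : Monotone f) {H : ℝ} (h0 : ∀ i, 0 ≤ f i)
    (hH : ∀ i, f i ≤ H) (k : ℕ) (s : Finset ℤ) : ∑ w ∈ s, (f (w + k) - f w) ≤ k * H := by
  classical
  rcases s.eq_empty_or_nonempty with rfl | hs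
  · simpa using mul_nonneg (Nat.cast_nonneg k) ((h0 0).trans (hH 0))
  set a := s.min' hs with ha
  set N := (s.max' hs - a).toNat + 1 with hN
  have hsub : s ⊆ (Finset.range N).image fun i : ℕ => a + i := fun w hw => by
    have h1 := s.min'_le w hw
    have h2 := s.le_max' w hw
    refine Finset.mem_image.2 ⟨(w - a).toNat, Finset.mem_range.2 (by omega), by omega⟩
  calc ∑ w ∈ s, (f (w + k) - f w)
      ≤ ∑ w ∈ (Finset.range N).image (fun i : ℕ => a + i), (f (w + k) - f w) :=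
        Finset.sum_le_sum_of_subset_of_nonneg hsub fun w _ _ => sub_nonneg.2 (hf (by omega))
    _ = ∑ i ∈ Finset.range N, ((fun i : ℕ => f (a + i)) (i + k) - (fun i : ℕ => f (a + i)) i) := by
        rw [Finset.sum_image (fun x _ y _ h => by simpa using h)]
        simp [add_assoc]
    _ = ∑ j ∈ Finset.range k, ((fun i : ℕ => f (a + i)) (N + j) - (fun i : ℕ => f (a + i)) j) :=
        shift_sum (fun i : ℕ => f (a + i)) N k
    _ ≤ ∑ _j ∈ Finset.range k, H := Finset.sum_le_sum fun j _ => by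
        simp only; linarith [h0 (a + j), hH (a + (N + j : ℕ))]
    _ = _ := by simp

section

variable {P : ℝ≥0∞} [Fact (1 ≤ P)] {V : Type*} [Fintype V] [MetricSpace V] [DecidableEq V]
variable {ι : Type} [Fintype ι]

/-- Lower band of window `w`: level number `l`. -/
def loLvl (L : ℕ) (w : ℤ) (l : ℕ) : ℤ := (w - 2) * L + l

/-- Upper band of window `w`: level number `l`. -/
def hiLvl (L : ℕ) (w : ℤ) (l : ℕ) : ℤ := (w + 2) * L + l

/-- The smoothed map of one window. -/
noncomputable def smooth (L : ℕ) (Q : ℤ → ℕ) (F : ℤ → V → V → EP P ι) (w : ℤ) (c x : V) : EP P ι :=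
  (L : ℝ)⁻¹ • ∑ l ∈ Finset.range L, levelAvg (loLvl L w l) (Q w) x (F w c)

/-- The hypotheses on the maps of the windows. -/
structure GoodMaps (L : ℕ) (F : ℤ → V → V → EP P ι) (A a0 : ℝ) : Prop where
  zero : ∀ (w : ℤ) c, F w c c = 0
  upper : ∀ (w : ℤ) c a b, dist a c ≤ (2 : ℝ) ^ ((w + 3) * L + 1) → dist b c ≤ (2 : ℝ) ^ ((w + 3) * L + 1) →
    ‖F w c a - F w c b‖ ≤ A * (dist a b + (2 : ℝ) ^ ((w - 2) * L))
  lower : ∀ (w : ℤ) c a b, dist a c ≤ (2 : ℝ) ^ ((w + 3) * L + 1) → dist b c ≤ (2 : ℝ) ^ ((w + 3) * L + 1) →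
    (2 : ℝ) ^ ((w - 2) * L) ≤ dist a b → a0 * dist a b ≤ ‖F w c a - F w c b‖

variable {L : ℕ} {Q : ℤ → ℕ} {F : ℤ → V → V → EP P ι} {A a0 : ℝ}

theorem zpow_le_two {a b : ℤ} (h : a ≤ b) : (2 : ℝ) ^ a ≤ (2 : ℝ) ^ b :=
  zpow_le_zpow_right₀ one_le_two h

theorem two_zpow_succ (a : ℤ) : (2 : ℝ) ^ (a + 1) = 2 * (2 : ℝ) ^ a := by
  rw [zpow_add₀ two_ne_zero, zpow_one, mul_comm]

/-- Domain bookkeeping: smoothing points stay inside the ball of the centre. -/
theorem dist_centre_le (hL : 4 ≤ L) {w : ℤ} {l l' : ℕ} (hl : l < L) (hl' : l' < L) {z x c : V}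
    {d : ℝ} (hd : d ≤ (2 : ℝ) ^ (hiLvl L w l' - 2)) (hz : dist z x ≤ 2 * (2 : ℝ) ^ loLvl L w l + d)
    (hc : dist c x ≤ (2 : ℝ) ^ hiLvl L w l') : dist z c ≤ (2 : ℝ) ^ ((w + 3) * L + 1) := by
  have h1 : (2 : ℝ) ^ (loLvl L w l) * 2 ≤ (2 : ℝ) ^ hiLvl L w l' := by
    rw [mul_comm, ← two_zpow_succ]
    refine zpow_le_two ?_
    have e1 : (w + 2) * (L : ℤ) = (w - 2) * L + 4 * L := by ring
    simp only [loLvl, hiLvl]; omega
  have h2 : (2 : ℝ) ^ (hiLvl L w l' - 2) ≤ (2 : ℝ) ^ hiLvl L w l' := zpow_le_two (by omega)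
  have h3 : (2 : ℝ) ^ (hiLvl L w l' + 1) ≤ (2 : ℝ) ^ ((w + 3) * L) := by
    refine zpow_le_two ?_
    have e1 : (w + 3) * (L : ℤ) = (w + 2) * L + L := by ring
    simp only [hiLvl]; omega
  rw [two_zpow_succ] at h3
  rw [two_zpow_succ]
  have h6 : (0 : ℝ) < (2 : ℝ) ^ ((w + 3) * (L : ℤ)) := by positivity
  linarith [dist_triangle z x c, dist_comm c x]

theorem lo_bounds {w : ℤ} {l : ℕ} (hl : l < L) :
    (2 : ℝ) ^ ((w - 2) * L) ≤ (2 : ℝ) ^ loLvl L w l ∧
      2 * (2 : ℝ) ^ loLvl L w l ≤ (2 : ℝ) ^ ((w - 1) * L) := by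
  refine ⟨zpow_le_two (by simp [loLvl]), ?_⟩
  rw [← two_zpow_succ]
  refine zpow_le_two ?_
  have e1 : (w - 1) * (L : ℤ) = (w - 2) * L + L := by ring
  simp only [loLvl]; omega

theorem norm_smooth_le (hF : GoodMaps L F A a0) (hA : 0 ≤ A) (hL : 4 ≤ L) (hQ : ∀ w, 0 < Q w)
    {w : ℤ} {l' : ℕ} (hl' : l' < L) {x c : V} (hc : dist c x ≤ (2 : ℝ) ^ hiLvl L w l') :
    ‖smooth L Q F w c x‖ ≤ 3 * A * (2 : ℝ) ^ hiLvl L w l' := by
  have hLR : (0 : ℝ) < L := by exact_mod_cast (show 0 < L by omega)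
  rw [smooth, norm_smul, norm_inv, Real.norm_natCast, inv_mul_le_iff₀ hLR]
  refine (norm_sum_le _ _).trans ((Finset.sum_le_card_nsmul _ _
    (3 * A * (2 : ℝ) ^ hiLvl L w l') fun l hl => ?_).trans_eq (by simp))
  have hl1 := Finset.mem_range.1 hl
  rw [← sub_zero (levelAvg (loLvl L w l) (Q w) x (F w c))]
  refine norm_levelAvg_sub_const_le (hQ w) fun z hz => ?_
  have hzc : dist z c ≤ (2 : ℝ) ^ ((w + 3) * L + 1) :=
    dist_centre_le hL hl1 hl' (d := 0) (by positivity) (by rwa [add_zero]) hc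
  have := hF.upper w c z c hzc (by rw [dist_self]; positivity)
  rw [hF.zero, sub_zero] at this
  rw [sub_zero]
  refine this.trans ?_
  have h1 : 2 * (2 : ℝ) ^ loLvl L w l ≤ (2 : ℝ) ^ hiLvl L w l' := by
    refine (lo_bounds hl1).2.trans (zpow_le_two ?_)
    have e1 : (w + 2) * (L : ℤ) = (w - 1) * L + 3 * L := by ring
    simp only [hiLvl]; omega
  have h2 := (lo_bounds (w := w) hl1).1
  have h3 : dist z c ≤ 2 * (2 : ℝ) ^ loLvl L w l + (2 : ℝ) ^ hiLvl L w l' := by
    linarith [dist_triangle z x c, dist_comm c x]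
  have h4 : (0 : ℝ) ≤ (2 : ℝ) ^ hiLvl L w l' := by positivity
  have h5 : (0 : ℝ) ≤ (2 : ℝ) ^ loLvl L w l := by positivity
  nlinarith

/-- `lpop` at the window boundaries. -/
noncomputable def wpop (L : ℕ) (x : V) (w : ℤ) : ℝ := lpop x ((2 : ℝ) ^ (w * L))

theorem norm_smooth_sub_le (hF : GoodMaps L F A a0) (hA : 0 ≤ A) (hL : 4 ≤ L) (hQ0 : ∀ w, 0 < Q w)
    (hQ : ∀ w i, i < (w - 1) * (L : ℤ) → ∀ a b : V, a ≠ b → (2 : ℝ) ^ i / Q w ≤ dist a b)
    {w : ℤ} {l' : ℕ} (hl' : l' < L) {x y c : V} (hne : x ≠ y)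
    (hd : dist x y ≤ (2 : ℝ) ^ (hiLvl L w l' - 2))
    (hc : dist c x ≤ (2 : ℝ) ^ hiLvl L w l') :
    ‖smooth L Q F w c x - smooth L Q F w c y‖ ≤ 80 * A * dist x y *
      (3 * (wpop L x w - wpop L x (w - 3)) / L +
        if (2 : ℝ) ^ ((w - 2) * L) < 4 * dist x y then 1 else 0) := by
  classical
  have hLR : (0 : ℝ) < L := by exact_mod_cast (show 0 < L by omega)
  have hLR' : (L : ℝ) ≠ 0 := hLR.ne'
  have hd0 : 0 ≤ dist x y := dist_nonneg
  set ind : ℝ := if (2 : ℝ) ^ ((w - 2) * L) < 4 * dist x y then 1 else 0 with hind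
  set f : ℕ → ℝ := fun l => lpop x ((2 : ℝ) ^ ((w - 2) * L - 1 + l)) with hf
  have hlevel : ∀ l ∈ Finset.range L, ‖levelAvg (loLvl L w l) (Q w) x (F w c) -
      levelAvg (loLvl L w l) (Q w) y (F w c)‖ ≤ 80 * A * dist x y * ((f (l + 3) - f l) + ind) := by
    intro l hl
    have hl1 := Finset.mem_range.1 hl
    have hlo := lo_bounds (w := w) hl1
    refine (norm_levelAvg_sub_le (hQ0 w) hA (by positivity : (0 : ℝ) ≤ (2 : ℝ) ^ ((w - 2) * L)) hlo.1
      (hQ w _ ?_ x y hne) fun z hz => ?_).trans ?_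
    · have e1 : (w - 1) * (L : ℤ) = (w - 2) * L + L := by ring
      simp only [loLvl]; omega
    · exact hF.upper w c z x (dist_centre_le hL hl1 hl' hd hz hc)
        (dist_centre_le hL hl1 hl' hd (by rw [dist_self]; positivity) hc)
    · refine mul_le_mul_of_nonneg_left (add_le_add (le_of_eq ?_) ?_) (by positivity)
      · simp only [hf, loLvl]
        congr 2 <;> congr 1 <;> push_cast <;> ring
      · by_cases h : (2 : ℝ) ^ loLvl L w l < 4 * dist x y
        · rw [if_pos h, hind, if_pos (lt_of_le_of_lt hlo.1 h)]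
        · rw [if_neg h, hind]; split_ifs <;> norm_num
  have hfsum : ∑ l ∈ Finset.range L, (f (l + 3) - f l) ≤ 3 * (wpop L x w - wpop L x (w - 3)) := by
    rw [shift_sum]
    refine (Finset.sum_le_card_nsmul _ _ (wpop L x w - wpop L x (w - 3)) fun j hj => ?_).trans_eq
      (by simp)
    have hj3 := Finset.mem_range.1 hj
    have e1 : (w - 2) * (L : ℤ) = w * L - 2 * L := by ring
    have e2 : (w - 3) * (L : ℤ) = w * L - 3 * L := by ring
    refine sub_le_sub (lpop_mono x (zpow_le_two ?_)) (lpop_mono x (zpow_le_two ?_))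
    · push_cast; omega
    · omega
  rw [smooth, smooth, ← smul_sub, ← Finset.sum_sub_distrib, norm_smul, norm_inv, Real.norm_natCast,
    inv_mul_le_iff₀ hLR]
  refine (norm_sum_le _ _).trans ((Finset.sum_le_sum hlevel).trans ?_)
  rw [← Finset.mul_sum, Finset.sum_add_distrib, Finset.sum_const, Finset.card_range, nsmul_eq_mul]
  calc 80 * A * dist x y * (∑ l ∈ Finset.range L, (f (l + 3) - f l) + L * ind)
      ≤ 80 * A * dist x y * (3 * (wpop L x w - wpop L x (w - 3)) + L * ind) :=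
        mul_le_mul_of_nonneg_left (by linarith) (by positivity)
    _ = _ := by field_simp

theorem norm_smooth_sub_F_le (hF : GoodMaps L F A a0) (hA : 0 ≤ A) (hL : 4 ≤ L) (hQ0 : ∀ w, 0 < Q w)
    {w : ℤ} {l' : ℕ} (hl' : l' < L) {x c : V} (hc : dist c x ≤ (2 : ℝ) ^ hiLvl L w l') :
    ‖smooth L Q F w c x - F w c x‖ ≤ 2 * A * (2 : ℝ) ^ ((w - 1) * L) := by
  have hLR : (0 : ℝ) < L := by exact_mod_cast (show 0 < L by omega)
  have : smooth L Q F w c x - F w c x = (L : ℝ)⁻¹ • ∑ l ∈ Finset.range L,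
      (levelAvg (loLvl L w l) (Q w) x (F w c) - F w c x) := by
    rw [smooth, Finset.sum_sub_distrib, smul_sub, Finset.sum_const, Finset.card_range,
      ← Nat.cast_smul_eq_nsmul ℝ, smul_smul, inv_mul_cancel₀ hLR.ne', one_smul]
  rw [this, norm_smul, norm_inv, Real.norm_natCast, inv_mul_le_iff₀ hLR]
  refine (norm_sum_le _ _).trans ((Finset.sum_le_card_nsmul _ _
    (2 * A * (2 : ℝ) ^ ((w - 1) * L)) fun l hl => ?_).trans_eq (by simp))
  have hl1 := Finset.mem_range.1 hl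
  refine norm_levelAvg_sub_const_le (hQ0 w) fun z hz => ?_
  refine (hF.upper w c z x (dist_centre_le hL hl1 hl' (d := 0) (by positivity) (by rwa [add_zero]) hc)
    (dist_centre_le hL hl1 hl' (d := 0) (by positivity) (by rw [dist_self]; positivity) hc)).trans ?_
  obtain ⟨h1, h2⟩ := lo_bounds (w := w) hl1
  have h0 : (0 : ℝ) ≤ (2 : ℝ) ^ ((w - 2) * L) := by positivity
  nlinarith

/-- One window of the glued map, before signs. -/
noncomputable def win (L : ℕ) (Q : ℤ → ℕ) (F : ℤ → V → V → EP P ι) (w : ℤ)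
    (o : Fin L × Equiv.Perm V) (x : V) : EP P ι :=
  piece o.2 (hiLvl L w o.1) (smooth L Q F w) x

theorem norm_win_le (hF : GoodMaps L F A a0) (hA : 0 ≤ A) (hL : 4 ≤ L) (hQ : ∀ w, 0 < Q w)
    (w : ℤ) (o : Fin L × Equiv.Perm V) (x : V) :
    ‖win L Q F w o x‖ ≤ 3 * A * (2 : ℝ) ^ hiLvl L w o.1 :=
  norm_piece_le (by positivity) (norm_smooth_le hF hA hL hQ o.1.2 (ctr_dist _ _ _))

/-- Whether the boundary of the cluster of `x` is felt in window `w`. -/
noncomputable def hit (L : ℕ) (w : ℤ) (o : Fin L × Equiv.Perm V) (x : V) : ℝ := by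
  classical exact if Pad o.2 (hiLvl L w o.1) x then 0 else 1

theorem hit_mem (L : ℕ) (w : ℤ) (o : Fin L × Equiv.Perm V) (x : V) :
    0 ≤ hit L w o x ∧ hit L w o x ≤ 1 := by
  unfold hit; split_ifs <;> norm_num

theorem norm_win_sub_le (hF : GoodMaps L F A a0) (hA : 0 ≤ A) (hL : 4 ≤ L) (hQ0 : ∀ w, 0 < Q w)
    (hQ : ∀ w i, i < (w - 1) * (L : ℤ) → ∀ a b : V, a ≠ b → (2 : ℝ) ^ i / Q w ≤ dist a b)
    (w : ℤ) (o : Fin L × Equiv.Perm V) {x y : V} (hne : x ≠ y) :
    ‖win L Q F w o x - win L Q F w o y‖ ≤ A * dist x y * (24 * hit L w o x +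
      240 * (wpop L x w - wpop L x (w - 3)) / L +
      104 * if (2 : ℝ) ^ ((w - 2) * L) < 4 * dist x y then 1 else 0) := by
  classical
  have hd0 : 0 ≤ dist x y := dist_nonneg
  have hh := hit_mem L w o x
  have hLR : (0 : ℝ) < L := by exact_mod_cast (show 0 < L by omega)
  have hgrow : 0 ≤ wpop L x w - wpop L x (w - 3) := by
    refine sub_nonneg.2 (lpop_mono x (zpow_le_two ?_))
    have e : (w - 3) * (L : ℤ) = w * L - 3 * L := by ring
    omega
  set j := hiLvl L w o.1 with hj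
  have h4 : (2 : ℝ) ^ j = 4 * (2 : ℝ) ^ (j - 2) := by
    rw [show j = (j - 2) + 2 by ring, zpow_add₀ two_ne_zero]
    simp; ring
  by_cases hclose : dist x y ≤ (2 : ℝ) ^ (j - 2)
  · set T := 80 * A * dist x y * (3 * (wpop L x w - wpop L x (w - 3)) / L +
        if (2 : ℝ) ^ ((w - 2) * L) < 4 * dist x y then 1 else 0) with hT
    have hT0 : 0 ≤ T := mul_nonneg (by positivity)
      (add_nonneg (by positivity) (by split_ifs <;> norm_num))
    obtain ⟨hpadded, hall⟩ := norm_piece_sub_le (π := o.2) (j := j) (H := smooth L Q F w)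
      (B := 3 * A * (2 : ℝ) ^ j) (T := T) (by positivity) hT0 (by rwa [dist_comm])
      (norm_smooth_le hF hA hL hQ0 o.1.2 (ctr_dist _ _ _))
      (norm_smooth_le hF hA hL hQ0 o.1.2 (ctr_dist _ _ _))
      (fun _ => norm_smooth_sub_le hF hA hL hQ0 hQ o.1.2 hne hclose (ctr_dist _ _ _))
    have hextra : 2 * (3 * A * (2 : ℝ) ^ j) * (dist x y / (2 : ℝ) ^ (j - 2)) = 24 * A * dist x y := by
      rw [h4]; field_simp; ring
    rw [hextra] at hall
    have hindle : (80 : ℝ) * (if (2 : ℝ) ^ ((w - 2) * L) < 4 * dist x y then 1 else 0) ≤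
        104 * (if (2 : ℝ) ^ ((w - 2) * L) < 4 * dist x y then 1 else 0) := by
      split_ifs <;> norm_num
    by_cases hp : Pad o.2 j x
    · have hh0 : hit L w o x = 0 := by simp [hit, ← hj, hp]
      refine (hpadded hp).trans ?_
      rw [hh0, hT]
      calc 80 * A * dist x y * (3 * (wpop L x w - wpop L x (w - 3)) / L +
            if (2 : ℝ) ^ ((w - 2) * L) < 4 * dist x y then 1 else 0)
          = A * dist x y * (240 * (wpop L x w - wpop L x (w - 3)) / L +
            80 * if (2 : ℝ) ^ ((w - 2) * L) < 4 * dist x y then 1 else 0) := by ring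
        _ ≤ _ := mul_le_mul_of_nonneg_left (by linarith) (by positivity)
    · have hh1 : hit L w o x = 1 := by simp [hit, ← hj, hp]
      refine hall.trans ?_
      rw [hh1, hT]
      calc 80 * A * dist x y * (3 * (wpop L x w - wpop L x (w - 3)) / L +
            if (2 : ℝ) ^ ((w - 2) * L) < 4 * dist x y then 1 else 0) + 24 * A * dist x y
          = A * dist x y * (24 * 1 + 240 * (wpop L x w - wpop L x (w - 3)) / L +
            80 * if (2 : ℝ) ^ ((w - 2) * L) < 4 * dist x y then 1 else 0) := by ring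
        _ ≤ _ := mul_le_mul_of_nonneg_left (by linarith) (by positivity)
  · push Not at hclose
    have hlow : (2 : ℝ) ^ ((w - 2) * L) < 4 * dist x y := by
      have : (2 : ℝ) ^ ((w - 2) * L) ≤ (2 : ℝ) ^ j := zpow_le_two (by
        have e : (w + 2) * (L : ℤ) = (w - 2) * L + 4 * L := by ring
        simp only [hj, hiLvl]; omega)
      linarith
    rw [if_pos hlow]
    calc ‖win L Q F w o x - win L Q F w o y‖ ≤ 3 * A * (2 : ℝ) ^ j + 3 * A * (2 : ℝ) ^ j :=
          (norm_sub_le _ _).trans (add_le_add (norm_win_le hF hA hL hQ0 w o x)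
            (norm_win_le hF hA hL hQ0 w o y))
      _ ≤ A * dist x y * 24 := by
          have := mul_le_mul_of_nonneg_left hclose.le hA
          rw [h4]; linarith
      _ ≤ _ := mul_le_mul_of_nonneg_left (by
          have : 0 ≤ 240 * (wpop L x w - wpop L x (w - 3)) / L := by positivity
          linarith) (by positivity)

/-- The window of a distance. -/
noncomputable def wOf (L : ℕ) (d : ℝ) : ℤ := Int.log 2 d / (L : ℤ)

theorem wOf_bounds (hL : 0 < L) {d : ℝ} (hd : 0 < d) :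
    (2 : ℝ) ^ (wOf L d * L) ≤ d ∧ d < (2 : ℝ) ^ ((wOf L d + 1) * L) := by
  have hL' : (0 : ℤ) < L := by exact_mod_cast hL
  have h1 : (2 : ℝ) ^ Int.log 2 d ≤ d := by
    exact_mod_cast Int.zpow_log_le_self (b := 2) one_lt_two hd
  have h2 : d < (2 : ℝ) ^ (Int.log 2 d + 1) := by
    exact_mod_cast Int.lt_zpow_succ_log_self (b := 2) one_lt_two d
  refine ⟨(zpow_le_two ?_).trans h1, h2.trans_le (zpow_le_two ?_)⟩
  · exact Int.ediv_mul_le _ hL'.ne'
  · exact Int.add_one_le_of_lt (Int.lt_ediv_add_one_mul_self _ hL')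

/-- Sum over all windows of the slope bounds. -/
theorem sum_win_sub_le (hF : GoodMaps L F A a0) (hA : 0 ≤ A) (hL : 4 ≤ L) (hQ0 : ∀ w, 0 < Q w)
    (hQ : ∀ w i, i < (w - 1) * (L : ℤ) → ∀ a b : V, a ≠ b → (2 : ℝ) ^ i / Q w ≤ dist a b)
    {H : ℝ} (hH : ∀ x : V, ∀ t, lpop x t ≤ H) (W : Finset ℤ)
    (o : ℤ → Fin L × Equiv.Perm V) {x y : V} (hne : x ≠ y) :
    ∑ w ∈ W, ‖win L Q F w (o w) x - win L Q F w (o w) y‖
      ≤ A * dist x y * (24 * ∑ w ∈ W, hit L w (o w) x + 720 * H / L + 700) := by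
  classical
  have hd : 0 < dist x y := dist_pos.2 hne
  have hLR : (0 : ℝ) < L := by exact_mod_cast (show 0 < L by omega)
  set w0 := wOf L (dist x y) with hw0
  obtain ⟨hb1, hb2⟩ := wOf_bounds (L := L) (by omega) hd
  rw [← hw0] at hb1 hb2
  set near : ℤ → ℝ := fun w => if w ∈ Finset.Icc (w0 - 2) (w0 + 3) then 1 else 0 with hnear
  have hgrow : ∀ w, 0 ≤ wpop L x w - wpop L x (w - 3) := fun w => by
    refine sub_nonneg.2 (lpop_mono x (zpow_le_two ?_))
    have e : (w - 3) * (L : ℤ) = w * L - 3 * L := by ring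
    omega
  set tail : ℤ → ℝ := fun w => if (w + 3) * (L : ℤ) ≤ w0 * L then 6 * A * (2 : ℝ) ^ ((w + 3) * L) else 0
  have hterm : ∀ w, ‖win L Q F w (o w) x - win L Q F w (o w) y‖ ≤
      A * dist x y * (24 * hit L w (o w) x + 240 * (wpop L x w - wpop L x (w - 3)) / L +
        104 * near w) + tail w := fun w => by
    by_cases htail : (w + 3) * (L : ℤ) ≤ w0 * L
    · simp only [tail, if_pos htail]
      have hj : (2 : ℝ) ^ hiLvl L w (o w).1 ≤ (2 : ℝ) ^ ((w + 3) * L) := zpow_le_two (by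
        have e : (w + 3) * (L : ℤ) = (w + 2) * L + L := by ring
        have := (o w).1.2
        simp only [hiLvl]; omega)
      have h1 : ‖win L Q F w (o w) x - win L Q F w (o w) y‖ ≤ 6 * A * (2 : ℝ) ^ ((w + 3) * L) := by
        refine (norm_sub_le _ _).trans ((add_le_add (norm_win_le hF hA hL hQ0 w (o w) x)
          (norm_win_le hF hA hL hQ0 w (o w) y)).trans ?_)
        nlinarith
      refine h1.trans (le_add_of_nonneg_left (mul_nonneg (by positivity) ?_))
      have := (hit_mem L w (o w) x).1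
      have := hgrow w
      have : 0 ≤ near w := by simp only [hnear]; split_ifs <;> norm_num
      positivity
    · simp only [tail, if_neg htail, add_zero]
      refine (norm_win_sub_le hF hA hL hQ0 hQ w (o w) hne).trans
        (mul_le_mul_of_nonneg_left (add_le_add le_rfl ?_) (by positivity))
      by_cases hlow : (2 : ℝ) ^ ((w - 2) * L) < 4 * dist x y
      · rw [if_pos hlow]
        have hmem : w ∈ Finset.Icc (w0 - 2) (w0 + 3) := by
          rw [Finset.mem_Icc]
          constructor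
          · by_contra hc
            push Not at hc
            refine htail (Int.mul_le_mul_of_nonneg_right (by omega) (by positivity))
          · by_contra hc
            push Not at hc
            have h3 : (2 : ℝ) ^ ((w0 + 1) * L + 2) ≤ (2 : ℝ) ^ ((w - 2) * L) := zpow_le_two (by
              have h5 : (w0 + 2) * (L : ℤ) ≤ (w - 2) * L :=
                Int.mul_le_mul_of_nonneg_right (by omega) (by positivity)
              have e : (w0 + 2) * (L : ℤ) = (w0 + 1) * L + L := by ring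
              omega)
            rw [zpow_add₀ two_ne_zero] at h3
            norm_num at h3
            linarith
        simp only [hnear, if_pos hmem]; norm_num
      · rw [if_neg hlow]; simp only [hnear]; split_ifs <;> norm_num
  refine (Finset.sum_le_sum fun w _ => hterm w).trans ?_
  rw [Finset.sum_add_distrib, ← Finset.mul_sum, Finset.sum_add_distrib, Finset.sum_add_distrib,
    ← Finset.mul_sum, ← Finset.mul_sum, ← Finset.sum_div, ← Finset.mul_sum]
  have hnearsum : ∑ w ∈ W, near w ≤ 6 := by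
    simp only [hnear, Finset.sum_ite_mem, Finset.sum_const, nsmul_eq_mul, mul_one]
    have h1 : (W ∩ Finset.Icc (w0 - 2) (w0 + 3)).card ≤ 6 :=
      (Finset.card_le_card Finset.inter_subset_right).trans (by simp; omega)
    exact_mod_cast h1
  have hgsum : ∑ w ∈ W, (wpop L x w - wpop L x (w - 3)) ≤ 3 * H := by
    have hmono : Monotone fun i : ℤ => wpop L x (i - 3) := fun a b h =>
      lpop_mono x (zpow_le_two (Int.mul_le_mul_of_nonneg_right (by omega) (by positivity)))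
    simpa using sum_increments_le hmono (fun i => lpop_nonneg x _) (fun i => hH x _) 3 W
  have htsum : ∑ w ∈ W, tail w ≤ 12 * A * dist x y := by
    simp only [tail]
    rw [← Finset.sum_filter, ← Finset.mul_sum]
    have hinj : Set.InjOn (fun w : ℤ => (w + 3) * (L : ℤ))
        ↑(W.filter fun w => (w + 3) * (L : ℤ) ≤ w0 * L) := fun a _ b _ h => by
      have := mul_right_cancel₀ (show (L : ℤ) ≠ 0 by omega) h
      omega
    have h1 : ∑ w ∈ W.filter (fun w => (w + 3) * (L : ℤ) ≤ w0 * L), (2 : ℝ) ^ ((w + 3) * L)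
        ≤ 2 * (2 : ℝ) ^ (w0 * L) := by
      rw [← Finset.sum_image (f := fun e : ℤ => (2 : ℝ) ^ e) hinj]
      refine sum_zpow_le fun e he => ?_
      obtain ⟨w, hw, rfl⟩ := Finset.mem_image.1 he
      exact (Finset.mem_filter.1 hw).2
    calc 6 * A * ∑ w ∈ W.filter (fun w => (w + 3) * (L : ℤ) ≤ w0 * L), (2 : ℝ) ^ ((w + 3) * L)
        ≤ 6 * A * (2 * dist x y) := mul_le_mul_of_nonneg_left (by linarith) (by positivity)
      _ = _ := by ring
  have hAd : 0 ≤ A * dist x y := by positivity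
  have e1 : 240 * ∑ w ∈ W, (wpop L x w - wpop L x (w - 3)) / (L : ℝ) = 240 * (∑ w ∈ W, (wpop L x w - wpop L x (w - 3))) / L := by
    rw [← Finset.sum_div]; ring
  calc A * dist x y * (24 * ∑ w ∈ W, hit L w (o w) x +
          240 * (∑ w ∈ W, (wpop L x w - wpop L x (w - 3))) / L + 104 * ∑ w ∈ W, near w) + ∑ w ∈ W, tail w
      ≤ A * dist x y * (24 * ∑ w ∈ W, hit L w (o w) x + 240 * (3 * H) / L + 104 * 6) +
          12 * A * dist x y := by gcongr
    _ ≤ _ := by
      have : 240 * (3 * H) / (L : ℝ) = 720 * H / L := by ring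
      rw [this]; linarith

/-- The expected number of felt boundaries. -/
theorem mean_hit_le (hL : 4 ≤ L) (w : ℤ) (x : V) :
    ∑ o : Fin L × Equiv.Perm V, (Fintype.card (Fin L × Equiv.Perm V) : ℝ)⁻¹ * hit L w o x
      ≤ 2 * (wpop L x (w + 4) - wpop L x (w + 1)) / L := by
  classical
  have hLR : (0 : ℝ) < L := by exact_mod_cast (show 0 < L by omega)
  have hK : (0 : ℝ) < Fintype.card (Equiv.Perm V) := by exact_mod_cast Fintype.card_pos
  have hinner : ∀ l : Fin L, (Fintype.card (Equiv.Perm V) : ℝ)⁻¹ * ∑ π, hit L w (l, π) x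
      ≤ lpop x ((2 : ℝ) ^ (hiLvl L w l + 1)) - lpop x ((2 : ℝ) ^ (hiLvl L w l - 1)) := fun l => by
    have h := prob_pad x (hiLvl L w l)
    have hsplit : ∀ π : Equiv.Perm V, hit L w (l, π) x = 1 - (if Pad π (hiLvl L w l) x then 1 else 0) :=
      fun π => by unfold hit; split_ifs <;> norm_num
    simp_rw [hsplit, Finset.sum_sub_distrib, mul_sub, h]
    simp only [Finset.sum_const, Finset.card_univ, nsmul_eq_mul, mul_one]
    rw [inv_mul_cancel₀ hK.ne']
    linarith [Real.add_one_le_exp (-(lpop x ((2 : ℝ) ^ (hiLvl L w l + 1)) -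
      lpop x ((2 : ℝ) ^ (hiLvl L w l - 1))))]
  rw [Fintype.sum_prod_type, Fintype.card_prod, Fintype.card_fin]
  push_cast
  calc ∑ l : Fin L, ∑ π, ((L : ℝ) * Fintype.card (Equiv.Perm V))⁻¹ * hit L w (l, π) x
      = (L : ℝ)⁻¹ * ∑ l : Fin L, (Fintype.card (Equiv.Perm V) : ℝ)⁻¹ * ∑ π, hit L w (l, π) x := by
        rw [Finset.mul_sum]
        refine Finset.sum_congr rfl fun l _ => ?_
        rw [← Finset.mul_sum, mul_inv]; ring
    _ ≤ (L : ℝ)⁻¹ * ∑ l : Fin L, (lpop x ((2 : ℝ) ^ (hiLvl L w l + 1)) -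
          lpop x ((2 : ℝ) ^ (hiLvl L w l - 1))) :=
        mul_le_mul_of_nonneg_left (Finset.sum_le_sum fun l _ => hinner l) (by positivity)
    _ ≤ (L : ℝ)⁻¹ * (2 * (wpop L x (w + 4) - wpop L x (w + 1))) := by
        refine mul_le_mul_of_nonneg_left ?_ (by positivity)
        set f : ℕ → ℝ := fun l => lpop x ((2 : ℝ) ^ ((w + 2) * L - 1 + l)) with hf
        have : ∀ l : Fin L, lpop x ((2 : ℝ) ^ (hiLvl L w l + 1)) - lpop x ((2 : ℝ) ^ (hiLvl L w l - 1))
            = f ((l : ℕ) + 2) - f l := fun l => by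
          simp only [hf, hiLvl]; congr 2 <;> congr 1 <;> push_cast <;> ring
        simp_rw [this]
        rw [Fin.sum_univ_eq_sum_range (fun l => f (l + 2) - f l) L, shift_sum]
        refine (Finset.sum_le_card_nsmul _ _ (wpop L x (w + 4) - wpop L x (w + 1)) fun j hj => ?_).trans_eq
          (by simp)
        have hj2 := Finset.mem_range.1 hj
        have e1 : (w + 4) * (L : ℤ) = (w + 2) * L + 2 * L := by ring
        have e2 : (w + 1) * (L : ℤ) = (w + 2) * L - L := by ring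
        refine sub_le_sub (lpop_mono x (zpow_le_two ?_)) (lpop_mono x (zpow_le_two ?_))
        · push_cast; omega
        · omega
    _ = _ := by ring

/-- Uniform weights. -/
theorem isProb_uniform (α : Type*) [Fintype α] [Nonempty α] :
    IsProb (fun _ : α => (Fintype.card α : ℝ)⁻¹) :=
  ⟨fun _ => by positivity, by simp⟩

/-- Outcomes of one window: a level, an ordering and a sign. -/
abbrev WinOut (L : ℕ) (V : Type*) := (Fin L × Equiv.Perm V) × Bool

/-- Uniform weight on the outcomes of one window. -/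
noncomputable def winW (L : ℕ) (V : Type*) [Fintype V] [DecidableEq V] : WinOut L V → ℝ :=
  fun _ => (Fintype.card (WinOut L V) : ℝ)⁻¹

theorem winW_isProb (hL : 0 < L) : IsProb (winW L V) := by
  have : Nonempty (Fin L) := ⟨⟨0, hL⟩⟩
  exact isProb_uniform _

/-- Weight of an outcome of all windows. -/
noncomputable def glueW {L : ℕ} (Wn : Finset ℤ) (ω : ↥Wn → WinOut L V) : ℝ :=
  ∏ w, winW L V (ω w)

theorem glueW_isProb (hL : 0 < L) (Wn : Finset ℤ) : IsProb (glueW (V := V) (L := L) Wn) :=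
  IsProb.pi fun _ => winW_isProb hL

/-- A sign. -/
def sgn (s : Bool) : ℝ := if s then 1 else -1

/-- One random gluing. -/
noncomputable def glue (L : ℕ) (Q : ℤ → ℕ) (F : ℤ → V → V → EP P ι) {Wn : Finset ℤ}
    (ω : ↥Wn → WinOut L V) (x : V) : EP P ι :=
  ∑ w, sgn (ω w).2 • win L Q F w.1 (ω w).1 x

/-- Number of boundaries felt at `x`. -/
noncomputable def hits (L : ℕ) {Wn : Finset ℤ} (ω : ↥Wn → WinOut L V) (x : V) : ℝ :=
  ∑ w, hit L w.1 (ω w).1 x

theorem hits_nonneg {Wn : Finset ℤ} (ω : ↥Wn → WinOut L V) (x : V) : 0 ≤ hits L ω x :=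
  Finset.sum_nonneg fun _ _ => (hit_mem _ _ _ _).1

theorem glue_sub_le (hF : GoodMaps L F A a0) (hA : 0 < A) (hL : 4 ≤ L) (hQ0 : ∀ w, 0 < Q w)
    (hQ : ∀ w i, i < (w - 1) * (L : ℤ) → ∀ a b : V, a ≠ b → (2 : ℝ) ^ i / Q w ≤ dist a b)
    {H : ℝ} (hpop : ∀ x : V, ∀ t, lpop x t ≤ H) (hH0 : 0 ≤ H) {Λ : ℝ} (hΛ : H ≤ Λ * L)
    {Wn : Finset ℤ} (ω : ↥Wn → WinOut L V) {x y : V} (hne : x ≠ y) :
    ‖glue L Q F ω x - glue L Q F ω y‖ ≤ A * (720 * Λ + 700) * dist x y * (1 + hits L ω x) := by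
  classical
  have hLR : (0 : ℝ) < L := by exact_mod_cast (show 0 < L by omega)
  have hΛ0 : 0 ≤ Λ := by nlinarith
  set C0 : ℝ := 720 * Λ + 700 with hC0
  let G := fun (ω : ↥Wn → WinOut L V) (x : V) => glue L Q F ω x
  let S := fun (ω : ↥Wn → WinOut L V) (x : V) => hits L ω x
  let o : ℤ → Fin L × Equiv.Perm V := fun w =>
    if h : w ∈ Wn then (ω ⟨w, h⟩).1 else (⟨0, by omega⟩, 1)
  have ho : ∀ w : ↥Wn, o w.1 = (ω w).1 := fun w => by simp [o, w.2]
  have h := sum_win_sub_le hF hA.le hL hQ0 hQ hpop Wn o hne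
  rw [← Finset.sum_coe_sort Wn, ← Finset.sum_coe_sort Wn] at h
  simp only [ho] at h
  have hS : 0 ≤ S ω x := Finset.sum_nonneg fun w _ => (hit_mem _ _ _ _).1
  calc ‖G ω x - G ω y‖ ≤ ∑ w : ↥Wn, ‖win L Q F w.1 (ω w).1 x - win L Q F w.1 (ω w).1 y‖ := by
        simp only [G, glue]
        rw [← Finset.sum_sub_distrib]
        refine (norm_sum_le _ _).trans (Finset.sum_le_sum fun w _ => ?_)
        rw [← smul_sub, norm_smul]
        cases (ω w).2 <;> simp [sgn]
    _ ≤ A * dist x y * (24 * S ω x + 720 * H / L + 700) := h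
    _ ≤ A * dist x y * (C0 * (1 + S ω x)) := by
        refine mul_le_mul_of_nonneg_left ?_ (mul_nonneg hA.le dist_nonneg)
        have : 720 * H / (L : ℝ) ≤ 720 * Λ := by rw [div_le_iff₀ hLR]; nlinarith
        nlinarith
    _ = _ := by ring

theorem mean_hits_le (hL : 4 ≤ L) {H : ℝ} (hpop : ∀ x : V, ∀ t, lpop x t ≤ H) {Λ : ℝ}
    (hΛ : H ≤ Λ * L) (Wn : Finset ℤ) (x : V) :
    ∑ w : ↥Wn, ∑ o : WinOut L V, winW L V o * hit L w.1 o.1 x ≤ 6 * Λ := by
  classical
  have hLR : (0 : ℝ) < L := by exact_mod_cast (show 0 < L by omega)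
  let O := WinOut L V
  set u : O → ℝ := winW L V with hu
  have h1 : ∀ w : ↥Wn, ∑ o : O, u o * hit L w.1 o.1 x
      ≤ 2 * (wpop L x (w.1 + 4) - wpop L x (w.1 + 1)) / L := fun w => by
    refine le_trans (le_of_eq ?_) (mean_hit_le hL w.1 x)
    rw [show (∑ o : O, u o * hit L w.1 o.1 x) = ∑ p : Fin L × Equiv.Perm V, ∑ _s : Bool,
      (Fintype.card O : ℝ)⁻¹ * hit L w.1 p x from Fintype.sum_prod_type _]
    refine Finset.sum_congr rfl fun p _ => ?_
    simp only [Finset.sum_const, Finset.card_univ, Fintype.card_bool, O, Fintype.card_prod,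
      nsmul_eq_mul]
    push_cast
    field_simp
  refine (Finset.sum_le_sum fun w _ => h1 w).trans ?_
  rw [← Finset.sum_div, ← Finset.mul_sum, Finset.sum_coe_sort Wn
    (fun w => wpop L x (w + 4) - wpop L x (w + 1)), div_le_iff₀ hLR]
  have hmono : Monotone fun i : ℤ => wpop L x (i + 1) := fun a b h =>
    lpop_mono x (zpow_le_two (Int.mul_le_mul_of_nonneg_right (by omega) (by positivity)))
  have h2 := sum_increments_le hmono (fun i => lpop_nonneg x _) (fun i => hpop x _) 3 Wn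
  simp only [Nat.cast_ofNat, add_assoc] at h2
  norm_num at h2
  rw [Finset.sum_sub_distrib]
  linarith

theorem mgf_hits (hL : 4 ≤ L) {H : ℝ} (hpop : ∀ x : V, ∀ t, lpop x t ≤ H) {Λ : ℝ}
    (hΛ : H ≤ Λ * L) (Wn : Finset ℤ) (x : V) :
    ∑ ω : ↥Wn → WinOut L V, glueW Wn ω * Real.exp (1 * hits L ω x) ≤ Real.exp (12 * Λ) := by
  let O := WinOut L V
  let u : O → ℝ := winW L V
  have hup : IsProb u := winW_isProb (by omega)
  have hmean := fun x : V => mean_hits_le hL hpop hΛ Wn x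
  refine (mgf_le (T := ↥Wn) (κ := fun _ => O) (w := fun _ => u) (fun _ => hup)
    (fun w o => hit L w.1 o.1 x) (fun w o => (hit_mem _ _ _ _).1)
    (fun w o => (hit_mem _ _ _ _).2) 1).trans (Real.exp_le_exp.2 ?_)
  have h0 : 0 ≤ ∑ w : ↥Wn, ∑ o : O, u o * hit L w.1 o.1 x := Finset.sum_nonneg fun w _ =>
    Finset.sum_nonneg fun o _ => mul_nonneg (hup.nonneg o) (hit_mem _ _ _ _).1
  nlinarith [hmean x, Real.exp_one_lt_d9]

theorem glue_lower_mean (hF : GoodMaps L F A a0) (hA : 0 < A) (ha0 : 0 < a0) (hL : 4 ≤ L)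
    (hQ0 : ∀ w, 0 < Q w) {H : ℝ} (hpop : ∀ x : V, ∀ t, lpop x t ≤ H) (hH0 : 0 ≤ H) {Λ : ℝ}
    (hΛ : H ≤ Λ * L) (hsep : 8 * A ≤ a0 * (2 : ℝ) ^ L) {Wn : Finset ℤ} {x y : V} (hne : x ≠ y)
    (hmem : wOf L (dist x y) ∈ Wn) :
    Real.exp (-(6 * Λ)) / 2 ≤ ∑ ω : ↥Wn → WinOut L V, glueW Wn ω *
      (if a0 / 2 * dist x y ≤ ‖glue L Q F ω x - glue L Q F ω y‖ then (1 : ℝ) else 0) := by
  classical
  have hLR : (0 : ℝ) < L := by exact_mod_cast (show 0 < L by omega)
  set θ : ℝ := Real.exp (-(6 * Λ)) with hθ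
  let O := WinOut L V
  let Ω := ↥Wn → O
  set u : O → ℝ := winW L V with hu
  have hup : IsProb u := winW_isProb (by omega)
  set U : Ω → ℝ := glueW Wn with hU
  have hUp : IsProb U := glueW_isProb (by omega) Wn
  let G := fun (ω : Ω) (x : V) => glue L Q F ω x
  set low : (V × V) → Ω → ℝ := fun p ω =>
    if a0 / 2 * dist p.1 p.2 ≤ ‖G ω p.1 - G ω p.2‖ then 1 else 0 with hlow
  change θ / 2 ≤ ∑ ω, U ω * low (x, y) ω
  set d := dist x y with hd
  have hd0 : 0 < d := dist_pos.2 hne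
  set w0 : ↥Wn := ⟨wOf L d, hmem⟩ with hw0
  obtain ⟨hb1, hb2⟩ := wOf_bounds (L := L) (by omega) hd0
  let flip : Equiv.Perm Ω :=
    { toFun := fun ω => Function.update ω w0 ((ω w0).1, !(ω w0).2)
      invFun := fun ω => Function.update ω w0 ((ω w0).1, !(ω w0).2)
      left_inv := fun ω => by simp
      right_inv := fun ω => by simp }
  have hUflip : ∀ ω, U (flip ω) = U ω := fun ω => by simp [hU, glueW, winW]
  set padI : O → ℝ := fun o => 1 - hit L w0.1 o.1 x with hpadI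
  have hkey : ∀ ω, padI (ω w0) ≤ low (x, y) ω + low (x, y) (flip ω) := fun ω => by
    have hlow0 : ∀ ω, 0 ≤ low (x, y) ω := fun ω => by simp only [hlow]; split_ifs <;> norm_num
    by_cases hp : Pad (ω w0).1.2 (hiLvl L w0.1 (ω w0).1.1) x
    swap
    · have h1 : hit L w0.1 (ω w0).1 x = 1 := by simp [hit, hp]
      simp only [hpadI, h1, sub_self]
      exact add_nonneg (hlow0 _) (hlow0 _)
    have h1 : hit L w0.1 (ω w0).1 x = 0 := by simp [hit, hp]
    simp only [hpadI, h1, sub_zero]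
    set v := win L Q F w0.1 (ω w0).1 x - win L Q F w0.1 (ω w0).1 y with hv
    have hclose : dist y x ≤ (2 : ℝ) ^ (hiLvl L w0.1 (ω w0).1.1 - 2) := by
      rw [dist_comm, ← hd]
      refine hb2.le.trans (zpow_le_two ?_)
      have e : (w0.1 + 2) * (L : ℤ) = (wOf L d + 1) * L + L := by simp only [hw0]; ring
      simp only [hiLvl]; omega
    have hc := hp.ctr_eq (y := y) (hclose.trans (zpow_le_two (by omega)))
    set c := ctr (ω w0).1.2 (hiLvl L w0.1 (ω w0).1.1) x with hcdef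
    have hvl : a0 / 2 * d ≤ ‖v‖ := by
      have hv' : v = smooth L Q F w0.1 c x - smooth L Q F w0.1 c y := by
        rw [hv, win, win, piece, piece, hc, hp.psi_eq_one hclose,
          hp.psi_eq_one (by rw [dist_self]; positivity), one_smul, one_smul]
      have hcx : dist c x ≤ (2 : ℝ) ^ hiLvl L w0.1 (ω w0).1.1 := ctr_dist _ _ _
      have hcy : dist c y ≤ (2 : ℝ) ^ hiLvl L w0.1 (ω w0).1.1 := by
        rw [← hc]; exact ctr_dist _ _ _
      have hl' := (ω w0).1.1.2
      have hxc : dist x c ≤ (2 : ℝ) ^ ((w0.1 + 3) * L + 1) :=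
        dist_centre_le hL (l := 0) (by omega) hl' (d := 0) (by positivity)
          (by rw [dist_self]; positivity) hcx
      have hyc : dist y c ≤ (2 : ℝ) ^ ((w0.1 + 3) * L + 1) :=
        dist_centre_le hL (l := 0) (by omega) hl' (d := 0) (by positivity)
          (by rw [dist_self]; positivity) hcy
      have hs : (2 : ℝ) ^ ((w0.1 - 2) * L) ≤ d := by
        refine le_trans (zpow_le_two ?_) hb1
        exact Int.mul_le_mul_of_nonneg_right (by simp [hw0]) (by positivity)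
      have hl := hF.lower w0.1 c x y hxc hyc hs
      have hex := norm_smooth_sub_F_le hF hA.le hL hQ0 hl' hcx
      have hey := norm_smooth_sub_F_le hF hA.le hL hQ0 hl' hcy
      have herr : 4 * A * (2 : ℝ) ^ ((w0.1 - 1) * L) ≤ a0 / 2 * d := by
        have e : (2 : ℝ) ^ (wOf L d * L) = (2 : ℝ) ^ ((w0.1 - 1) * L) * (2 : ℝ) ^ L := by
          rw [← zpow_natCast (2 : ℝ) L, ← zpow_add₀ two_ne_zero]
          congr 1; simp only [hw0]; ring
        have h5 : 8 * A * (2 : ℝ) ^ ((w0.1 - 1) * L) ≤ a0 * d := by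
          calc 8 * A * (2 : ℝ) ^ ((w0.1 - 1) * L)
              ≤ a0 * (2 : ℝ) ^ L * (2 : ℝ) ^ ((w0.1 - 1) * L) :=
                mul_le_mul_of_nonneg_right hsep (by positivity)
            _ = a0 * (2 : ℝ) ^ (wOf L d * L) := by rw [e]; ring
            _ ≤ _ := mul_le_mul_of_nonneg_left hb1 ha0.le
        linarith
      have htri : ‖F w0.1 c x - F w0.1 c y‖ ≤ ‖v‖ + ‖smooth L Q F w0.1 c x - F w0.1 c x‖ +
          ‖smooth L Q F w0.1 c y - F w0.1 c y‖ := by
        have e : F w0.1 c x - F w0.1 c y = v - (smooth L Q F w0.1 c x - F w0.1 c x) +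
            (smooth L Q F w0.1 c y - F w0.1 c y) := by rw [hv']; abel
        rw [e]
        exact (norm_add_le _ _).trans (add_le_add (norm_sub_le _ _) le_rfl)
      linarith
    set o := ∑ w ∈ Finset.univ.erase w0,
      (sgn (ω w).2 • win L Q F w.1 (ω w).1 x - sgn (ω w).2 • win L Q F w.1 (ω w).1 y) with ho
    have hGd : ∀ ω' : Ω, G ω' x - G ω' y = ∑ w,
        (sgn (ω' w).2 • win L Q F w.1 (ω' w).1 x - sgn (ω' w).2 • win L Q F w.1 (ω' w).1 y) :=
      fun ω' => by simp only [G, glue]; rw [Finset.sum_sub_distrib]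
    have hG1 : G ω x - G ω y = sgn (ω w0).2 • v + o := by
      rw [hGd, ← Finset.add_sum_erase _ _ (Finset.mem_univ w0), ← smul_sub]
    have hG2 : G (flip ω) x - G (flip ω) y = -(sgn (ω w0).2 • v) + o := by
      rw [hGd, ← Finset.add_sum_erase _ _ (Finset.mem_univ w0), ← smul_sub]
      congr 1
      · simp only [flip, Equiv.coe_fn_mk, Function.update_self]
        cases (ω w0).2 <;> simp [sgn, hv]
      · refine Finset.sum_congr rfl fun w hw => ?_
        simp only [flip, Equiv.coe_fn_mk, Function.update_of_ne (Finset.ne_of_mem_erase hw)]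
    have hmax : 2 * ‖v‖ ≤ ‖G ω x - G ω y‖ + ‖G (flip ω) x - G (flip ω) y‖ := by
      rw [hG1, hG2]
      have h2 : ‖(sgn (ω w0).2 • v + o) - (-(sgn (ω w0).2 • v) + o)‖ = 2 * ‖v‖ := by
        rw [show (sgn (ω w0).2 • v + o) - (-(sgn (ω w0).2 • v) + o) = (2 : ℝ) • (sgn (ω w0).2 • v)
          by rw [two_smul]; abel, norm_smul, norm_smul]
        cases (ω w0).2 <;> simp [sgn]
      rw [← h2]; exact norm_sub_le _ _
    simp only [hlow]
    by_cases h : a0 / 2 * d ≤ ‖G ω x - G ω y‖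
    · rw [if_pos h]; split_ifs <;> norm_num
    · rw [if_neg h, if_pos (by linarith), zero_add]
  have hsum : ∑ ω, U ω * low (x, y) (flip ω) = ∑ ω, U ω * low (x, y) ω := by
    conv_rhs => rw [← Equiv.sum_comp flip (fun ω => U ω * low (x, y) ω)]
    simp [hUflip]
  have hpad : θ ≤ ∑ o, u o * padI o := by
    have h1 : ∑ o : O, u o * padI o = (L : ℝ)⁻¹ * ∑ l : Fin L, Real.exp (-(lpop x ((2 : ℝ) ^
        (hiLvl L w0.1 l + 1)) - lpop x ((2 : ℝ) ^ (hiLvl L w0.1 l - 1)))) := by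
      rw [show (∑ o : O, u o * padI o) = ∑ p : Fin L × Equiv.Perm V, ∑ _s : Bool,
        (Fintype.card O : ℝ)⁻¹ * (1 - hit L w0.1 p x) from Fintype.sum_prod_type _,
        Fintype.sum_prod_type, Finset.mul_sum]
      refine Finset.sum_congr rfl fun l _ => ?_
      rw [← prob_pad x (hiLvl L w0.1 l), Finset.mul_sum, Finset.mul_sum]
      refine Finset.sum_congr rfl fun π _ => ?_
      have : 1 - hit L w0.1 (l, π) x = if Pad π (hiLvl L w0.1 l) x then 1 else 0 := by
        unfold hit; split_ifs <;> norm_num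
      rw [Finset.sum_const, this]
      simp only [Finset.card_univ, Fintype.card_bool, O, Fintype.card_prod, Fintype.card_fin,
        nsmul_eq_mul]
      push_cast
      field_simp
    rw [h1, le_inv_mul_iff₀ hLR]
    set g : Fin L → ℝ := fun l => lpop x ((2 : ℝ) ^ (hiLvl L w0.1 l + 1)) -
      lpop x ((2 : ℝ) ^ (hiLvl L w0.1 l - 1)) with hg
    have hg6 : ∑ l, g l ≤ 6 * Λ * L := by
      set f : ℕ → ℝ := fun l => lpop x ((2 : ℝ) ^ ((w0.1 + 2) * L - 1 + l)) with hf
      have : ∀ l : Fin L, g l = f ((l : ℕ) + 2) - f l := fun l => by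
        simp only [hg, hf, hiLvl]; congr 2 <;> congr 1 <;> push_cast <;> ring
      simp_rw [this]
      rw [Fin.sum_univ_eq_sum_range (fun l => f (l + 2) - f l) L, shift_sum]
      refine (Finset.sum_le_card_nsmul _ _ H fun j _ => ?_).trans ?_
      · simp only [hf]
        linarith [lpop_nonneg x ((2 : ℝ) ^ ((w0.1 + 2) * L - 1 + (j : ℤ))),
          hpop x ((2 : ℝ) ^ ((w0.1 + 2) * L - 1 + ((L + j : ℕ) : ℤ)))]
      · simp; nlinarith
    calc (L : ℝ) * θ ≤ θ * ∑ l, (1 - (g l - 6 * Λ)) := by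
          rw [mul_comm]
          refine mul_le_mul_of_nonneg_left ?_ (Real.exp_pos _).le
          simp [Finset.sum_sub_distrib]
          linarith
      _ ≤ _ := by
          rw [Finset.mul_sum]
          refine Finset.sum_le_sum fun l _ => ?_
          rw [show -g l = -(6 * Λ) + (-(g l - 6 * Λ)) by ring, Real.exp_add]
          refine mul_le_mul_of_nonneg_left ?_ (Real.exp_pos _).le
          linarith [Real.add_one_le_exp (-(g l - 6 * Λ))]
  have hc : ∑ ω, U ω * padI (ω w0) = ∑ o, u o * padI o :=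
    expect_coord (T := ↥Wn) (κ := fun _ => O) (w := fun _ => u) (fun _ => hup) w0 padI
  have h2 : ∑ ω, U ω * padI (ω w0) ≤ ∑ ω, U ω * (low (x, y) ω + low (x, y) (flip ω)) :=
    Finset.sum_le_sum fun ω _ => mul_le_mul_of_nonneg_left (hkey ω) (hUp.nonneg ω)
  simp_rw [mul_add, Finset.sum_add_distrib, hsum] at h2
  linarith

/-- The glued map: finitely many random gluings, averaged. -/
theorem exists_glued [Nonempty V] (hP : P ≠ ⊤) {n M : ℕ} (hn : Fintype.card V ≤ n) (hn1 : 1 ≤ n)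
    (hF : GoodMaps L F A a0) (hA : 0 < A) (ha0 : 0 < a0) (hL : 4 ≤ L) {Λ : ℝ}
    (hΛ : Real.log n ≤ Λ * L) (hsep : 8 * A ≤ a0 * (2 : ℝ) ^ L) (hM : 0 < M)
    (hbad : (n : ℝ) ^ 2 * (M * Real.exp (-(8 * Real.log n)) +
      Real.exp (-((M : ℝ) * (⌈P.toReal⌉₊.factorial * Real.exp (1 + 12 * Λ)) /
        (4 * (1 + 24 * Λ + 8 * Real.log n) ^ ⌈P.toReal⌉₊))) +
      Real.exp (-((M : ℝ) * Real.exp (-(6 * Λ)) / 32))) < 1) :
    ∃ Φ : V → EP P (Fin M × ι), ∀ x y,
      (Real.exp (-(6 * Λ)) / 4) ^ P.toReal⁻¹ * (a0 / 2) * dist x y ≤ ‖Φ x - Φ y‖ ∧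
      ‖Φ x - Φ y‖ ≤ (2 * (⌈P.toReal⌉₊.factorial * Real.exp (1 + 12 * Λ))) ^ P.toReal⁻¹ *
        (A * (720 * Λ + 700)) * dist x y := by
  classical
  set q := P.toReal with hq
  have hq1 : 1 ≤ q := one_le_toReal hP
  set k := ⌈q⌉₊ with hk
  set H := Real.log n with hH
  have hH0 : 0 ≤ H := Real.log_natCast_nonneg n
  have hLR : (0 : ℝ) < L := by exact_mod_cast (show 0 < L by omega)
  have hΛ0 : 0 ≤ Λ := by nlinarith
  have hpop : ∀ x : V, ∀ t, lpop x t ≤ H := fun x t => lpop_le hn hn1 x t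
  -- a fine enough grid for every window
  set Q : ℤ → ℕ := fun w => ⌈(2 : ℝ) ^ ((w - 1) * L) * ∑ a : V, ∑ b : V, (dist a b)⁻¹⌉₊ + 1 with hQdef
  have hQ0 : ∀ w, 0 < Q w := fun w => Nat.succ_pos _
  have hQ : ∀ w i, i < (w - 1) * (L : ℤ) → ∀ a b : V, a ≠ b → (2 : ℝ) ^ i / Q w ≤ dist a b := by
    intro w i hi a b hab
    have hd : 0 < dist a b := dist_pos.2 hab
    have h1 : (dist a b)⁻¹ ≤ ∑ a : V, ∑ b : V, (dist a b)⁻¹ :=
      (Finset.single_le_sum (f := fun b => (dist a b)⁻¹) (fun _ _ => by positivity) (Finset.mem_univ b)).trans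
        (Finset.single_le_sum (f := fun a => ∑ b : V, (dist a b)⁻¹)
          (fun _ _ => Finset.sum_nonneg fun _ _ => by positivity) (Finset.mem_univ a))
    have h2 : (2 : ℝ) ^ i * (dist a b)⁻¹ ≤ Q w := by
      refine le_trans (mul_le_mul (zpow_le_two hi.le) h1 (by positivity) (by positivity)) ?_
      simp only [hQdef]; push_cast
      linarith [Nat.le_ceil ((2 : ℝ) ^ ((w - 1) * L) * ∑ a : V, ∑ b : V, (dist a b)⁻¹)]
    rw [div_le_iff₀ (by exact_mod_cast hQ0 w)]
    rw [← div_eq_mul_inv, div_le_iff₀ hd] at h2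
    linarith
  set Wn : Finset ℤ := ((Finset.univ : Finset (V × V)).filter fun p => p.1 ≠ p.2).image
    fun p => wOf L (dist p.1 p.2) with hWn
  let Ω := ↥Wn → WinOut L V
  set U : Ω → ℝ := glueW Wn with hU
  have hUp : IsProb U := glueW_isProb (by omega) Wn
  have hup : IsProb (winW L V) := winW_isProb (by omega)
  let G := fun (ω : Ω) (x : V) => glue L Q F ω x
  let S := fun (ω : Ω) (x : V) => hits L ω x
  set C0 : ℝ := 720 * Λ + 700 with hC0
  have hslope : ∀ ω x y, x ≠ y → ‖G ω x - G ω y‖ ≤ A * C0 * dist x y * (1 + S ω x) :=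
    fun ω x y hne => glue_sub_le hF hA hL hQ0 hQ hpop hH0 hΛ ω hne
  have hmgf : ∀ x : V, ∑ ω, U ω * Real.exp (1 * S ω x) ≤ Real.exp (12 * Λ) := fun x =>
    mgf_hits hL hpop hΛ Wn x
  have hmean := fun x : V => mean_hits_le hL hpop hΛ Wn x
  set B1 : ℝ := 24 * Λ + 8 * Real.log n with hB1
  set μ0 : ℝ := k.factorial * Real.exp (1 + 12 * Λ) with hμ0
  set Bk : ℝ := (1 + 24 * Λ + 8 * Real.log n) ^ k with hBk
  set θ : ℝ := Real.exp (-(6 * Λ)) with hθ
  have hBk0 : 0 < Bk := by positivity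
  set low : (V × V) → Ω → ℝ := fun p ω =>
    if a0 / 2 * dist p.1 p.2 ≤ ‖G ω p.1 - G ω p.2‖ then 1 else 0 with hlow
  have hlowmean : ∀ p : V × V, p.1 ≠ p.2 → θ / 2 ≤ ∑ ω, U ω * low p ω := fun p hne =>
    glue_lower_mean hF hA ha0 hL hQ0 hpop hH0 hΛ hsep hne
      (Finset.mem_image.2 ⟨p, by simp [hne], rfl⟩)
  -- the random trials
  let Wt : (Fin M → Ω) → ℝ := fun τ => ∏ t, U (τ t)
  have hWt : IsProb Wt := IsProb.pi fun _ => hUp
  let g : V → Ω → ℝ := fun x ω => min 1 ((1 + S ω x) ^ k / Bk)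
  have hS0 : ∀ ω x, 0 ≤ S ω x := fun ω x => hits_nonneg ω x
  let Bad : (V × V) → (Fin M → Ω) → Prop := fun p τ =>
    ((∃ t ∈ (Finset.univ : Finset (Fin M)), B1 ≤ S (τ t) p.1) ∨
      (1 + 1) * ((M : ℝ) * μ0 / Bk) ≤ ∑ t, g p.1 (τ t)) ∨
      (p.1 ≠ p.2 ∧ ∑ t, low p (τ t) ≤ (1 - 1 / 2) * ((M : ℝ) * θ / 2))
  have hBadle : ∀ p, prob Wt (Bad p) ≤ M * Real.exp (-(8 * Real.log n)) +
      Real.exp (-((M : ℝ) * μ0 / (4 * Bk))) + Real.exp (-((M : ℝ) * θ / 32)) := by
    intro p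
    refine le_trans (prob_or_le hWt.nonneg _ _) (add_le_add (le_trans (prob_or_le hWt.nonneg _ _)
      (add_le_add ?_ ?_)) ?_)
    · refine (prob_exists_le hWt.nonneg _ _).trans ?_
      refine le_trans (Finset.sum_le_card_nsmul _ _ (Real.exp (-(8 * Real.log n))) fun t _ => ?_)
        (by simp)
      rw [prob_coord (T := Fin M) (κ := fun _ => Ω) (w := fun _ => U) (fun _ => hUp) t
        (fun ω => B1 ≤ S ω p.1)]
      have hc := chernoff (T := ↥Wn) (κ := fun _ => WinOut L V) (w := fun _ => winW L V) (fun _ => hup)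
        (fun w o => hit L w.1 o.1 p.1) (fun w o => (hit_mem _ _ _ _).1)
        (fun w o => (hit_mem _ _ _ _).2) 1 B1
      refine le_trans (prob_mono hUp.nonneg fun ω hω => by simpa [S, hits] using hω) (hc.trans ?_)
      refine Real.exp_le_exp.2 ?_
      have h0 : 0 ≤ ∑ w : ↥Wn, ∑ o : WinOut L V, winW L V o * hit L w.1 o.1 p.1 := Finset.sum_nonneg fun w _ =>
        Finset.sum_nonneg fun o _ => mul_nonneg (hup.nonneg o) (hit_mem _ _ _ _).1
      nlinarith [hmean p.1, Real.exp_one_lt_d9]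
    · have hg1 : ∀ ω, g p.1 ω ≤ k.factorial * Real.exp 1 / Bk * Real.exp (1 * S ω p.1) := fun ω => by
        refine (min_le_right _ _).trans ?_
        rw [div_mul_eq_mul_div]
        gcongr
        have h := Real.pow_div_factorial_le_exp (1 + S ω p.1) (by linarith [hS0 ω p.1]) k
        rw [div_le_iff₀ (by positivity), Real.exp_add] at h
        rw [one_mul]; linarith
      have hup2 := chernoff_upper (T := Fin M) (κ := fun _ => Ω) (w := fun _ => U) (fun _ => hUp)
        (fun _ => g p.1) (fun _ ω => le_min zero_le_one (by have := hS0 ω p.1; positivity))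
        (fun _ ω => min_le_left _ _) (m := (M : ℝ) * μ0 / Bk) (ε := 1) (by positivity) ?_ one_pos
        (by norm_num)
      · refine hup2.trans_eq ?_
        congr 1; ring
      · simp only [Finset.sum_const, Finset.card_univ, Fintype.card_fin, nsmul_eq_mul]
        rw [mul_div_assoc]
        refine mul_le_mul_of_nonneg_left ?_ (Nat.cast_nonneg M)
        calc ∑ ω, U ω * g p.1 ω
            ≤ ∑ ω, U ω * (k.factorial * Real.exp 1 / Bk * Real.exp (1 * S ω p.1)) :=
              Finset.sum_le_sum fun ω _ => mul_le_mul_of_nonneg_left (hg1 ω) (hUp.nonneg ω)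
          _ = k.factorial * Real.exp 1 / Bk * ∑ ω, U ω * Real.exp (1 * S ω p.1) := by
              rw [Finset.mul_sum]; exact Finset.sum_congr rfl fun ω _ => by ring
          _ ≤ k.factorial * Real.exp 1 / Bk * Real.exp (12 * Λ) :=
              mul_le_mul_of_nonneg_left (hmgf p.1) (by positivity)
          _ = μ0 / Bk := by rw [hμ0, Real.exp_add]; ring
    · by_cases hne : p.1 ≠ p.2
      · have hl := chernoff_lower (T := Fin M) (κ := fun _ => Ω) (w := fun _ => U) (fun _ => hUp)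
          (fun _ => low p) (fun _ ω => by simp only [hlow]; split_ifs <;> norm_num)
          (fun _ ω => by simp only [hlow]; split_ifs <;> norm_num) (m := (M : ℝ) * θ / 2)
          (ε := 1 / 2) (by positivity) ?_ (by norm_num) (by norm_num)
        · refine (prob_mono hWt.nonneg fun τ hτ => hτ.2).trans (hl.trans_eq ?_)
          congr 1; ring
        · simp only [Finset.sum_const, Finset.card_univ, Fintype.card_fin, nsmul_eq_mul]
          rw [mul_div_assoc]
          exact mul_le_mul_of_nonneg_left (hlowmean p hne) (Nat.cast_nonneg M)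
      · refine le_trans (le_of_eq ?_) (Real.exp_pos _).le
        unfold prob
        exact Finset.sum_eq_zero fun τ _ => if_neg fun h => hne h.1
  obtain ⟨τ, hτ⟩ := exists_of_small_bad hWt Bad _ hBadle (by
    refine lt_of_le_of_lt (mul_le_mul_of_nonneg_right ?_ (by positivity)) hbad
    rw [Fintype.card_prod, pow_two]; push_cast; gcongr)
  refine ⟨fun x => WithLp.toLp P fun j => ((M : ℝ)⁻¹) ^ q⁻¹ * G (τ j.1) x j.2, fun x y => ?_⟩
  set Φ : V → EP P (Fin M × ι) := fun x =>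
    WithLp.toLp P fun j => ((M : ℝ)⁻¹) ^ q⁻¹ * G (τ j.1) x j.2 with hΦ
  change _ ≤ ‖Φ x - Φ y‖ ∧ ‖Φ x - Φ y‖ ≤ _
  have hMR : (0 : ℝ) < M := by exact_mod_cast hM
  have hsum : ∑ j, |(Φ x - Φ y) j| ^ q = (M : ℝ)⁻¹ * ∑ t, ‖G (τ t) x - G (τ t) y‖ ^ q := by
    rw [Fintype.sum_prod_type, Finset.mul_sum]
    refine Finset.sum_congr rfl fun t _ => ?_
    rw [hq, norm_rpow_eq hP, Finset.mul_sum]
    refine Finset.sum_congr rfl fun i _ => ?_
    simp only [hΦ, WithLp.ofLp_sub, Pi.sub_apply]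
    rw [← mul_sub, abs_mul, Real.mul_rpow (abs_nonneg _) (abs_nonneg _),
      abs_of_nonneg (Real.rpow_nonneg (by positivity) _),
      Real.rpow_inv_rpow (by positivity) (by linarith)]
  by_cases hxy : x = y
  · subst hxy
    simp
  have hd0 : 0 ≤ dist x y := dist_nonneg
  have hnot := hτ (x, y)
  simp only [Bad, not_or, not_exists, not_and, not_le, Finset.mem_univ, forall_true_left] at hnot
  obtain ⟨⟨hSB, hgs⟩, hls⟩ := hnot
  constructor
  · refine le_norm_of_rpow_le hP (by positivity) ?_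
    rw [← hq, hsum, Real.mul_rpow (by positivity) hd0, Real.mul_rpow (by positivity) (by positivity),
      Real.rpow_inv_rpow (by positivity) (by linarith), le_inv_mul_iff₀ hMR]
    have hstep : ∀ t, low (x, y) (τ t) * ((a0 / 2) ^ q * dist x y ^ q) ≤ ‖G (τ t) x - G (τ t) y‖ ^ q :=
      fun t => by
        simp only [hlow]
        by_cases h : a0 / 2 * dist x y ≤ ‖G (τ t) x - G (τ t) y‖
        · rw [if_pos h, one_mul, ← Real.mul_rpow (by positivity) hd0]
          exact Real.rpow_le_rpow (by positivity) h (by linarith)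
        · rw [if_neg h, zero_mul]
          exact Real.rpow_nonneg (norm_nonneg _) _
    calc (M : ℝ) * (θ / 4 * (a0 / 2) ^ q * dist x y ^ q)
        = (1 - 1 / 2) * ((M : ℝ) * θ / 2) * ((a0 / 2) ^ q * dist x y ^ q) := by ring
      _ ≤ (∑ t, low (x, y) (τ t)) * ((a0 / 2) ^ q * dist x y ^ q) :=
          mul_le_mul_of_nonneg_right (hls hxy).le (by positivity)
      _ ≤ _ := by rw [Finset.sum_mul]; exact Finset.sum_le_sum fun t _ => hstep t
  · refine norm_le_of_rpow_le hP (by positivity) ?_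
    rw [← hq, hsum, Real.mul_rpow (by positivity) hd0, Real.mul_rpow (by positivity) (by positivity),
      Real.rpow_inv_rpow (by positivity) (by linarith), inv_mul_le_iff₀ hMR]
    have hstep : ∀ t, ‖G (τ t) x - G (τ t) y‖ ^ q ≤
        (A * C0) ^ q * dist x y ^ q * (Bk * g x (τ t)) := fun t => by
      have h1 := Real.rpow_le_rpow (norm_nonneg _) (hslope (τ t) x y hxy) (by linarith : 0 ≤ q)
      rw [Real.mul_rpow (by positivity) (by linarith [hS0 (τ t) x]),
        Real.mul_rpow (by positivity) hd0] at h1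
      refine h1.trans (mul_le_mul_of_nonneg_left ?_ (by positivity))
      have hpow : (1 + S (τ t) x) ^ q ≤ (1 + S (τ t) x) ^ k := by
        rw [← Real.rpow_natCast]
        exact Real.rpow_le_rpow_of_exponent_le (by linarith [hS0 (τ t) x]) (Nat.le_ceil q)
      refine hpow.trans ?_
      have hle : (1 + S (τ t) x) ^ k ≤ Bk := by
        rw [hBk]
        exact pow_le_pow_left₀ (by linarith [hS0 (τ t) x]) (by linarith [hSB t]) k
      simp only [g]
      rw [min_eq_right (div_le_one_of_le₀ hle hBk0.le), mul_div_cancel₀ _ hBk0.ne']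
    calc ∑ t, ‖G (τ t) x - G (τ t) y‖ ^ q
        ≤ (A * C0) ^ q * dist x y ^ q * (Bk * ∑ t, g x (τ t)) := by
          simp_rw [Finset.mul_sum]
          exact Finset.sum_le_sum fun t _ => hstep t
      _ ≤ (A * C0) ^ q * dist x y ^ q * (Bk * ((1 + 1) * ((M : ℝ) * μ0 / Bk))) := by gcongr
      _ = _ := by field_simp; ring

end

end Vale.Agent.P249
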