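import Vale.Agent.P249.Sampling

namespace Vale.Agent.P249

open Finset

section Marginals

variable {T : Type*} [Fintype T] [DecidableEq T] {κ : T → Type*} [∀ t, Fintype (κ t)]

/-- Expectation of a function of a single coordinate. -/
theorem expect_coord {w : ∀ t, κ t → ℝ} (hw : ∀ t, IsProb (w t)) (t0 : T) (g : κ t0 → ℝ) :
    ∑ ω : (∀ t, κ t), (∏ t, w t (ω t)) * g (ω t0) = ∑ i, w t0 i * g i := by
  classical
  let G : ∀ t, κ t → ℝ := fun t => if h : t = t0 then (fun i => g (h ▸ i)) else fun _ => 1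
  have hG : ∀ ω : (∀ t, κ t), ∏ t, G t (ω t) = g (ω t0) := fun ω => by
    rw [Finset.prod_eq_single t0]
    · simp [G]
    · intro t _ ht; simp [G, ht]
    · simp
  calc ∑ ω : (∀ t, κ t), (∏ t, w t (ω t)) * g (ω t0)
      = ∑ ω : (∀ t, κ t), (∏ t, w t (ω t)) * ∏ t, G t (ω t) := by simp [hG]
    _ = ∏ t, ∑ i, w t i * G t i := sum_pi_prod w G
    _ = _ := by
      rw [Finset.prod_eq_single t0]
      · simp [G]
      · intro t _ ht; simp [G, ht, (hw t).sum_eq]
      · simp

theorem prob_coord {w : ∀ t, κ t → ℝ} (hw : ∀ t, IsProb (w t)) (t0 : T) (A : κ t0 → Prop) :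
    prob (fun ω : (∀ t, κ t) => ∏ t, w t (ω t)) (fun ω => A (ω t0)) = prob (w t0) A := by
  classical
  have h := expect_coord hw t0 (fun i => if A i then 1 else 0)
  simp only [mul_ite, mul_one, mul_zero] at h
  exact h

end Marginals

/-- Outcome of hashing one coordinate: dropped, or sent to a bucket with a sign. -/
abbrev Slot (b : ℕ) : Type := Option (Fin b × Bool)

noncomputable def slotW (b : ℕ) (π : ℝ) : Slot b → ℝ
  | none => 1 - π
  | some _ => π / (2 * b)

theorem slotW_isProb {b : ℕ} (hb : 0 < b) {π : ℝ} (h0 : 0 ≤ π) (h1 : π ≤ 1) :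
    IsProb (slotW b π) := by
  refine ⟨fun o => ?_, ?_⟩
  · cases o with
    | none => simp [slotW]; linarith
    | some _ => simp only [slotW]; positivity
  · have : (b : ℝ) ≠ 0 := by positivity
    rw [Fintype.sum_option]
    simp [slotW]
    field_simp
    ring

def keptInd {b : ℕ} : Slot b → ℝ
  | none => 0
  | some _ => 1

theorem keptInd_nonneg {b : ℕ} (o : Slot b) : 0 ≤ keptInd o := by
  cases o <;> simp [keptInd]

theorem keptInd_le_one {b : ℕ} (o : Slot b) : keptInd o ≤ 1 := by
  cases o <;> simp [keptInd]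

theorem sum_slotW_kept {b : ℕ} (hb : 0 < b) (π : ℝ) : ∑ o, slotW b π o * keptInd o = π := by
  have : (b : ℝ) ≠ 0 := by positivity
  rw [Fintype.sum_option]
  simp [slotW, keptInd]
  field_simp

/-- Coefficient of a slot in bucket `c`. -/
def coef {b : ℕ} (c : Fin b) : Slot b → ℝ
  | none => 0
  | some (c', σ) => if c' = c then (if σ then 1 else -1) else 0

def inBucket {b : ℕ} (c : Fin b) : Slot b → ℝ
  | none => 0
  | some (c', _) => if c' = c then 1 else 0

theorem abs_coef {b : ℕ} (c : Fin b) (o : Slot b) : |coef c o| = inBucket c o := by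
  cases o with
  | none => simp [coef, inBucket]
  | some x =>
    obtain ⟨c', σ⟩ := x
    by_cases h : c' = c <;> cases σ <;> simp [coef, inBucket, h]

theorem inBucket_nonneg {b : ℕ} (c : Fin b) (o : Slot b) : 0 ≤ inBucket c o := by
  rw [← abs_coef]; exact abs_nonneg _

theorem inBucket_le_one {b : ℕ} (c : Fin b) (o : Slot b) : inBucket c o ≤ 1 := by
  rcases o with _ | ⟨c', σ⟩
  · simp [inBucket]
  · simp only [inBucket]; split_ifs <;> simp

theorem sum_inBucket {b : ℕ} (o : Slot b) : ∑ c : Fin b, inBucket c o = keptInd o := by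
  rcases o with _ | ⟨c', σ⟩ <;> simp [inBucket, keptInd]

theorem inBucket_zero_or_one {b : ℕ} (c : Fin b) (o : Slot b) :
    inBucket c o = 0 ∨ inBucket c o = 1 := by
  rcases o with _ | ⟨c', σ⟩
  · simp [inBucket]
  · by_cases h : c' = c <;> simp [inBucket, h]

theorem sum_slotW_inBucket {b : ℕ} (hb : 0 < b) (π : ℝ) (c : Fin b) :
    ∑ o, slotW b π o * inBucket c o = π / b := by
  have : (b : ℝ) ≠ 0 := by positivity
  rw [Fintype.sum_option, Fintype.sum_prod_type]
  simp [slotW, inBucket]
  field_simp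

/-- Signed bucket sum. -/
def bucket {m b : ℕ} (ω : Fin m → Slot b) (v : Fin m → ℝ) (c : Fin b) : ℝ :=
  ∑ k, coef c (ω k) * v k

noncomputable def supp {m : ℕ} (v : Fin m → ℝ) : Finset (Fin m) := Finset.univ.filter fun k => v k ≠ 0

/-- Number of support coordinates in a bucket. -/
noncomputable def load {m b : ℕ} (ω : Fin m → Slot b) (v : Fin m → ℝ) (c : Fin b) : ℝ :=
  ∑ k ∈ supp v, inBucket c (ω k)

/-- `q`-mass of the kept coordinates. -/
noncomputable def keptMass {m b : ℕ} (q : ℝ) (ω : Fin m → Slot b) (v : Fin m → ℝ) : ℝ :=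
  ∑ k, keptInd (ω k) * |v k| ^ q

/-- Kept mass of the coordinates not exceeding the absolute value of their bucket sum. -/
noncomputable def domMass {m b : ℕ} (q : ℝ) (ω : Fin m → Slot b) (v : Fin m → ℝ) : ℝ :=
  ∑ k, |v k| ^ q * ∑ c : Fin b, (if |v k| ≤ |bucket ω v c| then inBucket c (ω k) else 0)

theorem rpow_bucket_le {m b : ℕ} {q : ℝ} (hq : 1 ≤ q) (ω : Fin m → Slot b) (v : Fin m → ℝ)
    (c : Fin b) {r : ℝ} (hr : 0 ≤ r) (hload : load ω v c ≤ r) :
    |bucket ω v c| ^ q ≤ r ^ q * ∑ k, inBucket c (ω k) * |v k| ^ q := by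
  classical
  set s := (Finset.univ : Finset (Fin m)).filter fun k => v k ≠ 0 ∧ inBucket c (ω k) = 1 with hs
  have hrest : ∀ k, k ∉ s → inBucket c (ω k) * |v k| = 0 := fun k hk => by
    rcases inBucket_zero_or_one c (ω k) with h | h
    · simp [h]
    · by_cases hv : v k = 0
      · simp [hv]
      · exact absurd (Finset.mem_filter.2 ⟨Finset.mem_univ _, hv, h⟩) hk
  have h1 : |bucket ω v c| ≤ ∑ k ∈ s, |v k| := by
    calc |bucket ω v c| ≤ ∑ k, |coef c (ω k) * v k| := Finset.abs_sum_le_sum_abs _ _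
      _ = ∑ k, inBucket c (ω k) * |v k| := by simp [abs_mul, abs_coef]
      _ = ∑ k ∈ s, inBucket c (ω k) * |v k| :=
        (Finset.sum_subset (Finset.subset_univ s) fun k _ hk => hrest k hk).symm
      _ = _ := Finset.sum_congr rfl fun k hk => by rw [(Finset.mem_filter.1 hk).2.2, one_mul]
  rcases s.eq_empty_or_nonempty with he | hne
  · rw [he, Finset.sum_empty] at h1
    rw [le_antisymm h1 (abs_nonneg _), Real.zero_rpow (by linarith)]
    exact mul_nonneg (Real.rpow_nonneg hr _) (Finset.sum_nonneg fun k _ =>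
      mul_nonneg (inBucket_nonneg _ _) (Real.rpow_nonneg (abs_nonneg _) _))
  · obtain ⟨k0, hk0, hmax⟩ := s.exists_max_image (fun k => |v k|) hne
    have hcard : (s.card : ℝ) ≤ r := by
      refine le_trans ?_ hload
      calc (s.card : ℝ) = ∑ k ∈ s, inBucket c (ω k) := by
            rw [Finset.sum_congr rfl fun k hk => (Finset.mem_filter.1 hk).2.2]
            simp
        _ ≤ _ := Finset.sum_le_sum_of_subset_of_nonneg
            (fun k hk => Finset.mem_filter.2 ⟨Finset.mem_univ _, (Finset.mem_filter.1 hk).2.1⟩)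
            fun k _ _ => inBucket_nonneg _ _
    have h2 : |bucket ω v c| ≤ r * |v k0| := by
      calc |bucket ω v c| ≤ ∑ _k ∈ s, |v k0| := h1.trans (Finset.sum_le_sum hmax)
        _ = (s.card : ℝ) * |v k0| := by simp
        _ ≤ _ := mul_le_mul_of_nonneg_right hcard (abs_nonneg _)
    calc |bucket ω v c| ^ q ≤ (r * |v k0|) ^ q := Real.rpow_le_rpow (abs_nonneg _) h2 (by linarith)
      _ = r ^ q * (inBucket c (ω k0) * |v k0| ^ q) := by
        rw [(Finset.mem_filter.1 hk0).2.2, one_mul, Real.mul_rpow hr (abs_nonneg _)]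
      _ ≤ _ := mul_le_mul_of_nonneg_left (Finset.single_le_sum (fun k _ =>
          mul_nonneg (inBucket_nonneg _ _) (Real.rpow_nonneg (abs_nonneg _) _)) (Finset.mem_univ k0))
          (Real.rpow_nonneg hr _)

theorem sum_bucket_le {m b : ℕ} {q : ℝ} (hq : 1 ≤ q) (ω : Fin m → Slot b) (v : Fin m → ℝ)
    {r : ℝ} (hr : 0 ≤ r) (hload : ∀ c, load ω v c ≤ r) :
    ∑ c, |bucket ω v c| ^ q ≤ r ^ q * keptMass q ω v := by
  calc ∑ c, |bucket ω v c| ^ q
      ≤ ∑ c, r ^ q * ∑ k, inBucket c (ω k) * |v k| ^ q :=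
        Finset.sum_le_sum fun c _ => rpow_bucket_le hq ω v c hr (hload c)
    _ = _ := by
      rw [← Finset.mul_sum, Finset.sum_comm]
      simp [keptMass, ← Finset.sum_mul, sum_inBucket]

theorem domMass_le {m b : ℕ} {q : ℝ} (hq : 1 ≤ q) (ω : Fin m → Slot b) (v : Fin m → ℝ)
    {r : ℝ} (hload : ∀ c, load ω v c ≤ r) :
    domMass q ω v ≤ r * ∑ c, |bucket ω v c| ^ q := by
  classical
  unfold domMass
  simp_rw [Finset.mul_sum]
  rw [Finset.sum_comm]
  refine Finset.sum_le_sum fun c _ => ?_
  have hstep : ∀ k, |v k| ^ q * (if |v k| ≤ |bucket ω v c| then inBucket c (ω k) else 0)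
      ≤ (if k ∈ supp v then inBucket c (ω k) else 0) * |bucket ω v c| ^ q := fun k => by
    by_cases hv : v k = 0
    · simp [supp, hv, Real.zero_rpow (by linarith : q ≠ 0)]
    · rw [if_pos (show k ∈ supp v by simp [supp, hv])]
      split_ifs with h
      · rw [mul_comm]
        exact mul_le_mul_of_nonneg_left (Real.rpow_le_rpow (abs_nonneg _) h (by linarith))
          (inBucket_nonneg _ _)
      · simp [mul_nonneg (inBucket_nonneg c (ω k)) (Real.rpow_nonneg (abs_nonneg (bucket ω v c)) q)]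
  refine (Finset.sum_le_sum fun k _ => hstep k).trans ?_
  rw [← Finset.sum_mul, ← Finset.sum_filter, Finset.filter_mem_eq_inter, Finset.univ_inter]
  exact mul_le_mul_of_nonneg_right (hload c) (Real.rpow_nonneg (abs_nonneg _) _)

theorem domMass_le_keptMass {m b : ℕ} (q : ℝ) (ω : Fin m → Slot b) (v : Fin m → ℝ) :
    domMass q ω v ≤ keptMass q ω v := by
  refine Finset.sum_le_sum fun k _ => ?_
  rw [mul_comm (keptInd _)]
  refine mul_le_mul_of_nonneg_left ?_ (Real.rpow_nonneg (abs_nonneg _) _)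
  rw [← sum_inBucket]
  exact Finset.sum_le_sum fun c _ => by split_ifs <;> simp [inBucket_nonneg]

theorem domMass_nonneg {m b : ℕ} (q : ℝ) (ω : Fin m → Slot b) (v : Fin m → ℝ) :
    0 ≤ domMass q ω v :=
  Finset.sum_nonneg fun k _ => mul_nonneg (Real.rpow_nonneg (abs_nonneg _) _)
    (Finset.sum_nonneg fun c _ => by split_ifs <;> simp [inBucket_nonneg])

/-- Weight of a whole hashing outcome. -/
noncomputable def hashW (m b : ℕ) (π : ℝ) : (Fin m → Slot b) → ℝ := fun ω => ∏ k, slotW b π (ω k)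

theorem hashW_isProb {m b : ℕ} (hb : 0 < b) {π : ℝ} (h0 : 0 ≤ π) (h1 : π ≤ 1) :
    IsProb (hashW m b π) := IsProb.pi fun _ => slotW_isProb hb h0 h1

theorem expect_keptMass {m b : ℕ} (hb : 0 < b) {π q : ℝ} (h0 : 0 ≤ π) (h1 : π ≤ 1)
    (v : Fin m → ℝ) : ∑ ω, hashW m b π ω * keptMass q ω v = π * ∑ k, |v k| ^ q := by
  simp_rw [keptMass, Finset.mul_sum, ← mul_assoc]
  rw [Finset.sum_comm]
  refine Finset.sum_congr rfl fun k _ => ?_
  rw [← Finset.sum_mul]
  congr 1
  exact (expect_coord (T := Fin m) (κ := fun _ => Slot b) (w := fun _ => slotW b π)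
    (fun _ => slotW_isProb hb h0 h1) k keptInd).trans (sum_slotW_kept hb π)

def flipSlot {b : ℕ} : Slot b → Slot b := Option.map fun x => (x.1, !x.2)

theorem flipSlot_flipSlot {b : ℕ} (o : Slot b) : flipSlot (flipSlot o) = o := by
  rcases o with _ | ⟨c, σ⟩ <;> simp [flipSlot]

/-- Flipping the sign of one coordinate. -/
def flipAt {m b : ℕ} (k : Fin m) : Equiv.Perm (Fin m → Slot b) where
  toFun ω := Function.update ω k (flipSlot (ω k))
  invFun ω := Function.update ω k (flipSlot (ω k))
  left_inv ω := by simp [flipSlot_flipSlot]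
  right_inv ω := by simp [flipSlot_flipSlot]

theorem expect_dom_ge {m b : ℕ} (hb : 0 < b) {π q : ℝ} (h0 : 0 ≤ π) (h1 : π ≤ 1)
    (v : Fin m → ℝ) : π / 2 * ∑ k, |v k| ^ q ≤ ∑ ω, hashW m b π ω * domMass q ω v := by
  classical
  simp_rw [domMass, Finset.mul_sum (Finset.univ : Finset (Fin m))]
  rw [Finset.sum_comm]
  refine Finset.sum_le_sum fun k _ => ?_
  have hexp : ∑ ω, hashW m b π ω * keptInd (ω k) = π := by
    exact (expect_coord (T := Fin m) (κ := fun _ => Slot b) (w := fun _ => slotW b π)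
      (fun _ => slotW_isProb hb h0 h1) k keptInd).trans (sum_slotW_kept hb π)
  set g : (Fin m → Slot b) → ℝ := fun ω =>
    ∑ c : Fin b, (if |v k| ≤ |bucket ω v c| then inBucket c (ω k) else 0) with hg
  have hw : ∀ ω, hashW m b π (flipAt k ω) = hashW m b π ω := fun ω => by
    refine Finset.prod_congr rfl fun l _ => ?_
    by_cases h : l = k
    · subst h
      simp only [flipAt, Equiv.coe_fn_mk, Function.update_self]
      cases ω l <;> simp [flipSlot, slotW]
    · simp [flipAt, Function.update_of_ne h]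
  have hflip : ∀ ω, keptInd (ω k) ≤ g ω + g (flipAt k ω) := fun ω => by
    simp only [hg, ← Finset.sum_add_distrib]
    rw [← sum_inBucket]
    refine Finset.sum_le_sum fun c _ => ?_
    have hin : inBucket c ((flipAt k ω) k) = inBucket c (ω k) := by
      simp only [flipAt, Equiv.coe_fn_mk, Function.update_self]
      cases ω k <;> simp [flipSlot, inBucket]
    rw [hin]
    rcases inBucket_zero_or_one c (ω k) with h | h
    · simp [h]
    · have hdiff : bucket ω v c - bucket (flipAt k ω) v c = 2 * (coef c (ω k) * v k) := by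
        have hcf : coef c ((flipAt k ω) k) = -coef c (ω k) := by
          simp only [flipAt, Equiv.coe_fn_mk, Function.update_self]
          rcases ω k with _ | ⟨c', σ⟩
          · simp [flipSlot, coef]
          · by_cases hc : c' = c <;> cases σ <;> simp [flipSlot, coef, hc]
        rw [bucket, bucket, ← Finset.sum_sub_distrib, Finset.sum_eq_single k]
        · rw [hcf]; ring
        · intro l _ hl; simp [flipAt, Function.update_of_ne hl]
        · simp
      have habs : 2 * |v k| ≤ |bucket ω v c| + |bucket (flipAt k ω) v c| := by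
        have := abs_sub (bucket ω v c) (bucket (flipAt k ω) v c)
        rw [hdiff, abs_mul, abs_mul, abs_coef, h, one_mul, abs_two] at this
        exact this
      rw [h]
      by_cases ha : |v k| ≤ |bucket ω v c|
      · rw [if_pos ha]; split_ifs <;> norm_num
      · rw [if_neg ha, if_pos (by linarith), zero_add]
  have hsum : ∑ ω, hashW m b π ω * g (flipAt k ω) = ∑ ω, hashW m b π ω * g ω := by
    conv_rhs => rw [← Equiv.sum_comp (flipAt k) (fun ω => hashW m b π ω * g ω)]
    simp [hw]
  have h2 : π ≤ 2 * ∑ ω, hashW m b π ω * g ω := by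
    calc π = ∑ ω, hashW m b π ω * keptInd (ω k) := hexp.symm
      _ ≤ ∑ ω, hashW m b π ω * (g ω + g (flipAt k ω)) := Finset.sum_le_sum fun ω _ =>
          mul_le_mul_of_nonneg_left (hflip ω) ((hashW_isProb hb h0 h1).nonneg ω)
      _ = _ := by simp_rw [mul_add, Finset.sum_add_distrib, hsum]; ring
  calc π / 2 * |v k| ^ q ≤ (∑ ω, hashW m b π ω * g ω) * |v k| ^ q :=
        mul_le_mul_of_nonneg_right (by linarith) (Real.rpow_nonneg (abs_nonneg _) _)
    _ = _ := by
      rw [Finset.sum_mul]
      exact Finset.sum_congr rfl fun ω _ => by rw [hg]; ring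

/-- Tail of the kept mass above a threshold. -/
theorem prob_keptMass_gt {m b : ℕ} (hb : 0 < b) {π q β θ : ℝ} (_hq : 0 < q) (h0 : 0 < π) (h1 : π ≤ 1)
    (hβ : 0 < β) (hθ : 0 < θ) (v : Fin m → ℝ)
    (hv : π = 1 ∨ ∀ k, |v k| ^ q ≤ β * π) (hP : ∑ k, |v k| ^ q ≤ θ) :
    prob (hashW m b π) (fun ω => 2 * (π * θ) < keptMass q ω v) ≤ Real.exp (-(θ / (4 * β))) := by
  rcases hv with hv | hv
  · have hnot : ∀ ω : Fin m → Slot b, ¬ 2 * (π * θ) < keptMass q ω v := fun ω h => by
      have : keptMass q ω v ≤ ∑ k, |v k| ^ q := Finset.sum_le_sum fun k _ =>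
        mul_le_of_le_one_left (Real.rpow_nonneg (abs_nonneg _) _) (keptInd_le_one _)
      rw [hv] at h
      linarith
    calc _ = (0 : ℝ) := by simp [prob, hnot]
      _ ≤ _ := (Real.exp_pos _).le
  · have hB : 0 < β * π := by positivity
    have hu := chernoff_upper (T := Fin m) (κ := fun _ => Slot b) (w := fun _ => slotW b π)
      (fun _ => slotW_isProb hb h0.le h1) (fun k o => keptInd o * (|v k| ^ q / (β * π)))
      (fun k o => mul_nonneg (keptInd_nonneg _) (div_nonneg (Real.rpow_nonneg (abs_nonneg _) _) hB.le))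
      (fun k o => (mul_le_mul (keptInd_le_one o) (div_le_one_of_le₀ (hv k) hB.le)
        (div_nonneg (Real.rpow_nonneg (abs_nonneg _) _) hB.le) zero_le_one).trans (one_mul 1).le)
      (m := θ / β) (ε := 1) (by positivity) ?_ one_pos (by norm_num)
    · have hexp : Real.exp (-((1 : ℝ) ^ 2 / 4 * (θ / β))) = Real.exp (-(θ / (4 * β))) := by
        congr 1; ring
      rw [hexp] at hu
      refine le_trans (prob_mono (hashW_isProb hb h0.le h1).nonneg fun ω hω => ?_) hu
      have : ∑ k, keptInd (ω k) * (|v k| ^ q / (β * π)) = keptMass q ω v / (β * π) := by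
        simp [keptMass, Finset.sum_div, mul_div_assoc]
      rw [this, le_div_iff₀ hB]
      calc (1 + 1) * (θ / β) * (β * π) = 2 * (π * θ) := by field_simp; ring
        _ ≤ _ := hω.le
    · simp_rw [← mul_assoc, ← Finset.sum_mul, sum_slotW_kept hb]
      calc ∑ k, π * (|v k| ^ q / (β * π)) = (∑ k, |v k| ^ q) / β := by
            rw [Finset.sum_div]
            exact Finset.sum_congr rfl fun k _ => by field_simp
        _ ≤ _ := by gcongr

/-- Truncating the kept mass at thrice its mean loses almost nothing. -/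
theorem expect_excess_le {m b : ℕ} (hb : 0 < b) {π q β : ℝ} (_hq : 0 < q) (h0 : 0 < π) (h1 : π ≤ 1)
    (hβ : 0 < β) (v : Fin m → ℝ) (hv : π = 1 ∨ ∀ k, |v k| ^ q ≤ β * π)
    (hP : 3 * β ≤ ∑ k, |v k| ^ q) :
    ∑ ω, hashW m b π ω * max 0 (keptMass q ω v - 3 * (π * ∑ k, |v k| ^ q))
      ≤ π * (∑ k, |v k| ^ q) / 8 := by
  set P := ∑ k, |v k| ^ q with hPdef
  have hPpos : 0 < P := by linarith
  rcases hv with hv | hv
  · refine le_trans (le_of_eq (Finset.sum_eq_zero fun ω _ => ?_)) (by positivity)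
    have : keptMass q ω v ≤ P := Finset.sum_le_sum fun k _ =>
      mul_le_of_le_one_left (Real.rpow_nonneg (abs_nonneg _) _) (keptInd_le_one _)
    rw [hv, max_eq_left (by linarith), mul_zero]
  · have hB : 0 < β * π := by positivity
    set μ := P / β with hμ
    have hμ3 : 3 ≤ μ := by rw [hμ, le_div_iff₀ hβ]; linarith
    have hmgf := mgf_le (T := Fin m) (κ := fun _ => Slot b) (w := fun _ => slotW b π)
      (fun _ => slotW_isProb hb h0.le h1) (fun k o => keptInd o * (|v k| ^ q / (β * π)))
      (fun k o => mul_nonneg (keptInd_nonneg _) (div_nonneg (Real.rpow_nonneg (abs_nonneg _) _) hB.le))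
      (fun k o => (mul_le_mul (keptInd_le_one o) (div_le_one_of_le₀ (hv k) hB.le)
        (div_nonneg (Real.rpow_nonneg (abs_nonneg _) _) hB.le) zero_le_one).trans (one_mul 1).le) 1
    have hsum : ∑ k, ∑ o, slotW b π o * (keptInd o * (|v k| ^ q / (β * π))) = μ := by
      simp_rw [← mul_assoc, ← Finset.sum_mul, sum_slotW_kept hb, hμ, hPdef, Finset.sum_div]
      exact Finset.sum_congr rfl fun k _ => by field_simp
    rw [hsum] at hmgf
    have hkey : ∀ ω : Fin m → Slot b, max 0 (keptMass q ω v - 3 * (π * P)) ≤ β * π * (Real.exp (-(3 * μ)) *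
        Real.exp (1 * ∑ k, keptInd (ω k) * (|v k| ^ q / (β * π)))) := fun ω => by
      have e : ∑ k, keptInd (ω k) * (|v k| ^ q / (β * π)) = keptMass q ω v / (β * π) := by
        simp [keptMass, Finset.sum_div, mul_div_assoc]
      rw [one_mul, e, ← Real.exp_add]
      refine max_le (by positivity) ?_
      have h := Real.add_one_le_exp (-(3 * μ) + keptMass q ω v / (β * π))
      have h2 := mul_le_mul_of_nonneg_left h hB.le
      have h3 : β * π * (-(3 * μ) + keptMass q ω v / (β * π) + 1)
          = keptMass q ω v - 3 * (π * P) + β * π := by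
        rw [hμ]; field_simp; ring
      linarith
    calc ∑ ω, hashW m b π ω * max 0 (keptMass q ω v - 3 * (π * P))
        ≤ ∑ ω, hashW m b π ω * (β * π * (Real.exp (-(3 * μ)) *
          Real.exp (1 * ∑ k, keptInd (ω k) * (|v k| ^ q / (β * π))))) :=
          Finset.sum_le_sum fun ω _ => mul_le_mul_of_nonneg_left (hkey ω)
            ((hashW_isProb hb h0.le h1).nonneg ω)
      _ = β * π * Real.exp (-(3 * μ)) * ∑ ω, hashW m b π ω *
          Real.exp (1 * ∑ k, keptInd (ω k) * (|v k| ^ q / (β * π))) := by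
        rw [Finset.mul_sum]
        exact Finset.sum_congr rfl fun ω _ => by ring
      _ ≤ β * π * Real.exp (-(3 * μ)) * Real.exp ((Real.exp 1 - 1) * μ) := by
        refine mul_le_mul_of_nonneg_left ?_ (by positivity)
        exact hmgf
      _ ≤ β * π * Real.exp (-μ) := by
        rw [mul_assoc, ← Real.exp_add]
        refine mul_le_mul_of_nonneg_left (Real.exp_le_exp.2 ?_) hB.le
        nlinarith [Real.exp_one_lt_d9]
      _ ≤ β * π * (μ / 8) := by
        refine mul_le_mul_of_nonneg_left ?_ hB.le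
        rw [Real.exp_neg, inv_le_iff_one_le_mul₀' (Real.exp_pos _)]
        have := Real.quadratic_le_exp_of_nonneg (by linarith : (0:ℝ) ≤ μ)
        nlinarith
      _ = _ := by rw [hμ]; field_simp

/-- Few support coordinates share a bucket. -/
theorem prob_load_gt {m b : ℕ} (hb : 0 < b) {π G : ℝ} (h0 : 0 ≤ π) (h1 : π ≤ 1) (hG : 1 < G)
    (v : Fin m → ℝ) (hs : G * (π * (supp v).card) ≤ b) (r : ℕ) (c : Fin b) :
    prob (hashW m b π) (fun ω => (r : ℝ) + 1 ≤ load ω v c) ≤ 3 * (1 / G) ^ (r + 1) := by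
  classical
  have hlog : 0 < Real.log G := Real.log_pos hG
  have hu := chernoff (T := Fin m) (κ := fun _ => Slot b) (w := fun _ => slotW b π)
    (fun _ => slotW_isProb hb h0 h1) (fun k o => if k ∈ supp v then inBucket c o else 0)
    (fun k o => by split_ifs <;> simp [inBucket_nonneg])
    (fun k o => by split_ifs <;> simp [inBucket_le_one]) (Real.log G) (r + 1)
  refine le_trans (prob_mono (hashW_isProb hb h0 h1).nonneg fun ω hω => ?_) (hu.trans ?_)
  · refine mul_le_mul_of_nonneg_left ?_ hlog.le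
    simpa [load, Finset.sum_ite_mem] using hω
  · have hmean : ∑ k, ∑ o, slotW b π o * (if k ∈ supp v then inBucket c o else 0)
        = π / b * (supp v).card := by
      have : ∀ k, ∑ o, slotW b π o * (if k ∈ supp v then inBucket c o else 0)
          = if k ∈ supp v then π / b else 0 := fun k => by
        split_ifs with h
        · exact sum_slotW_inBucket hb π c
        · simp
      simp_rw [this, Finset.sum_ite_mem, Finset.univ_inter, Finset.sum_const, nsmul_eq_mul]
      ring
    rw [hmean, Real.exp_log (by linarith), sub_eq_add_neg, Real.exp_add]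
    refine mul_le_mul ?_ (le_of_eq ?_) (Real.exp_pos _).le (by norm_num)
    · refine le_trans (Real.exp_le_exp.2 ?_) (Real.exp_one_lt_three.le)
      have hbR : (0 : ℝ) < b := by exact_mod_cast hb
      have : 0 ≤ π * ((supp v).card : ℝ) := by positivity
      rw [div_mul_eq_mul_div, ← mul_div_assoc, div_le_one hbR]
      nlinarith
    · rw [Real.exp_neg, mul_comm, show ((r : ℝ) + 1) = ((r + 1 : ℕ) : ℝ) by push_cast; ring,
        Real.exp_nat_mul, Real.exp_log (by linarith), one_div, inv_pow]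

/-- Sampling plus signed hashing: one linear map serving finitely many vectors. -/
theorem exists_hash {m b M r : ℕ} {π q β θ G : ℝ} {Q : Type*} [Fintype Q] (v : Q → Fin m → ℝ)
    (hq : 1 ≤ q) (h0 : 0 < π) (h1 : π ≤ 1) (hβ : 0 < β) (hθ : 3 * β ≤ θ) (hG : 1 < G)
    (hb : 0 < b) (hM : 0 < M)
    (hv : π = 1 ∨ ∀ a k, |v a k| ^ q ≤ β * π)
    (hs : ∀ a, G * (π * (supp (v a)).card) ≤ b)
    (hbad : (Fintype.card Q : ℝ) * (M * Real.exp (-(1 / (4 * β))) + M * b * (3 * (1 / G) ^ (r + 1))
      + Real.exp (-((M : ℝ) / 128))) < 1) :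
    ∃ T : (Fin m → ℝ) →ₗ[ℝ] (Fin M × Fin b → ℝ), ∀ a,
      (∑ j, |T (v a) j| ^ q ≤ 2 * ((r : ℝ) + 1) ^ q * max 1 (∑ k, |v a k| ^ q)) ∧
      (θ ≤ ∑ k, |v a k| ^ q → (∑ k, |v a k| ^ q) / (16 * ((r : ℝ) + 1)) ≤ ∑ j, |T (v a) j| ^ q) := by
  classical
  set w : (Fin M → Fin m → Slot b) → ℝ := fun ω => ∏ t, hashW m b π (ω t) with hw
  have hwp : IsProb w := IsProb.pi fun _ => hashW_isProb hb h0.le h1
  set P : Q → ℝ := fun a => ∑ k, |v a k| ^ q with hP
  set low : Q → (Fin m → Slot b) → ℝ := fun a ω =>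
    min (domMass q ω (v a)) (3 * (π * P a)) / (3 * (π * P a)) with hlowdef
  let A : Q → (Fin M → Fin m → Slot b) → Prop := fun a ω =>
    ((∃ t ∈ (Finset.univ : Finset (Fin M)), 2 * (π * max 1 (P a)) < keptMass q (ω t) (v a)) ∨
      (∃ x ∈ (Finset.univ : Finset (Fin M × Fin b)), (r : ℝ) + 1 ≤ load (ω x.1) (v a) x.2)) ∨
      (θ ≤ P a ∧ ∑ t, low a (ω t) ≤ (1 - 1 / 2) * ((M : ℝ) / 8))
  have hA : ∀ a, prob w (A a) ≤ M * Real.exp (-(1 / (4 * β))) + M * b * (3 * (1 / G) ^ (r + 1))
      + Real.exp (-((M : ℝ) / 128)) := fun a => by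
    have hva : π = 1 ∨ ∀ k, |v a k| ^ q ≤ β * π := hv.imp_right fun h => h a
    refine le_trans (prob_or_le hwp.nonneg _ _) (add_le_add (le_trans (prob_or_le hwp.nonneg _ _)
      (add_le_add ?_ ?_)) ?_)
    · refine (prob_exists_le hwp.nonneg _ _).trans ?_
      refine le_trans (Finset.sum_le_card_nsmul _ _ (Real.exp (-(1 / (4 * β)))) fun t _ => ?_) (by simp)
      rw [prob_coord (T := Fin M) (κ := fun _ => Fin m → Slot b) (w := fun _ => hashW m b π)
        (fun _ => hashW_isProb hb h0.le h1) t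
        (fun o => 2 * (π * max 1 (P a)) < keptMass q o (v a))]
      refine (prob_keptMass_gt hb (by linarith) h0 h1 hβ (lt_max_of_lt_left one_pos) (v a) hva
        (le_max_right _ _)).trans (Real.exp_le_exp.2 ?_)
      gcongr
      exact le_max_left _ _
    · refine (prob_exists_le hwp.nonneg _ _).trans ?_
      refine le_trans (Finset.sum_le_card_nsmul _ _ (3 * (1 / G) ^ (r + 1)) fun x _ => ?_) (by simp [mul_assoc])
      rw [prob_coord (T := Fin M) (κ := fun _ => Fin m → Slot b) (w := fun _ => hashW m b π)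
        (fun _ => hashW_isProb hb h0.le h1) x.1 (fun o => (r : ℝ) + 1 ≤ load o (v a) x.2)]
      exact prob_load_gt hb h0.le h1 hG (v a) (hs a) r x.2
    · by_cases hth : θ ≤ P a
      · have hPpos : 0 < P a := by linarith
        have h3 : 0 < 3 * (π * P a) := by positivity
        have hmean : 1 / 8 ≤ ∑ o, hashW m b π o * low a o := by
          simp only [hlowdef, ← mul_div_assoc, ← Finset.sum_div]
          rw [le_div_iff₀ h3]
          have hge : ∀ o : Fin m → Slot b, domMass q o (v a) - max 0 (keptMass q o (v a) - 3 * (π * P a))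
              ≤ min (domMass q o (v a)) (3 * (π * P a)) := fun o => by
            refine le_min (by linarith [le_max_left 0 (keptMass q o (v a) - 3 * (π * P a))]) ?_
            linarith [le_max_right 0 (keptMass q o (v a) - 3 * (π * P a)),
              domMass_le_keptMass q o (v a)]
          have h4 := expect_dom_ge (q := q) hb h0.le h1 (v a)
          have h5 := expect_excess_le hb (by linarith) h0 h1 hβ (v a) hva (hθ.trans hth)
          have hsum : ∑ o, hashW m b π o * (domMass q o (v a) -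
              max 0 (keptMass q o (v a) - 3 * (π * P a)))
              ≤ ∑ o, hashW m b π o * min (domMass q o (v a)) (3 * (π * P a)) :=
            Finset.sum_le_sum fun o _ =>
              mul_le_mul_of_nonneg_left (hge o) ((hashW_isProb hb h0.le h1).nonneg o)
          simp_rw [mul_sub, Finset.sum_sub_distrib] at hsum
          rw [hP] at hsum ⊢
          linarith
        have hl := chernoff_lower (T := Fin M) (κ := fun _ => Fin m → Slot b)
          (w := fun _ => hashW m b π) (fun _ => hashW_isProb hb h0.le h1) (fun _ => low a)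
          (fun _ o => div_nonneg (le_min (domMass_nonneg q o (v a)) h3.le) h3.le)
          (fun _ o => div_le_one_of_le₀ (min_le_right _ _) h3.le) (m := (M : ℝ) / 8) (ε := 1 / 2)
          (by positivity) ?_ (by norm_num) (by norm_num)
        · refine (prob_mono hwp.nonneg fun ω hω => hω.2).trans (hl.trans_eq ?_)
          congr 1; ring
        · simp only [Finset.sum_const, Finset.card_univ, Fintype.card_fin, nsmul_eq_mul]
          nlinarith [show (0 : ℝ) ≤ M from Nat.cast_nonneg M]
      · have hnot : ∀ ω : Fin M → Fin m → Slot b, ¬ (θ ≤ P a ∧ ∑ t, low a (ω t) ≤ (1 - 1 / 2) * ((M : ℝ) / 8)) :=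
          fun ω h => hth h.1
        calc prob w _ = (0 : ℝ) := by
              unfold prob; exact Finset.sum_eq_zero fun ω _ => if_neg (hnot ω)
          _ ≤ _ := (Real.exp_pos _).le
  obtain ⟨ω, hω⟩ := exists_of_small_bad hwp A _ hA hbad
  set c : ℝ := ((π * M)⁻¹) ^ q⁻¹ with hc
  refine ⟨{
      toFun := fun x j => c * bucket (ω j.1) x j.2
      map_add' := fun x y => by
        funext j; simp [bucket, mul_add, Finset.sum_add_distrib]
      map_smul' := fun s x => by
        funext j
        simp [bucket, Finset.mul_sum]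
        exact Finset.sum_congr rfl fun k _ => by ring }, fun a => ?_⟩
  have hMR : (0 : ℝ) < M := by exact_mod_cast hM
  have hnot := hω a
  simp only [A, not_or, not_exists, not_and, not_lt, not_le, Finset.mem_univ, forall_true_left] at hnot
  obtain ⟨⟨hkept, hload⟩, hlow⟩ := hnot
  have hload' : ∀ t c, load (ω t) (v a) c ≤ (r : ℝ) + 1 := fun t c => (hload (t, c)).le
  have hTsum : ∑ j : Fin M × Fin b, |c * bucket (ω j.1) (v a) j.2| ^ q
      = (π * M)⁻¹ * ∑ t, ∑ cc, |bucket (ω t) (v a) cc| ^ q := by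
    rw [Fintype.sum_prod_type, Finset.mul_sum]
    refine Finset.sum_congr rfl fun t _ => ?_
    rw [Finset.mul_sum]
    refine Finset.sum_congr rfl fun cc _ => ?_
    rw [abs_mul, Real.mul_rpow (abs_nonneg _) (abs_nonneg _), hc,
      abs_of_nonneg (Real.rpow_nonneg (by positivity) _),
      Real.rpow_inv_rpow (by positivity) (by linarith)]
  simp only [LinearMap.coe_mk, AddHom.coe_mk]
  rw [hTsum]
  constructor
  · rw [inv_mul_le_iff₀ (by positivity)]
    calc ∑ t, ∑ cc, |bucket (ω t) (v a) cc| ^ q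
        ≤ ∑ _t : Fin M, ((r : ℝ) + 1) ^ q * (2 * (π * max 1 (P a))) := Finset.sum_le_sum fun t _ =>
          (sum_bucket_le hq _ _ (by positivity) (hload' t)).trans
            (mul_le_mul_of_nonneg_left (hkept t) (by positivity))
      _ = _ := by simp [hP]; ring
  · intro hth
    have hPpos : 0 < P a := by simp only [hP]; linarith
    rw [le_inv_mul_iff₀ (by positivity)]
    have h6 : (M : ℝ) / 16 * (3 * (π * P a)) ≤ ((r : ℝ) + 1) * ∑ t, ∑ cc, |bucket (ω t) (v a) cc| ^ q := by
      calc (M : ℝ) / 16 * (3 * (π * P a)) = (1 - 1 / 2) * ((M : ℝ) / 8) * (3 * (π * P a)) := by ring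
        _ ≤ (∑ t, low a (ω t)) * (3 * (π * P a)) :=
          mul_le_mul_of_nonneg_right (hlow hth).le (by positivity)
        _ = ∑ t, min (domMass q (ω t) (v a)) (3 * (π * P a)) := by
          rw [Finset.sum_mul]
          exact Finset.sum_congr rfl fun t _ => div_mul_cancel₀ _ (by positivity)
        _ ≤ ∑ t, ((r : ℝ) + 1) * ∑ cc, |bucket (ω t) (v a) cc| ^ q := Finset.sum_le_sum fun t _ =>
          (min_le_left _ _).trans (domMass_le hq _ _ (hload' t))
        _ = _ := (Finset.mul_sum _ _ _).symm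
    rw [← mul_div_assoc, div_le_iff₀ (by positivity)]
    have : 0 ≤ ((r : ℝ) + 1) * ∑ t, ∑ cc, |bucket (ω t) (v a) cc| ^ q := le_trans (by positivity) h6
    simp only [hP] at h6 hPpos ⊢
    nlinarith [mul_pos (mul_pos hMR h0) hPpos]

end Vale.Agent.P249
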