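import Vale.Agent.P249.Hash

open scoped ENNReal

namespace Vale.Agent.P249

open Finset

/-- `ℓ_P` over a finite index type. -/
abbrev EP (P : ℝ≥0∞) (ι : Type) := PiLp P (fun _ : ι => ℝ)

variable {P : ℝ≥0∞} [Fact (1 ≤ P)]

theorem one_le_toReal (hP : P ≠ ⊤) : 1 ≤ P.toReal :=
  ENNReal.toReal_mono hP (Fact.out : (1 : ℝ≥0∞) ≤ P)

theorem norm_rpow_eq (hP : P ≠ ⊤) {ι : Type} [Fintype ι] (x : EP P ι) :
    ‖x‖ ^ P.toReal = ∑ k, |x k| ^ P.toReal := by
  have h := one_le_toReal hP
  rw [PiLp.norm_eq_sum (by linarith), one_div,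
    Real.rpow_inv_rpow (Finset.sum_nonneg fun k _ => by positivity) (by linarith)]
  simp [Real.norm_eq_abs]

theorem dist_rpow_eq (hP : P ≠ ⊤) {ι : Type} [Fintype ι] (x y : EP P ι) :
    dist x y ^ P.toReal = ∑ k, |x k - y k| ^ P.toReal := by
  rw [dist_eq_norm, norm_rpow_eq hP]
  simp

theorem norm_le_of_rpow_le (hP : P ≠ ⊤) {ι : Type} [Fintype ι] {x : EP P ι} {C : ℝ} (hC : 0 ≤ C)
    (h : ∑ k, |x k| ^ P.toReal ≤ C ^ P.toReal) : ‖x‖ ≤ C := by
  have h1 := one_le_toReal hP
  rwa [← norm_rpow_eq hP, Real.rpow_le_rpow_iff (norm_nonneg _) hC (by linarith)] at h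

theorem le_norm_of_rpow_le (hP : P ≠ ⊤) {ι : Type} [Fintype ι] {x : EP P ι} {C : ℝ} (hC : 0 ≤ C)
    (h : C ^ P.toReal ≤ ∑ k, |x k| ^ P.toReal) : C ≤ ‖x‖ := by
  have h1 := one_le_toReal hP
  rwa [← norm_rpow_eq hP, Real.rpow_le_rpow_iff hC (norm_nonneg _) (by linarith)] at h

/-- Odd clipping. -/
noncomputable def clip (τ t : ℝ) : ℝ := max (-τ) (min τ t)

theorem abs_clip_le {τ : ℝ} (hτ : 0 ≤ τ) (t : ℝ) : |clip τ t| ≤ τ := by
  rw [abs_le, clip]
  exact ⟨le_max_left _ _, max_le (by linarith) (min_le_left _ _)⟩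

theorem clip_of_abs_le {τ t : ℝ} (h : |t| ≤ τ) : clip τ t = t := by
  rw [abs_le] at h
  rw [clip, min_eq_right h.2, max_eq_right h.1]

theorem clip_zero (t : ℝ) : clip 0 t = 0 := by
  simp only [clip, neg_zero]
  exact max_eq_left (min_le_left _ _)

theorem clip_mono {τ t s : ℝ} (h : t ≤ s) : clip τ t ≤ clip τ s :=
  max_le_max le_rfl (min_le_min le_rfl h)

theorem clip_sub_le_id {τ t s : ℝ} (h0 : 0 ≤ τ) (h : t ≤ s) : clip τ s - clip τ t ≤ s - t := by
  simp only [clip, max_def, min_def]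
  split_ifs <;> linarith

theorem clip_clip {τ τ' : ℝ} (h0 : 0 ≤ τ') (hτ : τ' ≤ τ) (t : ℝ) :
    clip τ' (clip τ t) = clip τ' t := by
  simp only [clip, max_def, min_def]
  split_ifs <;> linarith

theorem clip_sub_le {τ τ' t s : ℝ} (h0 : 0 ≤ τ') (hτ : τ' ≤ τ) (h : t ≤ s) :
    clip τ' s - clip τ' t ≤ clip τ s - clip τ t := by
  rw [← clip_clip h0 hτ s, ← clip_clip h0 hτ t]
  exact clip_sub_le_id h0 (clip_mono h)

/-- The slice of `t` between two clipping thresholds. -/
noncomputable def slice (τ τ' t : ℝ) : ℝ := clip τ t - clip τ' t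

theorem abs_slice_sub_le {τ τ' : ℝ} (h0 : 0 ≤ τ') (hτ : τ' ≤ τ) (t s : ℝ) :
    |slice τ τ' t - slice τ τ' s| ≤ |t - s| := by
  wlog h : s ≤ t generalizing t s
  · rw [abs_sub_comm, abs_sub_comm t s]
    exact this s t (le_of_not_ge h)
  have h1 := clip_sub_le h0 hτ h
  have h2 := clip_sub_le_id (h0.trans hτ) h
  have h3 : clip τ' s ≤ clip τ' t := clip_mono h
  rw [abs_of_nonneg (show (0 : ℝ) ≤ t - s by linarith), abs_le]
  simp only [slice]
  constructor <;> linarith

theorem slice_eq_zero {τ τ' t : ℝ} (hτ : τ' ≤ τ) (h : |t| ≤ τ') : slice τ τ' t = 0 := by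
  rw [slice, clip_of_abs_le h, clip_of_abs_le (h.trans hτ), sub_self]

theorem abs_slice_le {τ τ' : ℝ} (h0 : 0 ≤ τ') (hτ : τ' ≤ τ) (t : ℝ) : |slice τ τ' t| ≤ τ := by
  have h1 := clip_sub_le h0 hτ (t := min 0 t) (s := max 0 t) (min_le_max)
  have z1 : clip τ (0 : ℝ) = 0 := clip_of_abs_le (by simpa using h0.trans hτ)
  have z2 : clip τ' (0 : ℝ) = 0 := clip_of_abs_le (by simpa using h0)
  have h2 := abs_clip_le (h0.trans hτ) t
  rcases le_total 0 t with ht | ht
  · rw [min_eq_left ht, max_eq_right ht, z1, z2] at h1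
    have := clip_mono (τ := τ') ht
    rw [z2] at this
    rw [abs_le] at h2 ⊢
    simp only [slice]; constructor <;> linarith
  · rw [min_eq_right ht, max_eq_left ht, z1, z2] at h1
    have := clip_mono (τ := τ') ht
    rw [z2] at this
    rw [abs_le] at h2 ⊢
    simp only [slice]; constructor <;> linarith

/-- Clipping levels `R (G^i)^(-1/q)`, ending with `0` at index `I`. -/
noncomputable def lvl (R G q : ℝ) (I i : ℕ) : ℝ := if i < I then R * ((G ^ i)⁻¹) ^ q⁻¹ else 0

theorem lvl_nonneg {R G q : ℝ} (hR : 0 ≤ R) (hG : 0 ≤ G) (I i : ℕ) : 0 ≤ lvl R G q I i := by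
  unfold lvl
  split_ifs
  · positivity
  · rfl

theorem lvl_rpow {R G q : ℝ} (hR : 0 ≤ R) (hG : 0 ≤ G) (hq : 0 < q) {I i : ℕ} (h : i < I) :
    lvl R G q I i ^ q = R ^ q / G ^ i := by
  rw [lvl, if_pos h, Real.mul_rpow hR (Real.rpow_nonneg (by positivity) _),
    Real.rpow_inv_rpow (by positivity) hq.ne', div_eq_mul_inv]

theorem lvl_anti {R G q : ℝ} (hR : 0 ≤ R) (hG : 1 ≤ G) (hq : 0 < q) (I i : ℕ) :
    lvl R G q I (i + 1) ≤ lvl R G q I i := by
  by_cases h : i + 1 < I
  · have h' : i < I := by omega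
    rw [lvl, lvl, if_pos h, if_pos h']
    have h1 : G ^ i ≤ G ^ (i + 1) := pow_le_pow_right₀ hG (Nat.le_succ i)
    gcongr
  · rw [lvl, if_neg h]
    exact lvl_nonneg hR (by linarith) I i

/-- The map for one centre and one scale, on points of norm at most `R` (scale `1`). -/
theorem exists_local (hP : P ≠ ⊤) {V : Type*} [Fintype V] {m n : ℕ} (hV : Fintype.card V ≤ n)
    (x : V → EP P (Fin m)) {R G : ℝ} {I r M b : ℕ} (hR : 1 ≤ R) (hG : 1 < G) (hI : 0 < I)
    (hm : (m : ℝ) ≤ G ^ (I - 1)) (hb : 2 * R ^ P.toReal * G ^ 3 ≤ b) (hM : 0 < M)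
    (hθ : 3 * ((2 : ℝ) ^ P.toReal / G) ≤ ((I : ℝ) ^ P.toReal)⁻¹)
    (hbad : (n : ℝ) ^ 2 * (M * Real.exp (-(1 / (4 * ((2 : ℝ) ^ P.toReal / G))))
      + M * b * (3 * (1 / G) ^ (r + 1)) + Real.exp (-((M : ℝ) / 128))) < 1) :
    ∃ F : V → EP P (Fin I × (Fin M × Fin b)), ∀ a c, ‖x a‖ ≤ R → ‖x c‖ ≤ R →
      ‖F a - F c‖ ≤ (2 * I * ((r : ℝ) + 1) ^ P.toReal) ^ P.toReal⁻¹ * (dist (x a) (x c) + 1) ∧
      (1 ≤ dist (x a) (x c) →
        (1 / (16 * ((r : ℝ) + 1))) ^ P.toReal⁻¹ / I * dist (x a) (x c) ≤ ‖F a - F c‖) := by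
  classical
  set q := P.toReal with hq
  have hq1 : 1 ≤ q := one_le_toReal hP
  have hR0 : 0 ≤ R := by linarith
  have hG0 : 0 ≤ G := by linarith
  set τ : ℕ → ℝ := lvl R G q I with hτ
  set π : ℕ → ℝ := fun i => min 1 (τ i ^ q * G) with hπ
  set β : ℝ := (2 : ℝ) ^ q / G with hβ
  set θ : ℝ := ((I : ℝ) ^ q)⁻¹ with hθdef
  have hbR : (0 : ℝ) < b := lt_of_lt_of_le (by positivity) hb
  let S := {a : V // ‖x a‖ ≤ R}
  let v : Fin I → S × S → Fin m → ℝ := fun i p k =>
    slice (τ i) (τ (i + 1)) (x p.1.1 k) - slice (τ i) (τ (i + 1)) (x p.2.1 k)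
  have hτ0 : ∀ i, 0 ≤ τ i := fun i => lvl_nonneg hR0 hG0 I i
  have hτa : ∀ i, τ (i + 1) ≤ τ i := fun i => lvl_anti hR0 hG.le (by linarith) I i
  have hex : ∀ i : Fin I, ∃ T : (Fin m → ℝ) →ₗ[ℝ] (Fin M × Fin b → ℝ), ∀ p,
      (∑ j, |T (v i p) j| ^ q ≤ 2 * ((r : ℝ) + 1) ^ q * max 1 (∑ k, |v i p k| ^ q)) ∧
      (θ ≤ ∑ k, |v i p k| ^ q →
        (∑ k, |v i p k| ^ q) / (16 * ((r : ℝ) + 1)) ≤ ∑ j, |T (v i p) j| ^ q) := by
    intro i
    have hpos : 0 < τ i := by
      simp only [hτ, lvl, if_pos i.2]; positivity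
    have hπpos : 0 < π i := lt_min one_pos (by positivity)
    refine exists_hash (G := G) (β := β) (v i) hq1 hπpos (min_le_left _ _) (by positivity) hθ hG
      (by exact_mod_cast hbR) hM ?_ ?_ ?_
    · by_cases h : τ i ^ q * G < 1
      · refine Or.inr fun p k => ?_
        have hk : |v i p k| ≤ 2 * τ i := by
          have h1 := abs_slice_le (hτ0 (i + 1)) (hτa i) (x p.1.1 k)
          have h2 := abs_slice_le (hτ0 (i + 1)) (hτa i) (x p.2.1 k)
          exact (abs_sub _ _).trans (by linarith)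
        calc |v i p k| ^ q ≤ (2 * τ i) ^ q := Real.rpow_le_rpow (abs_nonneg _) hk (by linarith)
          _ = β * π i := by
            rw [hπ, Real.mul_rpow (by norm_num) hpos.le, hβ]
            simp only [min_eq_right h.le]
            field_simp
      · exact Or.inl (min_eq_left (le_of_not_gt h))
    · intro p
      have hπle : π i ≤ R ^ q / G ^ (i : ℕ) * G := by
        rw [← lvl_rpow hR0 hG0 (by linarith) i.2]; exact min_le_right _ _
      by_cases hi : (i : ℕ) + 1 < I
      · have hT : τ (i + 1) ^ q = R ^ q / G ^ ((i : ℕ) + 1) := lvl_rpow hR0 hG0 (by linarith) hi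
        have hTpos : 0 < τ (i + 1) := by
          simp only [hτ, lvl, if_pos hi]; positivity
        -- each endpoint has few coordinates above the threshold
        have hcount : ∀ a : S, (((Finset.univ : Finset (Fin m)).filter
            fun k => τ (i + 1) < |x a.1 k|).card : ℝ) ≤ G ^ ((i : ℕ) + 1) := fun a => by
          have h1 : (((Finset.univ : Finset (Fin m)).filter
              fun k => τ (i + 1) < |x a.1 k|).card : ℝ) * τ (i + 1) ^ q ≤ R ^ q := by
            rw [← nsmul_eq_mul, ← Finset.sum_const]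
            refine ((Finset.sum_le_sum fun k hk => Real.rpow_le_rpow hTpos.le
              (Finset.mem_filter.1 hk).2.le (by linarith)).trans (Finset.sum_le_sum_of_subset_of_nonneg
              (Finset.subset_univ _) fun k _ _ => Real.rpow_nonneg (abs_nonneg _) _)).trans ?_
            rw [← norm_rpow_eq hP]
            exact Real.rpow_le_rpow (norm_nonneg _) a.2 (by linarith)
          rw [hT, mul_div_assoc', div_le_iff₀ (by positivity), mul_comm (R ^ q)] at h1
          exact le_of_mul_le_mul_right h1 (by positivity)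
        have hsupp : ((supp (v i p)).card : ℝ) ≤ 2 * G ^ ((i : ℕ) + 1) := by
          have hsub : supp (v i p) ⊆ ((Finset.univ : Finset (Fin m)).filter
              fun k => τ (i + 1) < |x p.1.1 k|) ∪ ((Finset.univ : Finset (Fin m)).filter
              fun k => τ (i + 1) < |x p.2.1 k|) := fun k hk => by
            by_contra hc
            simp only [Finset.mem_union, Finset.mem_filter, Finset.mem_univ, true_and, not_or,
              not_lt] at hc
            exact (Finset.mem_filter.1 hk).2 (by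
              simp only [v]
              rw [slice_eq_zero (hτa i) hc.1, slice_eq_zero (hτa i) hc.2, sub_self])
          have h1 := (Finset.card_le_card hsub).trans (Finset.card_union_le _ _)
          have h2 := (Nat.cast_le (α := ℝ)).2 h1
          push_cast at h2
          linarith [hcount p.1, hcount p.2]
        calc G * (π i * (supp (v i p)).card)
            ≤ G * (R ^ q / G ^ (i : ℕ) * G * (2 * G ^ ((i : ℕ) + 1))) := by gcongr
          _ = 2 * R ^ q * G ^ 3 := by rw [pow_succ]; field_simp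
          _ ≤ _ := hb
      · have hiI : (i : ℕ) = I - 1 := by have := i.2; omega
        have hs : ((supp (v i p)).card : ℝ) ≤ G ^ (i : ℕ) := by
          rw [hiI]
          refine le_trans ?_ hm
          exact_mod_cast (Finset.card_le_univ _).trans (by simp)
        calc G * (π i * (supp (v i p)).card) ≤ G * (R ^ q / G ^ (i : ℕ) * G * G ^ (i : ℕ)) := by
              gcongr
          _ = R ^ q * G ^ 2 := by field_simp
          _ ≤ 2 * R ^ q * G ^ 3 := by
            have : G ^ 2 ≤ G ^ 3 := pow_le_pow_right₀ hG.le (by norm_num)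
            nlinarith [Real.rpow_nonneg hR0 q]
          _ ≤ _ := hb
    · refine lt_of_le_of_lt ?_ hbad
      refine mul_le_mul_of_nonneg_right ?_ (by positivity)
      have h1 : Fintype.card S ≤ n := (Fintype.card_subtype_le _).trans hV
      rw [Fintype.card_prod, pow_two]
      push_cast
      gcongr
  choose T hT using hex
  refine ⟨fun a => WithLp.toLp P fun j => T j.1 (fun k => slice (τ j.1) (τ (j.1 + 1)) (x a k)) j.2,
    fun a c ha hc => ?_⟩
  set p : S × S := (⟨a, ha⟩, ⟨c, hc⟩) with hp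
  set d := dist (x a) (x c) with hd
  have hd0 : 0 ≤ d := dist_nonneg
  set Ff : V → EP P (Fin I × (Fin M × Fin b)) := fun a => WithLp.toLp P fun j =>
    T j.1 (fun k => slice (τ j.1) (τ (j.1 + 1)) (x a k)) j.2 with hFf
  change ‖Ff a - Ff c‖ ≤ _ ∧ (_ → _ ≤ ‖Ff a - Ff c‖)
  have hsum : ∑ j, |(Ff a - Ff c) j| ^ q = ∑ i : Fin I, ∑ j, |T i (v i p) j| ^ q := by
    rw [Fintype.sum_prod_type]
    refine Finset.sum_congr rfl fun i _ => Finset.sum_congr rfl fun j _ => ?_
    have : v i p = (fun k => slice (τ i) (τ (i + 1)) (x a k)) -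
        (fun k => slice (τ i) (τ (i + 1)) (x c k)) := rfl
    rw [this, map_sub]
    simp [Ff]
  have hPi : ∀ i : Fin I, ∑ k, |v i p k| ^ q ≤ d ^ q := fun i => by
    rw [hd, hq, dist_rpow_eq hP]
    exact Finset.sum_le_sum fun k _ => Real.rpow_le_rpow (abs_nonneg _)
      (abs_slice_sub_le (hτ0 _) (hτa _) _ _) (by linarith)
  constructor
  · refine norm_le_of_rpow_le hP (by positivity) ?_
    rw [← hq, hsum, Real.mul_rpow (by positivity) (by positivity),
      Real.rpow_inv_rpow (by positivity) (by linarith)]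
    calc ∑ i : Fin I, ∑ j, |T i (v i p) j| ^ q
        ≤ ∑ _i : Fin I, 2 * ((r : ℝ) + 1) ^ q * (d + 1) ^ q := Finset.sum_le_sum fun i _ => by
          refine ((hT i p).1).trans (mul_le_mul_of_nonneg_left (max_le ?_ ?_) (by positivity))
          · exact Real.one_le_rpow (by linarith) (by linarith)
          · exact (hPi i).trans (Real.rpow_le_rpow hd0 (by linarith) (by linarith))
      _ = _ := by simp; ring
  · intro h1d
    -- some slice carries a `1 / I` fraction
    obtain ⟨i, hi⟩ : ∃ i : Fin I, d / I ≤ (∑ k, |v i p k| ^ q) ^ q⁻¹ := by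
      by_contra hcon
      push Not at hcon
      let z : Fin I → EP P (Fin m) := fun i => WithLp.toLp P (v i p)
      have hz : ∀ i, ‖z i‖ = (∑ k, |v i p k| ^ q) ^ q⁻¹ := fun i => by
        rw [← norm_rpow_eq hP (z i), Real.rpow_rpow_inv (norm_nonneg _) (by linarith)]
      have hzs : ∑ i, z i = x a - x c := by
        refine PiLp.ext fun k => ?_
        simp only [WithLp.ofLp_sum, Finset.sum_apply, z, WithLp.ofLp_sub, Pi.sub_apply, v, hp]
        rw [Finset.sum_sub_distrib]
        have hall : ∀ t : ℝ, |t| ≤ R → ∑ i : Fin I, slice (τ i) (τ (i + 1)) t = t := fun t ht => by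
          rw [Fin.sum_univ_eq_sum_range (fun i => slice (τ i) (τ (i + 1)) t) I]
          simp only [slice]
          rw [Finset.sum_range_sub' (fun i => clip (τ i) t)]
          have h0 : τ 0 = R := by simp [hτ, lvl, hI]
          have hI' : τ I = 0 := by simp [hτ, lvl]
          rw [h0, hI', clip_zero, sub_zero, clip_of_abs_le ht]
        have hcoord : ∀ a : V, ‖x a‖ ≤ R → |x a k| ≤ R := fun a ha => by
          refine le_trans ?_ ha
          simpa [Real.norm_eq_abs] using PiLp.norm_apply_le (x a) k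
        rw [hall _ (hcoord a ha), hall _ (hcoord c hc)]
      have : d < d := by
        calc d = ‖∑ i, z i‖ := by rw [hzs, hd, dist_eq_norm]
          _ ≤ ∑ i, ‖z i‖ := norm_sum_le _ _
          _ < ∑ _i : Fin I, d / I := Finset.sum_lt_sum_of_nonempty
              ⟨⟨0, hI⟩, Finset.mem_univ _⟩ fun i _ => by rw [hz]; exact hcon i
          _ = d := by
            have : (I : ℝ) ≠ 0 := by positivity
            simp; field_simp
      exact lt_irrefl _ this
    have hPd : (d / I) ^ q ≤ ∑ k, |v i p k| ^ q := by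
      have := Real.rpow_le_rpow (by positivity) hi (by linarith : 0 ≤ q)
      rwa [Real.rpow_inv_rpow (Finset.sum_nonneg fun k _ => Real.rpow_nonneg (abs_nonneg _) _)
        (by linarith)] at this
    have hth : θ ≤ ∑ k, |v i p k| ^ q := by
      refine le_trans ?_ hPd
      rw [hθdef, ← Real.inv_rpow (by positivity)]
      refine Real.rpow_le_rpow (by positivity) ?_ (by linarith)
      rw [← one_div]; gcongr
    refine le_norm_of_rpow_le hP (by positivity) ?_
    rw [← hq, hsum]
    refine le_trans ?_ (Finset.single_le_sum (fun j _ => Finset.sum_nonneg fun k _ =>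
      Real.rpow_nonneg (abs_nonneg _) _) (Finset.mem_univ i))
    refine le_trans ?_ ((hT i p).2 hth)
    rw [Real.mul_rpow (by positivity) hd0, Real.div_rpow (Real.rpow_nonneg (by positivity) _)
      (by positivity), Real.rpow_inv_rpow (by positivity) (by linarith)]
    rw [Real.div_rpow hd0 (by positivity)] at hPd
    calc 1 / (16 * ((r : ℝ) + 1)) / (I : ℝ) ^ q * d ^ q
        = d ^ q / (I : ℝ) ^ q / (16 * ((r : ℝ) + 1)) := by ring
      _ ≤ _ := by gcongr

end Vale.Agent.P249
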