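import Vale.Agent.P249.Base

namespace Vale.Agent.P249

open Finset

theorem exists_of_small_bad {ι Q : Type*} [Fintype ι] [Fintype Q] {w : ι → ℝ} (hw : IsProb w)
    (A : Q → ι → Prop) (c : ℝ) (hA : ∀ q, prob w (A q) ≤ c)
    (hc : (Fintype.card Q : ℝ) * c < 1) : ∃ i, ∀ q, ¬ A q i := by
  have : prob w (fun i => ∃ q ∈ (Finset.univ : Finset Q), A q i) < 1 := by
    refine lt_of_le_of_lt (prob_exists_le hw.nonneg _ _) (lt_of_le_of_lt ?_ hc)
    calc ∑ q, prob w (A q) ≤ ∑ _q : Q, c := Finset.sum_le_sum fun q _ => hA q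
      _ = _ := by simp
  obtain ⟨i, hi⟩ := exists_avoid hw this
  exact ⟨i, fun q hq => hi ⟨q, Finset.mem_univ q, hq⟩⟩

/-- Importance sampling of coordinates. -/
theorem importance_sampling {p : ℝ} (hp : 0 < p) {n N M : ℕ} (y : Fin n → Fin N → ℝ)
    (m : Fin N → ℝ) (hm0 : ∀ k, 0 ≤ m k)
    (hm : ∀ i j k, |y i k - y j k| ^ p ≤ m k * pd p y i j) {S ε : ℝ} (hS : 0 < S)
    (hmS : ∑ k, m k ≤ S) (hε : 0 < ε) (hε1 : ε < 1) (hM : 0 < M)
    (hbound : (n : ℝ) ^ 2 * (2 * Real.exp (-(ε ^ 2 / 4 * (M / S)))) < 1) :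
    ∃ z : Fin n → Fin M → ℝ, ∀ i j,
      (1 - ε) * pd p y i j ≤ pd p z i j ∧ pd p z i j ≤ (1 + ε) * pd p y i j := by
  classical
  set Z := ∑ k, m k with hZ
  have hZ0 : 0 ≤ Z := Finset.sum_nonneg fun k _ => hm0 k
  rcases hZ0.eq_or_lt with hz | hz
  · refine ⟨fun _ _ => 0, fun i j => ?_⟩
    have hk : ∀ k, m k = 0 := fun k =>
      (Finset.sum_eq_zero_iff_of_nonneg fun l _ => hm0 l).1 hz.symm k (Finset.mem_univ k)
    have h0 : pd p y i j = 0 := Finset.sum_eq_zero fun k _ => le_antisymm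
      (by simpa [hk k] using hm i j k) (Real.rpow_nonneg (abs_nonneg _) _)
    rw [h0]
    simp [pd, Real.zero_rpow hp.ne']
  set w : Fin N → ℝ := fun k => m k / Z with hw
  have hwp : IsProb w := ⟨fun k => div_nonneg (hm0 k) hZ0, by
    simp [hw, ← Finset.sum_div, ← hZ, hz.ne']⟩
  set g : Fin n → Fin n → Fin N → ℝ := fun i j k =>
    |y i k - y j k| ^ p / (m k * pd p y i j) with hg
  have hg0 : ∀ i j k, 0 ≤ g i j k := fun i j k =>
    div_nonneg (Real.rpow_nonneg (abs_nonneg _) _) (mul_nonneg (hm0 k) (pd_nonneg _ _ _))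
  have hg1 : ∀ i j k, g i j k ≤ 1 := fun i j k =>
    div_le_one_of_le₀ (hm i j k) (mul_nonneg (hm0 k) (pd_nonneg _ _ _))
  have hmean : ∀ i j, pd p y i j ≠ 0 → ∑ k, w k * g i j k = 1 / Z := fun i j hij => by
    have : ∀ k, w k * g i j k = |y i k - y j k| ^ p / (pd p y i j * Z) := fun k => by
      rcases (hm0 k).eq_or_lt with h | h
      · have : |y i k - y j k| ^ p = 0 :=
          le_antisymm (by simpa [← h] using hm i j k) (Real.rpow_nonneg (abs_nonneg _) _)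
        simp [hg, this]
      · simp only [hw, hg]
        field_simp
    simp_rw [this, ← Finset.sum_div]
    rw [show ∑ k, |y i k - y j k| ^ p = pd p y i j from rfl, div_mul_eq_div_div, div_self hij]
  have hMR : (0 : ℝ) < M := by exact_mod_cast hM
  -- bad events
  set W : (Fin M → Fin N) → ℝ := fun ω => ∏ t, w (ω t) with hW
  have hWp : IsProb W := IsProb.pi fun _ => hwp
  let A : (Fin n × Fin n) → (Fin M → Fin N) → Prop := fun q ω =>
    pd p y q.1 q.2 ≠ 0 ∧ (∑ t, g q.1 q.2 (ω t) ≤ (1 - ε) * (M / Z) ∨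
      (1 + ε) * (M / Z) ≤ ∑ t, g q.1 q.2 (ω t))
  have hAle : ∀ q, prob W (A q) ≤ 2 * Real.exp (-(ε ^ 2 / 4 * (M / S))) := fun q => by
    by_cases hq : pd p y q.1 q.2 = 0
    · have hnot : ∀ ω, ¬ A q ω := fun ω h => h.1 hq
      calc prob W (A q) = 0 := by simp [prob, hnot]
        _ ≤ _ := by positivity
    have hsum : ∑ _t : Fin M, ∑ k, w k * g q.1 q.2 k = M / Z := by
      rw [Finset.sum_const, hmean _ _ hq, Finset.card_univ, Fintype.card_fin, nsmul_eq_mul]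
      ring
    have hu := chernoff_upper (T := Fin M) (κ := fun _ => Fin N) (w := fun _ => w) (fun _ => hwp)
      (fun _ => g q.1 q.2) (fun _ => hg0 _ _) (fun _ => hg1 _ _) (m := M / Z) (by positivity)
      hsum.le hε (by linarith)
    have hl := chernoff_lower (T := Fin M) (κ := fun _ => Fin N) (w := fun _ => w) (fun _ => hwp)
      (fun _ => g q.1 q.2) (fun _ => hg0 _ _) (fun _ => hg1 _ _) (m := M / Z) (by positivity)
      hsum.ge hε (by linarith)
    have he : Real.exp (-(ε ^ 2 / 4 * (M / Z))) ≤ Real.exp (-(ε ^ 2 / 4 * (M / S))) := by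
      gcongr
    calc prob W (A q) ≤ prob W (fun ω => ∑ t, g q.1 q.2 (ω t) ≤ (1 - ε) * (M / Z) ∨
          (1 + ε) * (M / Z) ≤ ∑ t, g q.1 q.2 (ω t)) := prob_mono hWp.nonneg fun ω h => h.2
      _ ≤ _ := prob_or_le hWp.nonneg _ _
      _ ≤ Real.exp (-(ε ^ 2 / 4 * (M / Z))) + Real.exp (-(ε ^ 2 / 4 * (M / Z))) := add_le_add hl hu
      _ ≤ _ := by linarith
  obtain ⟨ω, hω⟩ := exists_of_small_bad hWp A _ hAle
    (by simpa [Fintype.card_prod, pow_two] using hbound)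
  refine ⟨fun i t => (Z / (M * m (ω t))) ^ p⁻¹ * y i (ω t), fun i j => ?_⟩
  have hzq : pd p (fun i t => (Z / (M * m (ω t))) ^ p⁻¹ * y i (ω t)) i j
      = pd p y i j * (Z / M) * ∑ t, g i j (ω t) := by
    rw [Finset.mul_sum]
    refine Finset.sum_congr rfl fun t _ => ?_
    have hpos : 0 ≤ Z / (M * m (ω t)) := div_nonneg hZ0 (mul_nonneg hMR.le (hm0 _))
    rw [← mul_sub, abs_mul, Real.mul_rpow (abs_nonneg _) (abs_nonneg _),
      abs_of_nonneg (Real.rpow_nonneg hpos _), Real.rpow_inv_rpow hpos hp.ne']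
    simp only [hg]
    by_cases h : pd p y i j = 0
    · simp [h, abs_sub_eq_zero_of_pd_eq_zero hp h (ω t), Real.zero_rpow hp.ne']
    · field_simp
  rw [hzq]
  by_cases h : pd p y i j = 0
  · simp [h]
  have hnot := hω (i, j)
  simp only [A, not_and, not_or, not_le] at hnot
  obtain ⟨h1, h2⟩ := hnot h
  have hP : 0 ≤ pd p y i j * (Z / M) := mul_nonneg (pd_nonneg _ _ _) (by positivity)
  have key : pd p y i j * (Z / M) * (M / Z) = pd p y i j := by field_simp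
  constructor
  · calc (1 - ε) * pd p y i j = pd p y i j * (Z / M) * ((1 - ε) * (M / Z)) := by
          rw [mul_left_comm, key]
      _ ≤ _ := by gcongr
  · calc pd p y i j * (Z / M) * ∑ t, g i j (ω t)
        ≤ pd p y i j * (Z / M) * ((1 + ε) * (M / Z)) := by gcongr
      _ = _ := by rw [mul_left_comm, key]

/-- From coordinate weights to a finite reduction. -/
theorem finiteReduces_of_weights {p : ℝ} (hp : 0 < p) {n M : ℕ} {S ε b : ℝ} (hS : 0 < S)
    (hε : 0 < ε) (hε1 : ε < 1) (hM : 0 < M) (hb : (M : ℝ) ≤ b)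
    (hbound : (n : ℝ) ^ 2 * (2 * Real.exp (-(ε ^ 2 / 4 * (M / S)))) < 1)
    (hw : ∀ (N : ℕ) (y : Fin n → Fin N → ℝ), ∃ m : Fin N → ℝ, (∀ k, 0 ≤ m k) ∧
      (∀ i j k, |y i k - y j k| ^ p ≤ m k * pd p y i j) ∧ ∑ k, m k ≤ S) :
    FiniteReduces p n ((1 + ε) / (1 - ε)) b := by
  intro N y
  obtain ⟨m, hm0, hm, hmS⟩ := hw N y
  obtain ⟨z, hz⟩ := importance_sampling hp y m hm0 hm hS hmS hε hε1 hM hbound
  refine ⟨M, fun i t => ((1 - ε)⁻¹) ^ p⁻¹ * z i t, hb, fun i j => ?_⟩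
  have h1 : (0 : ℝ) < 1 - ε := by linarith
  have : pd p (fun i t => ((1 - ε)⁻¹) ^ p⁻¹ * z i t) i j = (1 - ε)⁻¹ * pd p z i j := by
    simp only [pd]
    rw [Finset.mul_sum]
    refine Finset.sum_congr rfl fun t _ => ?_
    rw [← mul_sub, abs_mul, Real.mul_rpow (abs_nonneg _) (abs_nonneg _),
      abs_of_nonneg (Real.rpow_nonneg (by positivity) _), Real.rpow_inv_rpow (by positivity) hp.ne']
  rw [this]
  obtain ⟨hl, hu⟩ := hz i j
  constructor
  · rw [inv_mul_eq_div, le_div_iff₀ h1]; linarith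
  · rw [inv_mul_eq_div, div_mul_eq_mul_div]; gcongr

/-- The crude weights of total mass at most `n ^ 2`. -/
theorem pairWeights {p : ℝ} (hp : 0 < p) {n N : ℕ} (y : Fin n → Fin N → ℝ) :
    ∃ m : Fin N → ℝ, (∀ k, 0 ≤ m k) ∧
      (∀ i j k, |y i k - y j k| ^ p ≤ m k * pd p y i j) ∧ ∑ k, m k ≤ (n : ℝ) ^ 2 := by
  classical
  have hnn : ∀ (q : Fin n × Fin n) k, 0 ≤ |y q.1 k - y q.2 k| ^ p / pd p y q.1 q.2 :=
    fun q k => div_nonneg (Real.rpow_nonneg (abs_nonneg _) _) (pd_nonneg _ _ _)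
  refine ⟨fun k => ∑ q : Fin n × Fin n, |y q.1 k - y q.2 k| ^ p / pd p y q.1 q.2,
    fun k => Finset.sum_nonneg fun q _ => hnn q k, fun i j k => ?_, ?_⟩
  · by_cases h : pd p y i j = 0
    · rw [abs_sub_eq_zero_of_pd_eq_zero hp h k, h, mul_zero, Real.zero_rpow hp.ne']
    · have := Finset.single_le_sum (fun q _ => hnn q k) (Finset.mem_univ (i, j))
      calc |y i k - y j k| ^ p = |y i k - y j k| ^ p / pd p y i j * pd p y i j := by field_simp
        _ ≤ _ := mul_le_mul_of_nonneg_right this (pd_nonneg _ _ _)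
  · rw [Finset.sum_comm]
    calc ∑ q : Fin n × Fin n, ∑ k, |y q.1 k - y q.2 k| ^ p / pd p y q.1 q.2
        ≤ ∑ _q : Fin n × Fin n, (1 : ℝ) := Finset.sum_le_sum fun q _ => by
          rw [← Finset.sum_div]
          exact div_le_one_of_le₀ le_rfl (pd_nonneg _ _ _)
      _ = _ := by simp [pow_two]

end Vale.Agent.P249
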