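import Vale.Agent.P249.Glue

open scoped ENNReal

namespace Vale.Agent.P249

/-- Upper constant of the maps of one window. -/
noncomputable def locUp (q : ℝ) (I r : ℕ) : ℝ := (2 * I * ((r : ℝ) + 1) ^ q) ^ q⁻¹

/-- Lower constant of the maps of one window. -/
noncomputable def locLo (q : ℝ) (I r : ℕ) : ℝ := (1 / (16 * ((r : ℝ) + 1))) ^ q⁻¹ / I

/-- Upper constant of the glued map. -/
noncomputable def glueUp (q Λ A : ℝ) : ℝ :=
  (2 * (⌈q⌉₊.factorial * Real.exp (1 + 12 * Λ))) ^ q⁻¹ * (A * (720 * Λ + 700))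

/-- Lower constant of the glued map. -/
noncomputable def glueLo (q Λ a : ℝ) : ℝ := (Real.exp (-(6 * Λ)) / 4) ^ q⁻¹ * (a / 2)

/-- The failure bound of the maps of one window. -/
noncomputable def locBad (q G : ℝ) (n r M b : ℕ) : ℝ :=
  (n : ℝ) ^ 2 * (M * Real.exp (-(1 / (4 * ((2 : ℝ) ^ q / G))))
    + M * b * (3 * (1 / G) ^ (r + 1)) + Real.exp (-((M : ℝ) / 128)))

/-- The failure bound of the gluing step. -/
noncomputable def glueBad (q Λ : ℝ) (n M : ℕ) : ℝ :=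
  (n : ℝ) ^ 2 * (M * Real.exp (-(8 * Real.log n)) +
    Real.exp (-((M : ℝ) * (⌈q⌉₊.factorial * Real.exp (1 + 12 * Λ)) /
      (4 * (1 + 24 * Λ + 8 * Real.log n) ^ ⌈q⌉₊))) +
    Real.exp (-((M : ℝ) * Real.exp (-(6 * Λ)) / 32)))

variable {P : ℝ≥0∞} [Fact (1 ≤ P)]

/-- Translating and rescaling `exists_local` gives the maps of every window and centre. -/
theorem exists_goodMaps (hP : P ≠ ⊤) {m n : ℕ} (Vs : Finset (EP P (Fin m)))
    (hcard : Fintype.card ↥Vs ≤ n) {L I r M b : ℕ} {G : ℝ} (hI : 0 < I) (hG : 1 < G)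
    (hm : (m : ℝ) ≤ G ^ (I - 1))
    (hb : 2 * ((2 : ℝ) ^ (5 * L + 1)) ^ P.toReal * G ^ 3 ≤ b) (hM : 0 < M)
    (hθ : 3 * ((2 : ℝ) ^ P.toReal / G) ≤ ((I : ℝ) ^ P.toReal)⁻¹)
    (hbad : locBad P.toReal G n r M b < 1) :
    ∃ F : ℤ → ↥Vs → ↥Vs → EP P (Fin I × (Fin M × Fin b)),
      GoodMaps L F (locUp P.toReal I r) (locLo P.toReal I r) := by
  have key : ∀ (w : ℤ) (c : ↥Vs), ∃ F : ↥Vs → EP P (Fin I × (Fin M × Fin b)),
      F c = 0 ∧ ∀ a e : ↥Vs, dist a c ≤ (2 : ℝ) ^ ((w + 3) * L + 1) →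
        dist e c ≤ (2 : ℝ) ^ ((w + 3) * L + 1) →
        ‖F a - F e‖ ≤ locUp P.toReal I r * (dist a e + (2 : ℝ) ^ ((w - 2) * L)) ∧
        ((2 : ℝ) ^ ((w - 2) * L) ≤ dist a e → locLo P.toReal I r * dist a e ≤ ‖F a - F e‖) := by
    intro w c
    set s : ℝ := (2 : ℝ) ^ ((w - 2) * L) with hs
    have hs0 : 0 < s := by positivity
    set x : ↥Vs → EP P (Fin m) := fun a => s⁻¹ • ((a : EP P (Fin m)) - c) with hx
    obtain ⟨F, hF⟩ := exists_local hP hcard x (R := (2 : ℝ) ^ (5 * L + 1)) (G := G) (I := I)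
      (r := r) (M := M) (b := b) (one_le_pow₀ one_le_two) hG hI hm hb hM hθ hbad
    refine ⟨fun a => s • (F a - F c), by simp, fun a e ha he => ?_⟩
    have hball : ∀ a : ↥Vs, dist a c ≤ (2 : ℝ) ^ ((w + 3) * L + 1) →
        ‖x a‖ ≤ (2 : ℝ) ^ (5 * L + 1) := fun a ha => by
      rw [hx, norm_smul, norm_inv, Real.norm_eq_abs, abs_of_pos hs0, inv_mul_le_iff₀ hs0,
        ← dist_eq_norm, hs, ← zpow_natCast (2 : ℝ) (5 * L + 1), ← zpow_add₀ two_ne_zero]
      refine le_trans ha (le_of_eq ?_)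
      congr 1
      push_cast; ring
    have hdist : dist (x a) (x e) = s⁻¹ * dist a e := by
      rw [hx, dist_smul₀, Real.norm_eq_abs, abs_of_pos (inv_pos.2 hs0), dist_sub_right,
        Subtype.dist_eq]
    obtain ⟨hup, hlo⟩ := hF a e (hball a ha) (hball e he)
    rw [hdist] at hup hlo
    rw [← smul_sub, sub_sub_sub_cancel_right, norm_smul, Real.norm_eq_abs, abs_of_pos hs0]
    constructor
    · calc s * ‖F a - F e‖ ≤ s * (locUp P.toReal I r * (s⁻¹ * dist a e + 1)) :=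
            mul_le_mul_of_nonneg_left hup hs0.le
        _ = _ := by field_simp
    · intro hse
      have := mul_le_mul_of_nonneg_left
        (hlo (by rw [inv_mul_eq_div, le_div_iff₀ hs0]; linarith)) hs0.le
      calc locLo P.toReal I r * dist a e
          = s * (locLo P.toReal I r * (s⁻¹ * dist a e)) := by field_simp
        _ ≤ _ := this
  choose F hF0 hFab using key
  exact ⟨F,
    { zero := hF0
      upper := fun w c a e ha he => (hFab w c a e ha he).1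
      lower := fun w c a e ha he => (hFab w c a e ha he).2 }⟩

/-- One map for a whole family, in coordinates. -/
theorem reduce_core (hP : P ≠ ⊤) {n m : ℕ} (hn : 1 ≤ n) (y : Fin n → Fin m → ℝ)
    {L I r M b : ℕ} {G Λ : ℝ} (hI : 0 < I) (hG : 1 < G) (hm : (m : ℝ) ≤ G ^ (I - 1))
    (hb : 2 * ((2 : ℝ) ^ (5 * L + 1)) ^ P.toReal * G ^ 3 ≤ b) (hM : 0 < M)
    (hθ : 3 * ((2 : ℝ) ^ P.toReal / G) ≤ ((I : ℝ) ^ P.toReal)⁻¹)
    (hbad1 : locBad P.toReal G n r M b < 1) (hL : 4 ≤ L) (hΛ : Real.log n ≤ Λ * L)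
    (hsep : 8 * locUp P.toReal I r ≤ locLo P.toReal I r * (2 : ℝ) ^ L)
    (hbad2 : glueBad P.toReal Λ n M < 1) :
    ∃ z : Fin n → Fin M × (Fin I × (Fin M × Fin b)) → ℝ, ∀ i j,
      glueLo P.toReal Λ (locLo P.toReal I r) ^ P.toReal * pd P.toReal y i j ≤ pd P.toReal z i j ∧
      pd P.toReal z i j ≤
        glueUp P.toReal Λ (locUp P.toReal I r) ^ P.toReal * pd P.toReal y i j := by
  classical
  have hq0 : 0 ≤ P.toReal := ENNReal.toReal_nonneg
  let pt : Fin n → EP P (Fin m) := fun i => WithLp.toLp P (y i)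
  let Vs : Finset (EP P (Fin m)) := Finset.univ.image pt
  have hcard : Fintype.card ↥Vs ≤ n := by
    simp only [Fintype.card_coe, Vs]
    exact Finset.card_image_le.trans (by simp)
  let toV : Fin n → ↥Vs := fun i => ⟨pt i, Finset.mem_image_of_mem _ (Finset.mem_univ _)⟩
  have : Nonempty ↥Vs := ⟨toV ⟨0, by omega⟩⟩
  obtain ⟨F, hF⟩ := exists_goodMaps hP Vs hcard hI hG hm hb hM hθ hbad1
  have hup : 0 < locUp P.toReal I r := by
    have : (0 : ℝ) < I := by exact_mod_cast hI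
    unfold locUp; positivity
  have hlo : 0 < locLo P.toReal I r := by
    have : (0 : ℝ) < I := by exact_mod_cast hI
    unfold locLo; positivity
  obtain ⟨Φ, hΦ⟩ := exists_glued hP hcard hn hF hup hlo hL hΛ hsep hM hbad2
  have hΛ0 : 0 ≤ Λ := by
    have h1 := Real.log_natCast_nonneg n
    have h2 : (0 : ℝ) < L := by exact_mod_cast (show 0 < L by omega)
    nlinarith
  refine ⟨fun i j => Φ (toV i) j, fun i j => ?_⟩
  have hz : pd P.toReal (fun i j => Φ (toV i) j) i j = ‖Φ (toV i) - Φ (toV j)‖ ^ P.toReal := by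
    rw [norm_rpow_eq hP]; rfl
  have hd : pd P.toReal y i j = dist (toV i) (toV j) ^ P.toReal := by
    rw [Subtype.dist_eq, dist_rpow_eq hP]; rfl
  obtain ⟨hl, hu⟩ := hΦ (toV i) (toV j)
  rw [hz, hd]
  constructor
  · rw [← Real.mul_rpow (by unfold glueLo; positivity) dist_nonneg]
    exact Real.rpow_le_rpow (by unfold glueLo; positivity) hl hq0
  · rw [← Real.mul_rpow (by unfold glueUp; positivity) dist_nonneg]
    exact Real.rpow_le_rpow (norm_nonneg _) hu hq0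

end Vale.Agent.P249
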