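import Vale.Agent.P249.SmallCore

open Filter Topology

namespace Vale.Agent.P249

theorem tendsto_pow_mul_exp_neg (a : ℝ) {γ c : ℝ} (hγ : 0 < γ) (hc : 0 < c) :
    Tendsto (fun n : ℕ => (n : ℝ) ^ a * Real.exp (-(c * (n : ℝ) ^ γ))) atTop (𝓝 0) := by
  have h1 : Tendsto (fun n : ℕ => (n : ℝ) ^ γ) atTop atTop :=
    (tendsto_rpow_atTop hγ).comp tendsto_natCast_atTop_atTop
  refine ((tendsto_rpow_mul_exp_neg_mul_atTop_nhds_zero (a / γ) c hc).comp h1).congr fun n => ?_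
  simp only [Function.comp_apply]
  rw [← Real.rpow_mul (Nat.cast_nonneg n), mul_div_cancel₀ _ hγ.ne', neg_mul]

theorem eventually_pow_mul_exp_neg (a : ℝ) {γ c : ℝ} (hγ : 0 < γ) (hc : 0 < c) {e : ℝ}
    (he : 0 < e) : ∀ᶠ n : ℕ in atTop, (n : ℝ) ^ a * Real.exp (-(c * (n : ℝ) ^ γ)) < e :=
  (tendsto_pow_mul_exp_neg a hγ hc).eventually (eventually_lt_nhds he)

theorem eventually_const_div_lt (C : ℝ) {e : ℝ} (he : 0 < e) :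
    ∀ᶠ n : ℕ in atTop, C / (n : ℝ) < e :=
  (tendsto_const_div_atTop_nhds_zero_nat C).eventually (eventually_lt_nhds he)

theorem eventually_rpow_ge (C : ℝ) {γ : ℝ} (hγ : 0 < γ) :
    ∀ᶠ n : ℕ in atTop, C ≤ (n : ℝ) ^ γ :=
  ((tendsto_rpow_atTop hγ).comp tendsto_natCast_atTop_atTop).eventually (eventually_ge_atTop C)

/-- A number of levels `L` with `2 ^ L` of order `n ^ η`. -/
theorem level_count {η : ℝ} (hη : 0 < η) {n : ℕ} (hn : 1 ≤ n) (h16 : 16 ≤ (n : ℝ) ^ η) :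
    ∃ L : ℕ, 4 ≤ L ∧ Real.log n ≤ Real.log 2 / η * L ∧
      (n : ℝ) ^ η ≤ (2 : ℝ) ^ L ∧ (2 : ℝ) ^ L ≤ 2 * (n : ℝ) ^ η := by
  have hnR : (1 : ℝ) ≤ n := by exact_mod_cast hn
  have hnpos : (0 : ℝ) < n := by linarith
  have hl2 : 0 < Real.log 2 := Real.log_pos one_lt_two
  have hnη : (n : ℝ) ^ η = (2 : ℝ) ^ (η * Real.log n / Real.log 2) := by
    rw [Real.rpow_def_of_pos hnpos, Real.rpow_def_of_pos two_pos]
    congr 1; field_simp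
  have hge : η * Real.log n / Real.log 2 ≤ (⌈η * Real.log n / Real.log 2⌉₊ : ℝ) := Nat.le_ceil _
  have hle : ((⌈η * Real.log n / Real.log 2⌉₊ : ℕ) : ℝ) ≤ η * Real.log n / Real.log 2 + 1 :=
    (Nat.ceil_lt_add_one (div_nonneg (mul_nonneg hη.le (Real.log_nonneg hnR)) hl2.le)).le
  have h2L : (n : ℝ) ^ η ≤ (2 : ℝ) ^ ⌈η * Real.log n / Real.log 2⌉₊ := by
    rw [hnη, ← Real.rpow_natCast]
    exact Real.rpow_le_rpow_of_exponent_le one_le_two hge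
  refine ⟨⌈η * Real.log n / Real.log 2⌉₊, ?_, ?_, h2L, ?_⟩
  · by_contra hc
    push Not at hc
    have : (2 : ℝ) ^ ⌈η * Real.log n / Real.log 2⌉₊ ≤ 2 ^ 3 :=
      pow_le_pow_right₀ one_le_two (by omega)
    linarith
  · calc Real.log n = Real.log 2 / η * (η * Real.log n / Real.log 2) := by field_simp
      _ ≤ _ := mul_le_mul_of_nonneg_left hge (div_nonneg hl2.le hη.le)
  · rw [hnη, ← Real.rpow_natCast]
    refine (Real.rpow_le_rpow_of_exponent_le one_le_two hle).trans ?_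
    rw [Real.rpow_add two_pos, Real.rpow_one]; linarith

/-- Size of the hashing range. -/
theorem range_bound {q η γ : ℝ} (hq : 1 ≤ q) (hγ : 0 < γ) {n L : ℕ} (hn : 1 ≤ n)
    (hL : (2 : ℝ) ^ L ≤ 2 * (n : ℝ) ^ η) :
    (⌈2 * ((2 : ℝ) ^ (5 * L + 1)) ^ q * ((n : ℝ) ^ γ) ^ 3⌉₊ : ℝ) ≤
      3 * (2 : ℝ) ^ (6 * q) * (n : ℝ) ^ (5 * η * q + 3 * γ) := by
  have hnR : (1 : ℝ) ≤ n := by exact_mod_cast hn
  have hnpos : (0 : ℝ) < n := by linarith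
  have hR1 : (1 : ℝ) ≤ (2 : ℝ) ^ (5 * L + 1) := one_le_pow₀ one_le_two
  have hG1 : (1 : ℝ) ≤ (n : ℝ) ^ γ := Real.one_le_rpow hnR hγ.le
  have hR : (2 : ℝ) ^ (5 * L + 1) ≤ (2 : ℝ) ^ (6 : ℝ) * (n : ℝ) ^ (5 * η) := by
    calc (2 : ℝ) ^ (5 * L + 1) = ((2 : ℝ) ^ L) ^ 5 * 2 := by
          rw [pow_succ, ← pow_mul, mul_comm 5 L]
      _ ≤ (2 * (n : ℝ) ^ η) ^ 5 * 2 := by gcongr
      _ = _ := by
        rw [mul_pow, ← Real.rpow_natCast ((n : ℝ) ^ η) 5, ← Real.rpow_mul hnpos.le]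
        push_cast
        rw [show η * 5 = 5 * η by ring]
        norm_num
        ring
  have hRq : ((2 : ℝ) ^ (5 * L + 1)) ^ q ≤ (2 : ℝ) ^ (6 * q) * (n : ℝ) ^ (5 * η * q) := by
    refine (Real.rpow_le_rpow (by linarith) hR (by linarith)).trans_eq ?_
    rw [Real.mul_rpow (by positivity) (by positivity), ← Real.rpow_mul two_pos.le,
      ← Real.rpow_mul hnpos.le]
  have h1 : 1 ≤ ((2 : ℝ) ^ (5 * L + 1)) ^ q * ((n : ℝ) ^ γ) ^ 3 :=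
    one_le_mul_of_one_le_of_one_le (Real.one_le_rpow hR1 (by linarith)) (one_le_pow₀ hG1)
  refine (Nat.ceil_lt_add_one (by positivity)).le.trans ?_
  calc 2 * ((2 : ℝ) ^ (5 * L + 1)) ^ q * ((n : ℝ) ^ γ) ^ 3 + 1
      ≤ 3 * (((2 : ℝ) ^ (5 * L + 1)) ^ q * ((n : ℝ) ^ γ) ^ 3) := by linarith
    _ ≤ 3 * ((2 : ℝ) ^ (6 * q) * (n : ℝ) ^ (5 * η * q) * ((n : ℝ) ^ γ) ^ 3) := by gcongr
    _ = _ := by
      rw [← Real.rpow_natCast ((n : ℝ) ^ γ) 3, ← Real.rpow_mul hnpos.le, Real.rpow_add hnpos]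
      push_cast
      rw [show γ * 3 = 3 * γ by ring]
      ring

theorem locBad_lt {q γ e C : ℝ} (hγ1 : γ ≤ 1) {n r M b : ℕ} (hn : 1 ≤ n) (hC : 0 ≤ C)
    (hMge : (n : ℝ) ^ γ ≤ M) (hMle : (M : ℝ) ≤ 2 * (n : ℝ) ^ γ)
    (hMb : (M : ℝ) * b ≤ C * (n : ℝ) ^ e) (hr : 3 + e ≤ γ * ((r : ℝ) + 1))
    (h1 : (n : ℝ) ^ (3 : ℝ) * Real.exp (-(1 / (4 * (2 : ℝ) ^ q) * (n : ℝ) ^ γ)) < 1 / 6)
    (h2 : (n : ℝ) ^ (2 : ℝ) * Real.exp (-(1 / 128 * (n : ℝ) ^ γ)) < 1 / 3)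
    (h3 : 3 * C / (n : ℝ) < 1 / 3) :
    locBad q ((n : ℝ) ^ γ) n r M b < 1 := by
  have hnR : (1 : ℝ) ≤ n := by exact_mod_cast hn
  have hnpos : (0 : ℝ) < n := by linarith
  have hG0 : (0 : ℝ) < (n : ℝ) ^ γ := Real.rpow_pos_of_pos hnpos _
  have t1 : (n : ℝ) ^ 2 * (M * Real.exp (-(1 / (4 * ((2 : ℝ) ^ q / (n : ℝ) ^ γ))))) < 1 / 3 := by
    have e1 : 1 / (4 * ((2 : ℝ) ^ q / (n : ℝ) ^ γ)) = 1 / (4 * (2 : ℝ) ^ q) * (n : ℝ) ^ γ := by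
      field_simp
    rw [e1]
    calc (n : ℝ) ^ 2 * (M * Real.exp (-(1 / (4 * (2 : ℝ) ^ q) * (n : ℝ) ^ γ)))
        ≤ (n : ℝ) ^ 2 * (2 * n * Real.exp (-(1 / (4 * (2 : ℝ) ^ q) * (n : ℝ) ^ γ))) := by
          gcongr
          exact hMle.trans
            (mul_le_mul_of_nonneg_left (Real.rpow_le_self_of_one_le hnR hγ1) two_pos.le)
      _ = 2 * ((n : ℝ) ^ (3 : ℝ) * Real.exp (-(1 / (4 * (2 : ℝ) ^ q) * (n : ℝ) ^ γ))) := by
          rw [show (3 : ℝ) = ((3 : ℕ) : ℝ) by norm_num, Real.rpow_natCast]; ring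
      _ < _ := by linarith [h1]
  have t2 : (n : ℝ) ^ 2 * (M * b * (3 * (1 / (n : ℝ) ^ γ) ^ (r + 1))) < 1 / 3 := by
    refine lt_of_le_of_lt ?_ h3
    have hpow : (1 / (n : ℝ) ^ γ) ^ (r + 1) ≤ (n : ℝ) ^ (-(3 + e)) := by
      rw [one_div, inv_pow, ← Real.rpow_natCast ((n : ℝ) ^ γ), ← Real.rpow_mul hnpos.le,
        ← Real.rpow_neg hnpos.le]
      refine Real.rpow_le_rpow_of_exponent_le hnR ?_
      push_cast
      linarith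
    calc (n : ℝ) ^ 2 * (M * b * (3 * (1 / (n : ℝ) ^ γ) ^ (r + 1)))
        ≤ (n : ℝ) ^ 2 * (C * (n : ℝ) ^ e * (3 * (n : ℝ) ^ (-(3 + e)))) := by gcongr
      _ = 3 * C / n := by
        rw [neg_add, Real.rpow_add hnpos, Real.rpow_neg hnpos.le, Real.rpow_neg hnpos.le,
          show (3 : ℝ) = ((3 : ℕ) : ℝ) by norm_num, Real.rpow_natCast]
        have : (n : ℝ) ^ e ≠ 0 := (Real.rpow_pos_of_pos hnpos _).ne'
        field_simp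
  have t3 : (n : ℝ) ^ 2 * Real.exp (-((M : ℝ) / 128)) < 1 / 3 := by
    refine lt_of_le_of_lt ?_ h2
    rw [Real.rpow_two]
    gcongr
    linarith
  unfold locBad
  rw [mul_add, mul_add]; linarith

theorem glue_log_le {Λ γ : ℝ} (hΛ : 0 ≤ Λ) (hγ : 0 < γ) {k n : ℕ} (hk : 0 < k) (hn : 1 ≤ n) :
    (1 + 24 * Λ + 8 * Real.log n) ^ k ≤
      (1 + 24 * Λ + 16 * k / γ) ^ k * (n : ℝ) ^ (γ / 2) := by
  have hnR : (1 : ℝ) ≤ n := by exact_mod_cast hn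
  have hnpos : (0 : ℝ) < n := by linarith
  have hkR : (0 : ℝ) < k := by exact_mod_cast hk
  have h2 : (1 : ℝ) ≤ (n : ℝ) ^ (γ / (2 * k)) := Real.one_le_rpow hnR (by positivity)
  have h1 := Real.log_le_rpow_div hnpos.le (show 0 < γ / (2 * (k : ℝ)) by positivity)
  have h3 : (1 + 24 * Λ) * 1 ≤ (1 + 24 * Λ) * (n : ℝ) ^ (γ / (2 * k)) :=
    mul_le_mul_of_nonneg_left h2 (by positivity)
  have h4 : (n : ℝ) ^ (γ / (2 * k)) / (γ / (2 * k)) = 2 * k / γ * (n : ℝ) ^ (γ / (2 * k)) := by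
    field_simp
  rw [h4] at h1
  have hlog : 1 + 24 * Λ + 8 * Real.log n ≤ (1 + 24 * Λ + 16 * k / γ) * (n : ℝ) ^ (γ / (2 * k)) := by
    rw [add_mul]
    calc 1 + 24 * Λ + 8 * Real.log n
        ≤ (1 + 24 * Λ) * (n : ℝ) ^ (γ / (2 * k)) + 8 * (2 * k / γ * (n : ℝ) ^ (γ / (2 * k))) := by
          linarith
      _ = _ := by ring
  have hl0 : 0 ≤ 1 + 24 * Λ + 8 * Real.log n := by
    have := Real.log_nonneg hnR; linarith
  refine (pow_le_pow_left₀ hl0 hlog k).trans_eq ?_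
  rw [mul_pow, ← Real.rpow_natCast ((n : ℝ) ^ (γ / (2 * k))) k, ← Real.rpow_mul hnpos.le]
  congr 2; field_simp

/-- The constant in the exponent of the middle term of the gluing bound. -/
noncomputable def glueRate (q Λ γ : ℝ) : ℝ :=
  ⌈q⌉₊.factorial * Real.exp (1 + 12 * Λ) /
    (4 * (1 + 24 * Λ + 16 * (⌈q⌉₊ : ℝ) / γ) ^ ⌈q⌉₊)

theorem glueRate_pos {q Λ γ : ℝ} (hΛ : 0 ≤ Λ) (hγ : 0 < γ) : 0 < glueRate q Λ γ := by
  unfold glueRate; positivity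

theorem glueBad_lt {q Λ γ : ℝ} (hq : 1 ≤ q) (hΛ : 0 ≤ Λ) (hγ : 0 < γ) (hγ1 : γ ≤ 1) {n M : ℕ}
    (hn : 1 ≤ n) (hMge : (n : ℝ) ^ γ ≤ M) (hMle : (M : ℝ) ≤ 2 * (n : ℝ) ^ γ)
    (h4 : 2 / (n : ℝ) < 1 / 3)
    (h5 : (n : ℝ) ^ (2 : ℝ) * Real.exp (-(glueRate q Λ γ * (n : ℝ) ^ (γ / 2))) < 1 / 3)
    (h6 : (n : ℝ) ^ (2 : ℝ) * Real.exp (-(Real.exp (-(6 * Λ)) / 32 * (n : ℝ) ^ γ)) < 1 / 3) :
    glueBad q Λ n M < 1 := by
  have hnR : (1 : ℝ) ≤ n := by exact_mod_cast hn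
  have hnpos : (0 : ℝ) < n := by linarith
  have t1 : (n : ℝ) ^ 2 * (M * Real.exp (-(8 * Real.log n))) < 1 / 3 := by
    refine lt_of_le_of_lt ?_ h4
    have e : Real.exp (-(8 * Real.log n)) = 1 / (n : ℝ) ^ 8 := by
      rw [Real.exp_neg, show 8 * Real.log n = Real.log ((n : ℝ) ^ 8) by
        rw [Real.log_pow]; norm_num, Real.exp_log (by positivity), one_div]
    have hMn : (M : ℝ) ≤ 2 * n :=
      hMle.trans (mul_le_mul_of_nonneg_left (Real.rpow_le_self_of_one_le hnR hγ1) two_pos.le)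
    rw [e]
    calc (n : ℝ) ^ 2 * (M * (1 / (n : ℝ) ^ 8)) ≤ (n : ℝ) ^ 2 * (2 * n * (1 / (n : ℝ) ^ 8)) := by
          gcongr
      _ = 2 / (n : ℝ) ^ 5 := by field_simp
      _ ≤ 2 / (n : ℝ) := by
          gcongr
          exact le_self_pow₀ hnR (by norm_num)
  have t2 : (n : ℝ) ^ 2 * Real.exp (-((M : ℝ) * (⌈q⌉₊.factorial * Real.exp (1 + 12 * Λ)) /
      (4 * (1 + 24 * Λ + 8 * Real.log n) ^ ⌈q⌉₊))) < 1 / 3 := by
    refine lt_of_le_of_lt ?_ h5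
    rw [Real.rpow_two]
    refine mul_le_mul_of_nonneg_left (Real.exp_le_exp.2 (neg_le_neg ?_)) (by positivity)
    have hpowk := glue_log_le hΛ hγ (Nat.ceil_pos.2 (by linarith : 0 < q)) hn
    have hl0 : 0 < 1 + 24 * Λ + 8 * Real.log n := by
      have := Real.log_nonneg hnR; linarith
    have hGG : (n : ℝ) ^ (γ / 2) * (n : ℝ) ^ (γ / 2) = (n : ℝ) ^ γ := by
      rw [← Real.rpow_add hnpos, add_halves]
    calc glueRate q Λ γ * (n : ℝ) ^ (γ / 2)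
        = (n : ℝ) ^ γ * (⌈q⌉₊.factorial * Real.exp (1 + 12 * Λ)) /
          (4 * ((1 + 24 * Λ + 16 * (⌈q⌉₊ : ℝ) / γ) ^ ⌈q⌉₊ * (n : ℝ) ^ (γ / 2))) := by
          rw [← hGG, glueRate]; field_simp
      _ ≤ _ := by gcongr
  have t3 : (n : ℝ) ^ 2 * Real.exp (-((M : ℝ) * Real.exp (-(6 * Λ)) / 32)) < 1 / 3 := by
    refine lt_of_le_of_lt ?_ h6
    rw [Real.rpow_two]
    refine mul_le_mul_of_nonneg_left (Real.exp_le_exp.2 (neg_le_neg ?_)) (by positivity)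
    calc Real.exp (-(6 * Λ)) / 32 * (n : ℝ) ^ γ ≤ Real.exp (-(6 * Λ)) / 32 * (M : ℝ) :=
          mul_le_mul_of_nonneg_left hMge (by positivity)
      _ = _ := by ring
  unfold glueBad
  rw [mul_add, mul_add]; linarith

end Vale.Agent.P249
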