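import Vale.Agent.P249.Sampling
import Vale.Agent.P249.SmallNumeric

open scoped ENNReal
open Filter Topology

namespace Vale.Agent.P249

theorem FiniteReduces.mono {p : ℝ} {n : ℕ} {A A' b b' : ℝ} (h : FiniteReduces p n A b)
    (hA : A ≤ A') (hb : b ≤ b') : FiniteReduces p n A' b' := by
  intro N y
  obtain ⟨d, z, hd, hz⟩ := h N y
  exact ⟨d, z, hd.trans hb, fun i j => ⟨(hz i j).1,
    (hz i j).2.trans (mul_le_mul_of_nonneg_right hA (pd_nonneg _ _ _))⟩⟩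

/-- A large family reduces with the explicit parameters of `reduce_core`. -/
theorem reduce_scaled {P : ℝ≥0∞} [Fact (1 ≤ P)] (hP : P ≠ ⊤) {n : ℕ} (hn : 34 ≤ n)
    {L I r M b : ℕ} {G Λ : ℝ} (hI : 0 < I) (hG : 1 < G) (hm : (n : ℝ) ^ 4 ≤ G ^ (I - 1))
    (hb : 2 * ((2 : ℝ) ^ (5 * L + 1)) ^ P.toReal * G ^ 3 ≤ b) (hM : 0 < M)
    (hθ : 3 * ((2 : ℝ) ^ P.toReal / G) ≤ ((I : ℝ) ^ P.toReal)⁻¹)
    (hbad1 : locBad P.toReal G n r M b < 1) (hL : 4 ≤ L) (hΛ : Real.log n ≤ Λ * L)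
    (hsep : 8 * locUp P.toReal I r ≤ locLo P.toReal I r * (2 : ℝ) ^ L)
    (hbad2 : glueBad P.toReal Λ n M < 1) :
    FiniteReduces P.toReal n
      (3 * glueUp P.toReal Λ (locUp P.toReal I r) ^ P.toReal /
        glueLo P.toReal Λ (locLo P.toReal I r) ^ P.toReal)
      ((M : ℝ) * (I * (M * b))) := by
  refine FiniteReduces.mk' fun N y => ?_
  have hq1 : 1 ≤ P.toReal := one_le_toReal hP
  have hq0 : 0 < P.toReal := by linarith
  have hnR : (34 : ℝ) ≤ n := by exact_mod_cast hn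
  obtain ⟨m0, hm0, hm', hmS⟩ := pairWeights (p := P.toReal) hq0 y
  obtain ⟨y', hy'⟩ := importance_sampling (M := n ^ 4) hq0 y m0 hm0 hm'
    (S := (n : ℝ) ^ 2) (ε := 1 / 2) (by positivity) hmS (by norm_num) (by norm_num)
    (by positivity) (by
      have e : ((n ^ 4 : ℕ) : ℝ) / (n : ℝ) ^ 2 = (n : ℝ) ^ 2 := by push_cast; field_simp
      rw [e, Real.exp_neg, ← mul_assoc, ← div_eq_mul_inv, div_lt_one (Real.exp_pos _)]
      have h := Real.quadratic_le_exp_of_nonneg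
        (show 0 ≤ (1 / 2 : ℝ) ^ 2 / 4 * (n : ℝ) ^ 2 by positivity)
      nlinarith [mul_le_mul hnR hnR (by norm_num) (by linarith)])
  obtain ⟨z, hz⟩ := reduce_core hP (by omega) y' hI hG (by exact_mod_cast hm) hb hM hθ hbad1 hL
    hΛ hsep hbad2
  set U := glueUp P.toReal Λ (locUp P.toReal I r) ^ P.toReal with hU
  set l := glueLo P.toReal Λ (locLo P.toReal I r) ^ P.toReal with hl
  have hl0 : 0 < l := by
    have hIR : (0 : ℝ) < I := by exact_mod_cast hI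
    refine Real.rpow_pos_of_pos ?_ _
    unfold glueLo locLo
    positivity
  have hU0 : 0 ≤ U := by
    have hIR : (0 : ℝ) < I := by exact_mod_cast hI
    have hΛ0 : 0 ≤ Λ := by
      have h1 := Real.log_natCast_nonneg n
      have h2 : (0 : ℝ) < L := by exact_mod_cast (show 0 < L by omega)
      nlinarith
    refine Real.rpow_nonneg ?_ _
    unfold glueUp locUp
    positivity
  refine ⟨Fin M × (Fin I × (Fin M × Fin b)), inferInstance,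
    fun i j => (2 / l) ^ P.toReal⁻¹ * z i j, ?_, fun i j => ?_⟩
  · simp only [Fintype.card_prod, Fintype.card_fin]
    push_cast
    exact le_rfl
  · have hzz : pd P.toReal (fun i j => (2 / l) ^ P.toReal⁻¹ * z i j) i j
        = 2 / l * pd P.toReal z i j := by
      simp only [pd]
      rw [Finset.mul_sum]
      refine Finset.sum_congr rfl fun t _ => ?_
      rw [← mul_sub, abs_mul, Real.mul_rpow (abs_nonneg _) (abs_nonneg _),
        abs_of_nonneg (Real.rpow_nonneg (by positivity) _),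
        Real.rpow_inv_rpow (by positivity) hq0.ne']
    rw [hzz]
    obtain ⟨hzl, hzu⟩ := hz i j
    obtain ⟨hyl, hyu⟩ := hy' i j
    have hc : 0 ≤ 2 / l := by positivity
    constructor
    · calc pd P.toReal y i j ≤ 2 * pd P.toReal y' i j := by linarith
        _ = 2 / l * (l * pd P.toReal y' i j) := by field_simp
        _ ≤ _ := mul_le_mul_of_nonneg_left hzl hc
    · calc 2 / l * pd P.toReal z i j ≤ 2 / l * (U * ((1 + 1 / 2) * pd P.toReal y i j)) :=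
            mul_le_mul_of_nonneg_left (hzu.trans (mul_le_mul_of_nonneg_left hyu hU0)) hc
        _ = 3 * U / l * pd P.toReal y i j := by ring

theorem small_dim {q η γ δ : ℝ} (hq : 1 ≤ q) (hexp : 5 * η * q + 5 * γ = δ) {n M b : ℕ} (I : ℕ)
    (hn : 1 ≤ n) (hMle : (M : ℝ) ≤ 2 * (n : ℝ) ^ γ)
    (hb : (b : ℝ) ≤ 3 * (2 : ℝ) ^ (6 * q) * (n : ℝ) ^ (5 * η * q + 3 * γ)) :
    (M : ℝ) * (I * (M * b)) ≤ 12 * I * (2 : ℝ) ^ (6 * q) * (n : ℝ) ^ δ := by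
  have hnpos : (0 : ℝ) < n := by exact_mod_cast hn
  calc (M : ℝ) * (I * (M * b))
      ≤ (2 * (n : ℝ) ^ γ) * (I * ((2 * (n : ℝ) ^ γ) *
          (3 * (2 : ℝ) ^ (6 * q) * (n : ℝ) ^ (5 * η * q + 3 * γ)))) := by gcongr
    _ = 12 * I * (2 : ℝ) ^ (6 * q) *
        ((n : ℝ) ^ γ * ((n : ℝ) ^ γ * (n : ℝ) ^ (5 * η * q + 3 * γ))) := by ring
    _ = _ := by
      rw [← Real.rpow_add hnpos, ← Real.rpow_add hnpos]
      congr 2; linarith

/-- Dimension `n ^ δ` at constant distortion, for all large `n`, in finite dimensions. -/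
theorem finiteReduces_small {P : ℝ≥0∞} [Fact (1 ≤ P)] (hP : P ≠ ⊤) {δ : ℝ} (hδ : 0 < δ)
    (hδ1 : δ ≤ 1) : ∃ A C : ℝ, ∃ N0 : ℕ, 1 ≤ A ∧ 0 ≤ C ∧
      ∀ n, N0 ≤ n → FiniteReduces P.toReal n A (C * (n : ℝ) ^ δ) := by
  set q := P.toReal with hq
  have hq1 : 1 ≤ q := one_le_toReal hP
  set γ : ℝ := δ / 10 with hγdef
  set η : ℝ := δ / (10 * q) with hηdef
  have hγ : 0 < γ := by positivity
  have hη : 0 < η := by positivity
  have hγ1 : γ ≤ 1 := by linarith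
  set I : ℕ := ⌈4 / γ⌉₊ + 2 with hI
  set r : ℕ := ⌈(3 + δ) / γ⌉₊ with hr
  set Λ : ℝ := Real.log 2 / η with hΛdef
  have hΛ0 : 0 ≤ Λ := by positivity
  set A0 := locUp q I r with hA0
  set a0 := locLo q I r with ha0
  have ha0pos : 0 < a0 := by
    have : (0 : ℝ) < I := by exact_mod_cast (show 0 < I by omega)
    rw [ha0, locLo]; positivity
  refine ⟨max 1 (3 * glueUp q Λ A0 ^ q / glueLo q Λ a0 ^ q), 12 * I * (2 : ℝ) ^ (6 * q), ?_⟩
  have hev : ∀ᶠ n : ℕ in atTop, 34 ≤ n ∧ 16 ≤ (n : ℝ) ^ η ∧ 8 * A0 / a0 ≤ (n : ℝ) ^ η ∧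
      3 * (2 : ℝ) ^ q * (I : ℝ) ^ q ≤ (n : ℝ) ^ γ ∧ 2 ≤ (n : ℝ) ^ γ ∧
      (n : ℝ) ^ (3 : ℝ) * Real.exp (-(1 / (4 * (2 : ℝ) ^ q) * (n : ℝ) ^ γ)) < 1 / 6 ∧
      (n : ℝ) ^ (2 : ℝ) * Real.exp (-(1 / 128 * (n : ℝ) ^ γ)) < 1 / 3 ∧
      3 * (6 * (2 : ℝ) ^ (6 * q)) / (n : ℝ) < 1 / 3 ∧ 2 / (n : ℝ) < 1 / 3 ∧
      (n : ℝ) ^ (2 : ℝ) * Real.exp (-(glueRate q Λ γ * (n : ℝ) ^ (γ / 2))) < 1 / 3 ∧
      (n : ℝ) ^ (2 : ℝ) * Real.exp (-(Real.exp (-(6 * Λ)) / 32 * (n : ℝ) ^ γ)) < 1 / 3 :=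
    (eventually_ge_atTop 34).and <| (eventually_rpow_ge 16 hη).and <|
      (eventually_rpow_ge _ hη).and <| (eventually_rpow_ge _ hγ).and <|
      (eventually_rpow_ge 2 hγ).and <|
      (eventually_pow_mul_exp_neg 3 hγ (by positivity) (by norm_num)).and <|
      (eventually_pow_mul_exp_neg 2 hγ (by norm_num) (by norm_num)).and <|
      (eventually_const_div_lt _ (by norm_num)).and <|
      (eventually_const_div_lt 2 (by norm_num)).and <|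
      (eventually_pow_mul_exp_neg 2 (by linarith) (glueRate_pos hΛ0 hγ) (by norm_num)).and <|
      eventually_pow_mul_exp_neg 2 hγ (by positivity) (by norm_num)
  obtain ⟨N0, hN0⟩ := eventually_atTop.1 hev
  refine ⟨N0, le_max_left _ _, by positivity, fun n hn => ?_⟩
  obtain ⟨hn34, hη16, hηsep, hγI, hγ2, hb1, hb2, hb3, hb4, hb5, hb6⟩ := hN0 n hn
  have hn1 : 1 ≤ n := by omega
  have hnR : (1 : ℝ) ≤ n := by exact_mod_cast hn1
  have hnpos : (0 : ℝ) < n := by linarith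
  obtain ⟨L, hL4, hΛL, h2L, h2L'⟩ := level_count hη hn1 hη16
  have hMge : (n : ℝ) ^ γ ≤ (⌈(n : ℝ) ^ γ⌉₊ : ℝ) := Nat.le_ceil _
  have hMle : (⌈(n : ℝ) ^ γ⌉₊ : ℝ) ≤ 2 * (n : ℝ) ^ γ :=
    (Nat.ceil_lt_add_one (by positivity)).le.trans (by linarith)
  have hbge : 2 * ((2 : ℝ) ^ (5 * L + 1)) ^ q * ((n : ℝ) ^ γ) ^ 3 ≤
      (⌈2 * ((2 : ℝ) ^ (5 * L + 1)) ^ q * ((n : ℝ) ^ γ) ^ 3⌉₊ : ℝ) := Nat.le_ceil _
  have hbR := range_bound (η := η) hq1 hγ hn1 h2L'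
  have hexp : 5 * η * q + 5 * γ = δ := by
    rw [hηdef, hγdef]; field_simp; ring
  have hm : (n : ℝ) ^ 4 ≤ ((n : ℝ) ^ γ) ^ (I - 1) := by
    rw [← Real.rpow_natCast ((n : ℝ) ^ γ), ← Real.rpow_mul hnpos.le, ← Real.rpow_natCast]
    refine Real.rpow_le_rpow_of_exponent_le hnR ?_
    have h1 := Nat.le_ceil (4 / γ)
    rw [div_le_iff₀ hγ] at h1
    rw [show I - 1 = ⌈4 / γ⌉₊ + 1 by omega]
    push_cast
    linarith
  have hθ : 3 * ((2 : ℝ) ^ q / (n : ℝ) ^ γ) ≤ ((I : ℝ) ^ q)⁻¹ := by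
    have hIq : (0 : ℝ) < (I : ℝ) ^ q := by
      have : (0 : ℝ) < I := by exact_mod_cast (show 0 < I by omega)
      positivity
    rw [mul_div_assoc', div_le_iff₀ (by linarith), inv_mul_eq_div, le_div_iff₀ hIq]
    linarith
  have hMb : (⌈(n : ℝ) ^ γ⌉₊ : ℝ) *
      (⌈2 * ((2 : ℝ) ^ (5 * L + 1)) ^ q * ((n : ℝ) ^ γ) ^ 3⌉₊ : ℝ) ≤
      6 * (2 : ℝ) ^ (6 * q) * (n : ℝ) ^ δ := by
    refine (mul_le_mul hMle hbR (by positivity) (by positivity)).trans ?_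
    rw [show 2 * (n : ℝ) ^ γ * (3 * (2 : ℝ) ^ (6 * q) * (n : ℝ) ^ (5 * η * q + 3 * γ)) =
      6 * (2 : ℝ) ^ (6 * q) * ((n : ℝ) ^ γ * (n : ℝ) ^ (5 * η * q + 3 * γ)) by ring,
      ← Real.rpow_add hnpos]
    exact mul_le_mul_of_nonneg_left (Real.rpow_le_rpow_of_exponent_le hnR (by linarith))
      (by positivity)
  have hrr : 3 + δ ≤ γ * ((r : ℝ) + 1) := by
    have h1 := Nat.le_ceil ((3 + δ) / γ)
    rw [div_le_iff₀ hγ] at h1
    rw [hr]; linarith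
  have hsep : 8 * A0 ≤ a0 * (2 : ℝ) ^ L := by
    rw [div_le_iff₀ ha0pos] at hηsep
    calc 8 * A0 ≤ (n : ℝ) ^ η * a0 := hηsep
      _ ≤ (2 : ℝ) ^ L * a0 := mul_le_mul_of_nonneg_right h2L ha0pos.le
      _ = _ := mul_comm _ _
  exact (reduce_scaled hP hn34 (by omega : 0 < I) (by linarith) hm hbge (Nat.ceil_pos.2 (by linarith))
    hθ (locBad_lt hγ1 hn1 (by positivity) hMge hMle hMb hrr hb1 hb2 hb3) hL4 hΛL hsep
    (glueBad_lt hq1 hΛ0 hγ hγ1 hn1 hMge hMle hb4 hb5 hb6)).mono (le_max_right _ _)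
      (small_dim hq1 hexp I hn1 hMle hbR)

/-- All families of at most `N0` points reduce to a bounded dimension. -/
theorem finiteReduces_bounded {q : ℝ} (hq : 1 ≤ q) (N0 : ℕ) :
    ∃ C : ℝ, 0 ≤ C ∧ ∀ n, n ≤ N0 → FiniteReduces q n 3 C := by
  refine ⟨((32 * (N0 + 1) ^ 4 : ℕ) : ℝ), Nat.cast_nonneg _, fun n hn => ?_⟩
  set x : ℝ := (N0 : ℝ) + 1 with hx
  have hx1 : 1 ≤ x := by
    have : (0 : ℝ) ≤ N0 := Nat.cast_nonneg _
    linarith
  have hnx : (n : ℝ) ≤ x := by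
    have : (n : ℝ) ≤ N0 := by exact_mod_cast hn
    linarith
  have hMx : ((32 * (N0 + 1) ^ 4 : ℕ) : ℝ) = 32 * x ^ 4 := by push_cast [hx]; rfl
  have h3 : ((1 : ℝ) + 1 / 2) / (1 - 1 / 2) = 3 := by norm_num
  rw [← h3]
  refine finiteReduces_of_weights (by linarith) (M := 32 * (N0 + 1) ^ 4) (S := x ^ 2)
    (by positivity) (by norm_num) (by norm_num) (by positivity) le_rfl ?_ fun N y => ?_
  · rw [hMx]
    have e : (1 / 2 : ℝ) ^ 2 / 4 * (32 * x ^ 4 / x ^ 2) = 2 * x ^ 2 := by field_simp; ring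
    rw [e, Real.exp_neg, ← mul_assoc, ← div_eq_mul_inv, div_lt_one (Real.exp_pos _)]
    have h := Real.add_one_le_exp (2 * x ^ 2)
    have hn2 : (n : ℝ) ^ 2 ≤ x ^ 2 := pow_le_pow_left₀ (Nat.cast_nonneg _) hnx 2
    linarith
  · obtain ⟨m, h1, h2, h3⟩ := pairWeights (p := q) (by linarith) y
    exact ⟨m, h1, h2, h3.trans (pow_le_pow_left₀ (Nat.cast_nonneg _) hnx 2)⟩

end Vale.Agent.P249
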