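import Vale.Agent.P249.Sampling

namespace Vale.Agent.P249

open Finset SimpleGraph

variable {V : Type*}

/-- No cycle of length at most `t + 1`. -/
def NoShortCycle (G : SimpleGraph V) (t : ℕ) : Prop :=
  ∀ (v : V) (c : G.Walk v v), c.IsCycle → t + 1 < c.length

/-- Two distinct paths with common endpoints have total length more than `t + 1`. -/
theorem NoShortCycle.path_unique {G : SimpleGraph V} {t : ℕ} (hG : NoShortCycle G t) {u v : V}
    (p q : G.Walk u v) (hp : p.IsPath) (hq : q.IsPath) (hlen : p.length + q.length ≤ t + 1) :
    p = q := by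
  classical
  let H : SimpleGraph V := fromEdgeSet ↑(p.edges ++ q.edges).toFinset
  have hmem : ∀ e ∈ p.edges ++ q.edges, e ∈ H.edgeSet := fun e he => by
    have hG' : e ∈ G.edgeSet := by
      rcases List.mem_append.1 he with h | h
      exacts [p.edges_subset_edgeSet h, q.edges_subset_edgeSet h]
    simp only [H, edgeSet_fromEdgeSet, Set.mem_sdiff, Finset.mem_coe, List.mem_toFinset]
    exact ⟨he, G.not_isDiag_of_mem_edgeSet hG'⟩
  have hle : H ≤ G := by
    intro a b hab
    simp only [H, fromEdgeSet_adj, Finset.mem_coe, List.mem_toFinset, List.mem_append] at hab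
    rcases hab.1 with h | h
    exacts [p.adj_of_mem_edges h, q.adj_of_mem_edges h]
  have hac : H.IsAcyclic := by
    intro w c hc
    have h1 := hG w (c.mapLe hle) ((Walk.isCycle_mapLe hle).2 hc)
    have h2 : c.edges.toFinset ⊆ (p.edges ++ q.edges).toFinset := fun e he => by
      have := c.edges_subset_edgeSet (List.mem_toFinset.1 he)
      simp only [H, edgeSet_fromEdgeSet, Set.mem_sdiff, Finset.mem_coe] at this
      exact this.1
    have h3 := (Finset.card_le_card h2).trans (List.toFinset_card_le _)
    rw [List.toFinset_card_of_nodup hc.edges_nodup, List.length_append, Walk.length_edges,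
      Walk.length_edges, Walk.length_edges] at h3
    simp only [Walk.mapLe, Walk.length_map] at h1
    omega
  have := hac.path_unique
    ⟨p.transfer H fun e he => hmem e (List.mem_append_left _ he), hp.transfer _⟩
    ⟨q.transfer H fun e he => hmem e (List.mem_append_right _ he), hq.transfer _⟩
  have h := congrArg (fun r : H.Path u v => (r : H.Walk u v).support) this
  simp only [Walk.support_transfer] at h
  exact Walk.ext_support h

/-- A vertex set in which every vertex has at least three neighbours is exponentially large. -/
theorem two_pow_le_card [Fintype V] [DecidableEq V] {G : SimpleGraph V} [DecidableRel G.Adj]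
    {L : ℕ} (hG : NoShortCycle G (2 * L)) {S : Finset V} {v : V} (hv : v ∈ S)
    (hdeg : ∀ u ∈ S, 3 ≤ (S.filter (G.Adj u)).card) : ∀ k ≤ L, 2 ^ k ≤ S.card := by
  suffices ∀ k ≤ L, ∃ T : Finset V, T ⊆ S ∧ 2 ^ k ≤ T.card ∧
      ∀ u ∈ T, ∃ p : G.Walk v u, p.IsPath ∧ p.length = k by
    intro k hk
    obtain ⟨T, hT, hT2, _⟩ := this k hk
    exact hT2.trans (Finset.card_le_card hT)
  intro k
  induction k with
  | zero => exact fun _ => ⟨{v}, by simpa, by simp, fun u hu => by
      rw [Finset.mem_singleton] at hu; subst hu; exact ⟨.nil, Walk.IsPath.nil, rfl⟩⟩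
  | succ k ih =>
    intro hk
    obtain ⟨T, hTS, hTc, hT⟩ := ih (by omega)
    have hT' : ∀ u ∈ T, ∃ x : V, ∃ p : G.Walk v u, p.IsPath ∧ p.length = k ∧ p.penultimate = x :=
      fun u hu => by obtain ⟨p, h1, h2⟩ := hT u hu; exact ⟨_, p, h1, h2, rfl⟩
    have : Nonempty V := ⟨v⟩
    choose! pen hpen using hT'
    let N : V → Finset V := fun u => (S.filter (G.Adj u)).filter fun w => w ≠ pen u
    have hN : ∀ u ∈ T, 2 ≤ (N u).card := fun u hu => by
      have := hdeg u (hTS hu)
      have h2 : (S.filter (G.Adj u)).card ≤ (N u).card + 1 := by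
        refine (Finset.card_le_card (t := insert (pen u) (N u)) ?_).trans
          (Finset.card_insert_le _ _)
        intro w hw
        by_cases h : w = pen u
        · simp [h]
        · simp [N, h, Finset.mem_filter.1 hw]
      omega
    -- a new neighbour gives a longer path
    have hext : ∀ u ∈ T, ∀ w ∈ N u, ∃ q : G.Walk v w, q.IsPath ∧ q.length = k + 1 ∧
        q.penultimate = u := fun u hu w hw => by
      obtain ⟨p, hp, hpl, hpp⟩ := hpen u hu
      obtain ⟨hw1, hne⟩ := Finset.mem_filter.1 hw
      have hadj : G.Adj u w := (Finset.mem_filter.1 hw1).2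
      have hnm : w ∉ p.support := fun hmem => by
        have hu' : u ∉ (p.takeUntil w hmem).support :=
          Walk.endpoint_notMem_support_takeUntil hp hmem hadj.ne
        have hq : ((p.takeUntil w hmem).concat hadj.symm).IsPath := (hp.takeUntil hmem).concat hu' _
        have hl := Walk.length_takeUntil_le_length p hmem
        have := hG.path_unique p _ hp hq (by
          rw [Walk.length_concat, hpl]; rw [hpl] at hl; omega)
        exact hne (by rw [← hpp, this, Walk.penultimate_concat])
      exact ⟨p.concat hadj, hp.concat hnm hadj, by rw [Walk.length_concat, hpl],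
        Walk.penultimate_concat _ _⟩
    refine ⟨T.biUnion N, ?_, ?_, ?_⟩
    · intro w hw
      obtain ⟨u, hu, hw⟩ := Finset.mem_biUnion.1 hw
      exact (Finset.mem_filter.1 (Finset.mem_filter.1 hw).1).1
    · rw [Finset.card_biUnion]
      · calc 2 ^ (k + 1) ≤ T.card * 2 := by rw [pow_succ]; omega
          _ = ∑ _u ∈ T, 2 := by simp
          _ ≤ _ := Finset.sum_le_sum fun u hu => hN u hu
      · intro u hu u' hu' hne
        rw [Function.onFun, Finset.disjoint_left]
        intro w hw hw'
        obtain ⟨q, hq, hql, hqp⟩ := hext u hu w hw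
        obtain ⟨q', hq', hql', hqp'⟩ := hext u' hu' w hw'
        have := hG.path_unique q q' hq hq' (by omega)
        exact hne (by rw [← hqp, ← hqp', this])
    · intro w hw
      obtain ⟨u, hu, hw⟩ := Finset.mem_biUnion.1 hw
      obtain ⟨q, hq, hql, _⟩ := hext u hu w hw
      exact ⟨q, hq, hql⟩

/-- A graph without short cycles on few vertices has at most `2 |S|` edges inside each set `S`. -/
theorem card_adj_pairs_le [Fintype V] [DecidableEq V] {G : SimpleGraph V} [DecidableRel G.Adj]
    {L : ℕ} (hG : NoShortCycle G (2 * L)) (hV : Fintype.card V < 2 ^ L) (S : Finset V) :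
    ((S ×ˢ S).filter fun q => G.Adj q.1 q.2).card ≤ 4 * S.card := by
  induction S using Finset.strongInduction with
  | _ S ih =>
    rcases S.eq_empty_or_nonempty with rfl | ⟨v, hv⟩
    · simp
    obtain ⟨u, hu, hud⟩ : ∃ u ∈ S, (S.filter (G.Adj u)).card ≤ 2 := by
      by_contra hc
      push Not at hc
      have h1 := two_pow_le_card hG hv (fun u hu => hc u hu) L le_rfl
      have h2 := Finset.card_le_univ S
      omega
    have hsub : (S ×ˢ S).filter (fun q => G.Adj q.1 q.2) ⊆
        ((S.erase u ×ˢ S.erase u).filter fun q => G.Adj q.1 q.2) ∪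
          (((S.filter (G.Adj u)).image fun w => (u, w)) ∪
           ((S.filter (G.Adj u)).image fun w => (w, u))) := by
      rintro ⟨a, b⟩ hq
      simp only [Finset.mem_filter, Finset.mem_product] at hq
      obtain ⟨⟨ha, hb⟩, hab⟩ := hq
      by_cases h1 : a = u
      · subst h1; simp [hb, hab]
      by_cases h2 : b = u
      · subst h2; simp [ha, hab.symm]
      simp [ha, hb, hab, h1, h2]
    have h3 := ih _ (Finset.erase_ssubset hu)
    have h4 := Finset.card_le_card hsub
    have h5 := Finset.card_union_le ((S.erase u ×ˢ S.erase u).filter fun q => G.Adj q.1 q.2)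
      (((S.filter (G.Adj u)).image fun w => (u, w)) ∪
        ((S.filter (G.Adj u)).image fun w => (w, u)))
    have h6 := Finset.card_union_le ((S.filter (G.Adj u)).image fun w => (u, w))
      ((S.filter (G.Adj u)).image fun w => (w, u))
    have h7 := Finset.card_image_le (s := S.filter (G.Adj u)) (f := fun w => (u, w))
    have h8 := Finset.card_image_le (s := S.filter (G.Adj u)) (f := fun w => (w, u))
    have h9 := Finset.card_erase_add_one hu
    omega

/-- The greedy spanner, stated through the increments of an arbitrary family of functions. -/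
theorem exists_spanner [Fintype V] [DecidableEq V] (d : V → V → ℝ) (hdc : ∀ a b, d a b = d b a)
    {I : Type*} (f : I → V → ℝ) (t : ℕ) (ht : 1 ≤ t) (P : Finset (V × V))
    (hP : ∀ q ∈ P, q.1 ≠ q.2) (hd : ∀ q ∈ P, 0 ≤ d q.1 q.2) :
    ∃ G : SimpleGraph V, NoShortCycle G t ∧ (∀ a b, G.Adj a b → (a, b) ∈ P ∨ (b, a) ∈ P) ∧
      ∀ q ∈ P, ∀ i, ∀ K : ℝ, 0 ≤ K → (∀ a b, G.Adj a b → |f i a - f i b| ≤ K * d a b) →
        |f i q.1 - f i q.2| ≤ t * K * d q.1 q.2 := by
  induction P using Finset.induction_on_max_value (fun q : V × V => d q.1 q.2) with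
  | empty =>
    refine ⟨⊥, ?_, by simp, by simp⟩
    intro v c hc
    exact absurd hc (isAcyclic_bot c)
  | insert q0 P hq0 hmax ih =>
    obtain ⟨a0, b0⟩ := q0
    have hne : a0 ≠ b0 := hP (a0, b0) (Finset.mem_insert_self _ _)
    have hd0 : 0 ≤ d a0 b0 := hd (a0, b0) (Finset.mem_insert_self _ _)
    obtain ⟨G, hG, hGP, hspan⟩ := ih (fun q hq => hP q (Finset.mem_insert_of_mem hq))
      (fun q hq => hd q (Finset.mem_insert_of_mem hq))
    by_cases hcov : ∀ i, ∀ K : ℝ, 0 ≤ K → (∀ a b, G.Adj a b → |f i a - f i b| ≤ K * d a b) →
        |f i a0 - f i b0| ≤ t * K * d a0 b0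
    · refine ⟨G, hG, fun a b h => (hGP a b h).imp Finset.mem_insert_of_mem Finset.mem_insert_of_mem,
        fun q hq => ?_⟩
      rcases Finset.mem_insert.1 hq with rfl | hq
      exacts [hcov, hspan q hq]
    · refine ⟨G ⊔ edge a0 b0, ?_, ?_, ?_⟩
      · intro v c hc
        by_contra hlen
        push Not at hlen
        by_cases he : s(a0, b0) ∈ c.edges
        · -- the cycle yields a short walk from a0 to b0 inside G
          let H : SimpleGraph V := fromEdgeSet ↑c.edges.toFinset
          have hcH : ∀ e ∈ c.edges, e ∈ H.edgeSet := fun e hec => by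
            simp only [H, edgeSet_fromEdgeSet, Set.mem_sdiff, Finset.mem_coe, List.mem_toFinset]
            exact ⟨hec, (G ⊔ edge a0 b0).not_isDiag_of_mem_edgeSet (c.edges_subset_edgeSet hec)⟩
          have hreach := (adj_and_reachable_delete_edges_iff_exists_cycle (G := H)).2
            ⟨v, c.transfer H hcH, hc.transfer hcH, by rwa [Walk.edges_transfer]⟩
          obtain ⟨q⟩ := hreach.2
          have hqsub : ∀ e ∈ q.bypass.edges, e ∈ c.edges ∧ e ≠ s(a0, b0) ∧ e ∈ G.edgeSet := by
            intro e he'
            have h1 := q.bypass.edges_subset_edgeSet he'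
            simp only [edgeSet_deleteEdges, H, edgeSet_fromEdgeSet, Set.mem_sdiff,
              Finset.mem_coe, List.mem_toFinset, Set.mem_singleton_iff] at h1
            refine ⟨h1.1.1, ?_, ?_⟩
            · intro hh; subst hh; simp [hne] at h1
            · have h2 := c.edges_subset_edgeSet h1.1.1
              rw [edgeSet_sup, edgeSet_edge_of_ne hne] at h2
              rcases h2 with h2 | h2
              · exact h2
              · exact absurd h2 (by intro hh; simp only [Set.mem_singleton_iff] at hh
                                    subst hh; simp [hne] at h1)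
          let r := q.bypass.transfer G fun e he' => (hqsub e he').2.2
          have hr : r.length ≤ t := by
            have hnd : q.bypass.edges.Nodup := q.bypass_isPath.isTrail.edges_nodup
            have h2 : q.bypass.edges.toFinset ⊆ c.edges.toFinset.erase s(a0, b0) := fun e he' => by
              obtain ⟨h1, h2, _⟩ := hqsub e (List.mem_toFinset.1 he')
              simp [h1, h2]
            have h3 := Finset.card_le_card h2
            rw [Finset.card_erase_of_mem (List.mem_toFinset.2 he),
              List.toFinset_card_of_nodup hnd, List.toFinset_card_of_nodup hc.edges_nodup,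
              Walk.length_edges, Walk.length_edges] at h3
            simp only [r, Walk.length_transfer]
            omega
          refine hcov fun i K hK hKG => ?_
          have key : ∀ {a b : V} (w : G.Walk a b),
              |f i a - f i b| ≤ w.length * (K * d a0 b0) := by
            intro a b w
            induction w with
            | nil => simp
            | cons hadj w' ihw =>
              rename_i a' c' b'
              have hm : d a' c' ≤ d a0 b0 := by
                rcases hGP _ _ hadj with h | h
                · exact hmax _ h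
                · rw [hdc]; exact hmax _ h
              have h1 := hKG _ _ hadj
              have h2 := abs_sub_le (f i a') (f i c') (f i b')
              have h4 : K * d a' c' ≤ K * d a0 b0 := mul_le_mul_of_nonneg_left hm hK
              push_cast [Walk.length_cons]
              linarith
          calc |f i a0 - f i b0| ≤ r.length * (K * d a0 b0) := key r
            _ ≤ (t : ℝ) * (K * d a0 b0) := by
              refine mul_le_mul_of_nonneg_right (by exact_mod_cast hr) (mul_nonneg hK hd0)
            _ = _ := by ring
        · have hsub : ∀ e ∈ c.edges, e ∈ G.edgeSet := fun e hec => by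
            have h2 := c.edges_subset_edgeSet hec
            rw [edgeSet_sup, edgeSet_edge_of_ne hne] at h2
            rcases h2 with h2 | h2
            · exact h2
            · rw [Set.mem_singleton_iff] at h2; subst h2; exact absurd hec he
          have := hG v (c.transfer G hsub) (hc.transfer hsub)
          rw [Walk.length_transfer] at this
          omega
      · intro a b h
        rcases h with h | h
        · exact (hGP a b h).imp Finset.mem_insert_of_mem Finset.mem_insert_of_mem
        · rw [edge_adj] at h
          rcases h.1 with ⟨rfl, rfl⟩ | ⟨rfl, rfl⟩ <;> simp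
      · intro q hq i K hK hKG
        rcases Finset.mem_insert.1 hq with rfl | hq
        · have h1 := hKG a0 b0 (Or.inr (by rw [edge_adj]; exact ⟨Or.inl ⟨rfl, rfl⟩, hne⟩))
          have ht1 : (1 : ℝ) ≤ t := by exact_mod_cast ht
          nlinarith [mul_nonneg hK hd0]
        · exact hspan q hq i K hK fun a b h => hKG a b (Or.inl h)

end Vale.Agent.P249
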